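import Mathlib

/-!
# P073, block P2a: choice of a level, abstract form

`exists_level`: among the levels `t ∈ (α, β)` there is one for which the total weight of the
intervals `[a i, b i]` containing `t` is at most the average.

`exists_level_cells`: a finite closed cover of `S` by cells `Q i` with boundaries `bQ i`; the set
`V` of the cells on whose boundary `u` is not everywhere `< t`.
-/

open Set Topology MeasureTheory

namespace P073.H953

/-- choice of a level -/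
theorem exists_level {ι : Type*} (s : Finset ι) (a b w : ι → ℝ) (hab : ∀ i ∈ s, a i ≤ b i)
    (hw : ∀ i ∈ s, 0 ≤ w i) {α β : ℝ} (hαβ : α < β) {N : Set ℝ} (hN : volume N = 0) :
    ∃ t ∈ Ioo α β, t ∉ N ∧ ∀ A ⊆ s, (∀ i ∈ A, a i ≤ t ∧ t ≤ b i) →
      (β - α) * ∑ i ∈ A, w i ≤ ∑ i ∈ s, (b i - a i) * w i := by
  classical
  set μ : Measure ℝ := volume.restrict (Ioo α β) with hμ
  have hvol : volume (Ioo α β) = ENNReal.ofReal (β - α) := Real.volume_Ioo
  have hμ0 : μ ≠ 0 := by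
    intro h
    have : μ univ = 0 := by rw [h]; rfl
    rw [hμ, Measure.restrict_apply_univ, hvol, ENNReal.ofReal_eq_zero] at this
    linarith
  have : IsFiniteMeasure μ := ⟨by
    rw [hμ, Measure.restrict_apply_univ, hvol]; exact ENNReal.ofReal_lt_top⟩
  set g : ℝ → ℝ := fun t => ∑ i ∈ s, (Icc (a i) (b i)).indicator (fun _ => w i) t with hg
  have hgi : ∀ i ∈ s, Integrable ((Icc (a i) (b i)).indicator (fun _ : ℝ => w i)) μ := fun i _ =>
    (integrable_const (w i)).indicator measurableSet_Icc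
  have hint : Integrable g μ := integrable_finsetSum s hgi
  have hN' : μ (N ∪ (Ioo α β)ᶜ) = 0 := by
    refine measure_union_null ?_ ?_
    · exact Measure.absolutelyContinuous_of_le Measure.restrict_le_self hN
    · rw [hμ, Measure.restrict_apply measurableSet_Ioo.compl, compl_inter_self, measure_empty]
  obtain ⟨t, htN, ht⟩ := exists_notMem_null_le_average hμ0 hint hN'
  rw [mem_union, not_or, mem_compl_iff, not_not] at htN
  refine ⟨t, htN.2, htN.1, fun A hA hAt => ?_⟩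
  have h1 : ∑ i ∈ A, w i ≤ g t := by
    calc ∑ i ∈ A, w i = ∑ i ∈ A, (Icc (a i) (b i)).indicator (fun _ => w i) t :=
          Finset.sum_congr rfl fun i hi => by
            rw [indicator_of_mem (show t ∈ Icc (a i) (b i) from hAt i hi)]
      _ ≤ g t := Finset.sum_le_sum_of_subset_of_nonneg hA fun i hi _ =>
          indicator_nonneg (fun _ _ => hw i hi) t
  have h2 : ∫ x, g x ∂μ ≤ ∑ i ∈ s, (b i - a i) * w i := by
    rw [hg, integral_finsetSum s hgi]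
    refine Finset.sum_le_sum fun i hi => ?_
    rw [integral_indicator_const _ measurableSet_Icc, smul_eq_mul]
    refine mul_le_mul_of_nonneg_right ?_ (hw i hi)
    have h3 : μ (Icc (a i) (b i)) ≤ ENNReal.ofReal (b i - a i) := by
      rw [← Real.volume_Icc]
      exact Measure.restrict_le_self _
    exact ENNReal.toReal_le_of_le_ofReal (by linarith [hab i hi]) h3
  have h4 : ⨍ x, g x ∂μ = (β - α)⁻¹ * ∫ x, g x ∂μ := by
    rw [average_eq, smul_eq_mul]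
    congr 2
    rw [measureReal_def, hμ, Measure.restrict_apply_univ, hvol,
      ENNReal.toReal_ofReal (by linarith)]
  rw [h4] at ht
  have h5 : 0 < β - α := by linarith
  calc (β - α) * ∑ i ∈ A, w i ≤ (β - α) * g t := by gcongr
    _ ≤ (β - α) * ((β - α)⁻¹ * ∫ x, g x ∂μ) := by gcongr
    _ = ∫ x, g x ∂μ := by field_simp
    _ ≤ _ := h2

section Cells

variable {X ι : Type*} [TopologicalSpace X]

/-- the union of the cells on whose boundary `u` is not everywhere less than `t` -/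
def upSet (J : Finset ι) (Q bQ : ι → Set X) (u : X → ℝ) (t : ℝ) : Set X :=
  ⋃ i ∈ {i | i ∈ J ∧ ∃ x ∈ bQ i, t ≤ u x}, Q i

theorem isClosed_upSet (J : Finset ι) (Q bQ : ι → Set X) (hQ : ∀ i ∈ J, IsClosed (Q i))
    (u : X → ℝ) (t : ℝ) : IsClosed (upSet J Q bQ u t) := by
  refine Set.Finite.isClosed_biUnion (J.finite_toSet.subset fun i hi => hi.1) ?_
  exact fun i hi => hQ i hi.1

theorem upSet_subset {J : Finset ι} {Q bQ : ι → Set X} {u : X → ℝ} {t : ℝ} {S : Set X}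
    (hQS : ∀ i ∈ J, Q i ⊆ S) : upSet J Q bQ u t ⊆ S :=
  iUnion₂_subset fun i hi => hQS i hi.1

/-- outside of `V` -/
theorem exists_of_notMem_upSet {J : Finset ι} {Q bQ : ι → Set X} {u : X → ℝ} {t : ℝ} {S : Set X}
    (hcov : ∀ x ∈ S, ∃ i ∈ J, x ∈ Q i) {x : X} (hx : x ∈ S) (hxV : x ∉ upSet J Q bQ u t) :
    ∃ j ∈ J, x ∈ Q j ∧ ∀ y ∈ bQ j, u y < t := by
  obtain ⟨j, hj, hxj⟩ := hcov x hx
  refine ⟨j, hj, hxj, fun y hy => ?_⟩
  by_contra h
  exact hxV (mem_iUnion₂.2 ⟨j, ⟨hj, y, hy, not_lt.1 h⟩, hxj⟩)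

/-- a point of `V` is an interior point or lies on the boundary of a crossing cell -/
theorem upSet_cases {J : Finset ι} {Q bQ : ι → Set X} {u : X → ℝ} {t : ℝ} {S : Set X}
    (hQ : ∀ i ∈ J, IsClosed (Q i)) (hcov : ∀ x ∈ S, ∃ i ∈ J, x ∈ Q i)
    (hint : ∀ i ∈ J, ∀ j ∈ J, i ≠ j → Q i ∩ Q j ⊆ bQ i ∩ bQ j) {x : X}
    (hxV : x ∈ upSet J Q bQ u t) :
    (∀ᶠ y in 𝓝[S] x, y ∈ upSet J Q bQ u t) ∨
      ∃ i ∈ J, x ∈ bQ i ∧ u x < t ∧ ∃ y ∈ bQ i, t ≤ u y := by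
  classical
  by_cases h : ∀ j ∈ J, x ∈ Q j → ∃ y ∈ bQ j, t ≤ u y
  · left
    have h1 : IsClosed (⋃ j ∈ {j | j ∈ J ∧ x ∉ Q j}, Q j) :=
      Set.Finite.isClosed_biUnion (J.finite_toSet.subset fun i hi => hi.1) fun i hi => hQ i hi.1
    have h2 : x ∉ ⋃ j ∈ {j | j ∈ J ∧ x ∉ Q j}, Q j := by
      rw [mem_iUnion₂]
      rintro ⟨j, hj, hxj⟩
      exact hj.2 hxj
    filter_upwards [mem_nhdsWithin_of_mem_nhds (h1.isOpen_compl.mem_nhds h2), self_mem_nhdsWithin]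
      with y hy hyS
    obtain ⟨j, hj, hyj⟩ := hcov y hyS
    refine mem_iUnion₂.2 ⟨j, ⟨hj, h j hj ?_⟩, hyj⟩
    by_contra hxj
    exact hy (mem_iUnion₂.2 ⟨j, ⟨hj, hxj⟩, hyj⟩)
  · right
    push Not at h
    obtain ⟨j, hj, hxj, hj'⟩ := h
    obtain ⟨i, hi, hxi⟩ := mem_iUnion₂.1 hxV
    have hij : i ≠ j := by
      rintro rfl
      obtain ⟨y, hy, hy'⟩ := hi.2
      exact absurd hy' (not_le.2 (hj' y hy))
    obtain ⟨h1, h2⟩ := hint i hi.1 j hj hij ⟨hxi, hxj⟩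
    exact ⟨i, hi.1, h1, hj' x h2, hi.2⟩

/-- **choice of a level for a finite family of cells.** `u` takes values in `[a i, b i]` on the
boundary of the cell `i`, which has weight `w i`; `A` is the set of crossing cells. -/
theorem exists_level_cells (J : Finset ι) {Q bQ : ι → Set X} {u : X → ℝ} {S : Set X}
    (hQ : ∀ i ∈ J, IsClosed (Q i)) (hcov : ∀ x ∈ S, ∃ i ∈ J, x ∈ Q i)
    (hint : ∀ i ∈ J, ∀ j ∈ J, i ≠ j → Q i ∩ Q j ⊆ bQ i ∩ bQ j) (a b w : ι → ℝ)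
    (hab : ∀ i ∈ J, a i ≤ b i) (hu : ∀ i ∈ J, ∀ x ∈ bQ i, a i ≤ u x ∧ u x ≤ b i)
    (hw : ∀ i ∈ J, 0 ≤ w i) {α β : ℝ} (hαβ : α < β) {N : Set ℝ} (hN : volume N = 0) :
    ∃ t ∈ Ioo α β, t ∉ N ∧ ∃ A ⊆ J, (∀ i ∈ A, a i ≤ t ∧ t ≤ b i) ∧
      (β - α) * ∑ i ∈ A, w i ≤ ∑ i ∈ J, (b i - a i) * w i ∧
      ∀ x ∈ upSet J Q bQ u t, (∀ᶠ y in 𝓝[S] x, y ∈ upSet J Q bQ u t) ∨
        ∃ i ∈ A, x ∈ bQ i ∧ u x < t := by
  classical
  obtain ⟨t, ht, htN, h⟩ := exists_level J a b w hab hw hαβ hN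
  refine ⟨t, ht, htN, J.filter (fun i => a i ≤ t ∧ t ≤ b i), Finset.filter_subset _ _,
    fun i hi => (Finset.mem_filter.1 hi).2, h _ (Finset.filter_subset _ _)
      fun i hi => (Finset.mem_filter.1 hi).2, fun x hx => ?_⟩
  rcases upSet_cases hQ hcov hint hx with h1 | ⟨i, hi, hxi, hxt, y, hy, hty⟩
  · exact Or.inl h1
  · exact Or.inr ⟨i, Finset.mem_filter.2 ⟨hi, (hu i hi x hxi).1.trans hxt.le,
      hty.trans (hu i hi y hy).2⟩, hxi, hxt⟩

end Cells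

/-- Cauchy–Schwarz for the sum of the products of the oscillations -/
theorem sum_mul_le_sqrt {ι : Type*} (J : Finset ι) (x y : ι → ℝ) {A B : ℝ}
    (hA : ∑ i ∈ J, x i ^ 2 ≤ A) (hB : ∑ i ∈ J, y i ^ 2 ≤ B) :
    ∑ i ∈ J, x i * y i ≤ √A * √B := by
  have h1 := Finset.sum_mul_sq_le_sq_mul_sq J x y
  have hA0 : 0 ≤ A := (Finset.sum_nonneg fun i _ => sq_nonneg (x i)).trans hA
  have hB0 : 0 ≤ B := (Finset.sum_nonneg fun i _ => sq_nonneg (y i)).trans hB
  rw [← Real.sqrt_mul hA0]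
  refine Real.le_sqrt_of_sq_le (h1.trans ?_)
  exact mul_le_mul hA hB (Finset.sum_nonneg fun i _ => sq_nonneg (y i)) hA0

end P073.H953
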