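import Vale.Agent.P073.H83.Wt
import Vale.Agent.P073.Gauge.Cx673a
import Vale.Agent.P073.H953.Level

/-!
# P073, block P2a: the subsquares of a dyadic square

Intersections, cover, boundary; oscillation on the boundary of a square from the oscillations on
its four edges; the sum over all subsquares.
-/

open Set Metric Topology Filter

namespace P073.H953

open Vale.Agent.P073.St (V)
open Vale.Agent.P073.SQ (ev)
open Vale.Agent.P073.AB
open Vale.Agent.P073.H83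
open Vale.Agent.P073.AB.P86 (rel)

variable {v : V}

/-- the relative boundary of a dyadic square -/
def bds (v : V) (s : Idx × Fin 3) : Set V := squ v s \ rel v s

theorem bds_sub {s : Idx × Fin 3} : bds v s ⊆ squ v s := sdiff_subset

theorem mem_bds {s : Idx × Fin 3} {x : V} : x ∈ bds v s ↔ x ∈ squ v s ∧
    ∃ k, k ≠ s.2 ∧ (x k = v k + s.1.2 k / 2 ^ s.1.1 ∨ x k = v k + (s.1.2 k + 1) / 2 ^ s.1.1) := by
  refine and_congr_right fun hx => ?_
  constructor
  · intro h3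
    by_contra hcon
    push Not at hcon
    exact h3 ⟨hx.1, fun k hk => ⟨lt_of_le_of_ne (hx.2 k hk).1 (hcon k hk).1.symm,
      lt_of_le_of_ne (hx.2 k hk).2 (hcon k hk).2⟩⟩
  · rintro ⟨k, hk, h3⟩ h4
    rcases h3 with h3 | h3
    · exact (h4.2 k hk).1.ne' h3
    · exact (h4.2 k hk).2.ne h3

theorem isClosed_squ (s : Idx × Fin 3) : IsClosed (squ v s) := (isCompact_squ v s).isClosed

theorem inter_sub_left {m : ℕ} {k : Fin 3} {w w' : Fin 3 → ℤ} (hk : w k = w' k) (hne : w ≠ w') :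
    squ v ((m, w), k) ∩ squ v ((m, w'), k) ⊆ bds v ((m, w), k) := by
  rintro x ⟨h1, h2⟩
  rw [mem_bds]
  refine ⟨h1, ?_⟩
  obtain ⟨j, hj⟩ := Function.ne_iff.1 hne
  have hjk : j ≠ k := by rintro rfl; exact hj hk
  refine ⟨j, hjk, ?_⟩
  obtain ⟨a1, b1⟩ := h1.2 j hjk
  obtain ⟨a2, b2⟩ := h2.2 j hjk
  simp only at a1 b1 a2 b2 ⊢
  rcases lt_or_gt_of_ne hj with h | h
  · right
    have h3 : (w j : ℝ) + 1 ≤ w' j := by exact_mod_cast h
    have h4 : ((w j : ℝ) + 1) / 2 ^ m ≤ w' j / 2 ^ m := by gcongr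
    linarith
  · left
    have h3 : (w' j : ℝ) + 1 ≤ w j := by exact_mod_cast h
    have h4 : ((w' j : ℝ) + 1) / 2 ^ m ≤ w j / 2 ^ m := by gcongr
    linarith

theorem inter_sub {m : ℕ} {k : Fin 3} {w w' : Fin 3 → ℤ} (hk : w k = w' k) (hne : w ≠ w') :
    squ v ((m, w), k) ∩ squ v ((m, w'), k) ⊆ bds v ((m, w), k) ∩ bds v ((m, w'), k) :=
  subset_inter (inter_sub_left hk hne) (by
    rw [inter_comm]; exact inter_sub_left hk.symm hne.symm)

/-- the subsquares cover the square -/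
theorem exists_mem_sub {s : Idx × Fin 3} {m : ℕ} (hm : s.1.1 ≤ m) {x : V} (hx : x ∈ squ v s) :
    ∃ z ∈ eLow s m, x ∈ squ v ((m, z), s.2) := by
  have hs := two_pow_split hm
  have hp : (0:ℝ) < 2 ^ m := by positivity
  have hp1 : (1:ℤ) ≤ 2 ^ (m - s.1.1) := one_le_pow₀ (by norm_num)
  have key : ∀ j, ∃ z : ℤ, (j = s.2 → z = 2 ^ (m - s.1.1) * s.1.2 j) ∧ (j ≠ s.2 →
      (2 ^ (m - s.1.1) * s.1.2 j ≤ z ∧ z < 2 ^ (m - s.1.1) * (s.1.2 j + 1)) ∧
      v j + z / 2 ^ m ≤ x j ∧ x j ≤ v j + (z + 1) / 2 ^ m) := by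
    intro j
    by_cases hj : j = s.2
    · exact ⟨_, fun _ => rfl, fun h => absurd hj h⟩
    · obtain ⟨h1, h2⟩ := hx.2 j hj
      set y : ℝ := (x j - v j) * 2 ^ m with hy
      have e1 : (s.1.2 j : ℝ) / 2 ^ s.1.1 = (2 ^ (m - s.1.1) * s.1.2 j) / 2 ^ m := by
        rw [hs]; field_simp
      have e2 : ((s.1.2 j : ℝ) + 1) / 2 ^ s.1.1 = (2 ^ (m - s.1.1) * (s.1.2 j + 1)) / 2 ^ m := by
        rw [hs]; field_simp
      rw [e1] at h1
      rw [e2] at h2
      have h3 : (2:ℝ) ^ (m - s.1.1) * s.1.2 j ≤ y := by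
        rw [hy, ← div_le_iff₀ hp]; linarith
      have h4 : y ≤ (2:ℝ) ^ (m - s.1.1) * (s.1.2 j + 1) := by
        rw [hy, ← le_div_iff₀ hp]; linarith
      have hyx : x j = v j + y / 2 ^ m := by rw [hy]; field_simp; ring
      rcases h4.lt_or_eq with h5 | h5
      · refine ⟨⌊y⌋, fun h => absurd h hj, fun _ => ⟨⟨?_, ?_⟩, ?_, ?_⟩⟩
        · rw [Int.le_floor]; push_cast; exact h3
        · rw [Int.floor_lt]; push_cast; exact h5
        · rw [hyx]; gcongr; exact Int.floor_le y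
        · rw [hyx]; gcongr; exact (Int.lt_floor_add_one y).le
      · refine ⟨2 ^ (m - s.1.1) * (s.1.2 j + 1) - 1, fun h => absurd h hj,
          fun _ => ⟨⟨by nlinarith, by linarith⟩, ?_, ?_⟩⟩
        · rw [hyx, h5]; gcongr; push_cast; linarith
        · rw [hyx, h5]; gcongr; push_cast; linarith
  choose z hz hz' using key
  refine ⟨z, mem_eLow.2 ⟨by simpa using hz s.2 rfl, fun j hj => (hz' j hj).1⟩, ?_, fun j hj =>
    (hz' j hj).2⟩
  rw [hx.1]
  show v s.2 + (s.1.2 s.2 : ℝ) / 2 ^ s.1.1 = v s.2 + (z s.2 : ℝ) / 2 ^ m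
  rw [hz s.2 rfl]
  push_cast
  rw [hs]
  field_simp

theorem eLow_eq {s : Idx × Fin 3} {m : ℕ} {w w' : Fin 3 → ℤ} (hw : w ∈ eLow s m)
    (hw' : w' ∈ eLow s m) : w s.2 = w' s.2 := by
  rw [(mem_eLow.1 hw).1, (mem_eLow.1 hw').1]

/-! ### The four edges -/

/-- first tangential direction -/
def t1 (k : Fin 3) : Fin 3 := if k = 0 then 1 else 0

/-- second tangential direction -/
def t2 (k : Fin 3) : Fin 3 := if k = 2 then 1 else 2

theorem t1_ne (k : Fin 3) : t1 k ≠ k := by revert k; decide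
theorem t2_ne (k : Fin 3) : t2 k ≠ k := by revert k; decide
theorem t1_ne_t2 (k : Fin 3) : t1 k ≠ t2 k := by revert k; decide
theorem eq_t {j k : Fin 3} (h : j ≠ k) : j = t1 k ∨ j = t2 k := by revert j k; decide

/-- move a corner by one step in direction `i` -/
def up (w : Fin 3 → ℤ) (i : Fin 3) : Fin 3 → ℤ := Function.update w i (w i + 1)

theorem up_same (w : Fin 3 → ℤ) (i : Fin 3) : up w i i = w i + 1 := Function.update_self ..
theorem up_ne (w : Fin 3 → ℤ) {i j : Fin 3} (h : j ≠ i) : up w i j = w j :=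
  Function.update_of_ne h _ _

/-- lower edge in direction `t1` -/
def eA (s : Idx × Fin 3) : Idx × Fin 3 := (s.1, t1 s.2)
/-- upper edge in direction `t1` -/
def eA' (s : Idx × Fin 3) : Idx × Fin 3 := ((s.1.1, up s.1.2 (t2 s.2)), t1 s.2)
/-- lower edge in direction `t2` -/
def eB (s : Idx × Fin 3) : Idx × Fin 3 := (s.1, t2 s.2)
/-- upper edge in direction `t2` -/
def eB' (s : Idx × Fin 3) : Idx × Fin 3 := ((s.1.1, up s.1.2 (t1 s.2)), t2 s.2)

/-- a point of an edge by coordinates -/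
theorem mem_edge_iff {n : ℕ} {w : Fin 3 → ℤ} {k : Fin 3} {x : V} :
    x ∈ edge v ((n, w), k) ↔ (v k + w k / 2 ^ n ≤ x k ∧ x k ≤ v k + (w k + 1) / 2 ^ n) ∧
      ∀ j, j ≠ k → x j = v j + w j / 2 ^ n := by
  have hp : (0:ℝ) < 2 ^ n := by positivity
  constructor
  · intro h
    rw [edge, segment_eq_image'] at h
    obtain ⟨t, ht, rfl⟩ := h
    simp only [add_sub_cancel_left]
    refine ⟨?_, fun j hj => ?_⟩
    · rw [edge_coord, if_pos rfl]
      constructor
      · gcongr; linarith [ht.1]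
      · gcongr; exact ht.2
    · rw [edge_coord, if_neg hj, add_zero]
  · rintro ⟨⟨h1, h2⟩, h3⟩
    have e : x = pt v n w + ((x k - v k) * 2 ^ n - w k) • ((1 / 2 ^ n : ℝ) • ev k) := by
      funext j
      rw [edge_coord]
      by_cases hj : j = k
      · subst hj
        rw [if_pos rfl]
        field_simp
        ring
      · rw [if_neg hj, add_zero, h3 j hj]
    rw [e]
    refine mem_edge v n w k ⟨?_, ?_⟩
    · have : (w k : ℝ) / 2 ^ n ≤ x k - v k := by linarith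
      rw [div_le_iff₀ hp] at this
      linarith
    · have : x k - v k ≤ ((w k : ℝ) + 1) / 2 ^ n := by linarith
      rw [le_div_iff₀ hp] at this
      linarith

theorem bds_cases {s : Idx × Fin 3} {x : V} (hx : x ∈ bds v s) :
    x ∈ edge v (eA s) ∨ x ∈ edge v (eA' s) ∨ x ∈ edge v (eB s) ∨ x ∈ edge v (eB' s) := by
  obtain ⟨⟨n, w⟩, k⟩ := s
  obtain ⟨⟨h1, h2⟩, j, hj, h3⟩ := mem_bds.1 hx
  simp only at h1 h2 hj h3
  have h12 := t1_ne_t2 k
  have ht1 := t1_ne k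
  have ht2 := t2_ne k
  rcases eq_t hj with rfl | rfl
  · rcases h3 with h3 | h3
    · refine Or.inr (Or.inr (Or.inl ?_))
      rw [eB, mem_edge_iff]
      refine ⟨h2 _ ht2, fun i hi => ?_⟩
      by_cases hik : i = k
      · rw [hik]; exact h1
      · rcases eq_t hik with rfl | rfl
        · exact h3
        · exact absurd rfl hi
    · refine Or.inr (Or.inr (Or.inr ?_))
      rw [eB', mem_edge_iff]
      simp only
      rw [up_ne _ h12.symm]
      refine ⟨h2 _ ht2, fun i hi => ?_⟩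
      by_cases hik : i = k
      · rw [hik, up_ne _ ht1.symm]; exact h1
      · rcases eq_t hik with rfl | rfl
        · rw [up_same, h3]; push_cast; rfl
        · exact absurd rfl hi
  · rcases h3 with h3 | h3
    · refine Or.inl ?_
      rw [eA, mem_edge_iff]
      refine ⟨h2 _ ht1, fun i hi => ?_⟩
      by_cases hik : i = k
      · rw [hik]; exact h1
      · rcases eq_t hik with rfl | rfl
        · exact absurd rfl hi
        · exact h3
    · refine Or.inr (Or.inl ?_)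
      rw [eA', mem_edge_iff]
      simp only
      rw [up_ne _ h12]
      refine ⟨h2 _ ht1, fun i hi => ?_⟩
      by_cases hik : i = k
      · rw [hik, up_ne _ ht2.symm]; exact h1
      · rcases eq_t hik with rfl | rfl
        · exact absurd rfl hi
        · rw [up_same, h3]; push_cast; rfl

theorem pt_mem_edge' {n : ℕ} {w w' : Fin 3 → ℤ} {k : Fin 3}
    (h1 : w' k = w k ∨ w' k = w k + 1) (h2 : ∀ j, j ≠ k → w' j = w j) :
    pt v n w' ∈ edge v ((n, w), k) := by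
  have hp : (0:ℝ) < 2 ^ n := by positivity
  rw [mem_edge_iff]
  refine ⟨?_, fun j hj => ?_⟩
  · show v k + (w k : ℝ) / 2 ^ n ≤ v k + (w' k : ℝ) / 2 ^ n ∧
      v k + (w' k : ℝ) / 2 ^ n ≤ v k + ((w k : ℝ) + 1) / 2 ^ n
    rcases h1 with h | h
    · rw [h]
      refine ⟨le_rfl, ?_⟩
      gcongr
      linarith
    · rw [h]
      push_cast
      refine ⟨?_, le_rfl⟩
      gcongr
      linarith
  · show v j + (w' j : ℝ) / 2 ^ n = _
    rw [h2 j hj]

/-- corners: `eA ∩ eB`, `eA ∩ eB'`, `eA' ∩ eB`, `eA' ∩ eB'` -/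
theorem corners (s : Idx × Fin 3) : ∃ c00 c01 c10 c11 : V,
    (c00 ∈ edge v (eA s) ∧ c00 ∈ edge v (eB s)) ∧ (c01 ∈ edge v (eA s) ∧ c01 ∈ edge v (eB' s)) ∧
    (c10 ∈ edge v (eA' s) ∧ c10 ∈ edge v (eB s)) ∧
    (c11 ∈ edge v (eA' s) ∧ c11 ∈ edge v (eB' s)) := by
  obtain ⟨⟨n, w⟩, k⟩ := s
  have h12 := t1_ne_t2 k
  refine ⟨pt v n w, pt v n (up w (t1 k)), pt v n (up w (t2 k)), pt v n (up (up w (t1 k)) (t2 k)),
    ⟨pt_mem_edge' (Or.inl rfl) fun _ _ => rfl, pt_mem_edge' (Or.inl rfl) fun _ _ => rfl⟩,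
    ⟨pt_mem_edge' (Or.inr (up_same _ _)) fun j hj => up_ne _ hj,
      pt_mem_edge' (Or.inl rfl) fun _ _ => rfl⟩,
    ⟨pt_mem_edge' (Or.inl rfl) fun _ _ => rfl,
      pt_mem_edge' (Or.inr (up_same _ _)) fun j hj => up_ne _ hj⟩,
    ⟨pt_mem_edge' (Or.inr ?_) fun j hj => ?_, pt_mem_edge' (Or.inr (up_same _ _)) fun j hj =>
      up_ne _ hj⟩⟩
  · rw [up_ne _ h12, up_ne _ h12, up_same]
  · by_cases hj2 : j = t2 k
    · rw [hj2, up_same, up_same, up_ne _ h12.symm]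
    · rw [up_ne _ hj2, up_ne _ hj, up_ne _ hj2]

/-- total oscillation on the boundary, from the oscillations `o` on the edges -/
def bo (o : Idx × Fin 3 → ℝ) (s : Idx × Fin 3) : ℝ := o (eA s) + o (eA' s) + o (eB s) + o (eB' s)

theorem dist_le_bo {G : Type*} [PseudoMetricSpace G] {g : V → G} {o : Idx × Fin 3 → ℝ}
    {s : Idx × Fin 3}
    (hA : ∀ x ∈ edge v (eA s), ∀ y ∈ edge v (eA s), dist (g x) (g y) ≤ o (eA s))
    (hA' : ∀ x ∈ edge v (eA' s), ∀ y ∈ edge v (eA' s), dist (g x) (g y) ≤ o (eA' s))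
    (hB : ∀ x ∈ edge v (eB s), ∀ y ∈ edge v (eB s), dist (g x) (g y) ≤ o (eB s))
    (hB' : ∀ x ∈ edge v (eB' s), ∀ y ∈ edge v (eB' s), dist (g x) (g y) ≤ o (eB' s))
    {x y : V} (hx : x ∈ bds v s) (hy : y ∈ bds v s) : dist (g x) (g y) ≤ bo o s := by
  obtain ⟨c00, c01, c10, c11, ⟨a1, a2⟩, ⟨a3, a4⟩, ⟨a5, a6⟩, a7, a8⟩ := corners (v := v) s
  have p1 : 0 ≤ o (eA s) := dist_nonneg.trans (hA _ a1 _ a1)
  have p2 : 0 ≤ o (eA' s) := dist_nonneg.trans (hA' _ a5 _ a5)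
  have p3 : 0 ≤ o (eB s) := dist_nonneg.trans (hB _ a2 _ a2)
  have p4 : 0 ≤ o (eB' s) := dist_nonneg.trans (hB' _ a4 _ a4)
  unfold bo
  rcases bds_cases hx with h | h | h | h <;> rcases bds_cases hy with h' | h' | h' | h'
  · linarith [hA _ h _ h']
  · linarith [hA _ h _ a1, hB _ a2 _ a6, hA' _ a5 _ h', dist_triangle4 (g x) (g c00) (g c10) (g y)]
  · linarith [hA _ h _ a1, hB _ a2 _ h', dist_triangle (g x) (g c00) (g y)]
  · linarith [hA _ h _ a3, hB' _ a4 _ h', dist_triangle (g x) (g c01) (g y)]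
  · linarith [hA' _ h _ a5, hB _ a6 _ a2, hA _ a1 _ h', dist_triangle4 (g x) (g c10) (g c00) (g y)]
  · linarith [hA' _ h _ h']
  · linarith [hA' _ h _ a5, hB _ a6 _ h', dist_triangle (g x) (g c10) (g y)]
  · linarith [hA' _ h _ a7, hB' _ a8 _ h', dist_triangle (g x) (g c11) (g y)]
  · linarith [hB _ h _ a2, hA _ a1 _ h', dist_triangle (g x) (g c00) (g y)]
  · linarith [hB _ h _ a6, hA' _ a5 _ h', dist_triangle (g x) (g c10) (g y)]
  · linarith [hB _ h _ h']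
  · linarith [hB _ h _ a2, hA _ a1 _ a3, hB' _ a4 _ h', dist_triangle4 (g x) (g c00) (g c01) (g y)]
  · linarith [hB' _ h _ a4, hA _ a3 _ h', dist_triangle (g x) (g c01) (g y)]
  · linarith [hB' _ h _ a8, hA' _ a7 _ h', dist_triangle (g x) (g c11) (g y)]
  · linarith [hB' _ h _ a4, hA _ a3 _ a1, hB _ a2 _ h', dist_triangle4 (g x) (g c01) (g c00) (g y)]
  · linarith [hB' _ h _ h']

end P073.H953
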