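import Vale.Agent.P073.H194.MeshDefs
import Vale.Agent.P073.H953.SqGrid

/-!
# P073, block P2a: sums over the subsquares of a dyadic square

Every edge belongs to at most two subsquares, so the sum of the squares of the boundary
oscillations is at most eight times the sum over the edges.
-/

open Set Metric Topology Filter
open scoped ENNReal

namespace P073.H953

open Vale.Agent.P073.St (V)
open Vale.Agent.P073.SQ (ev)
open Vale.Agent.P073.AB
open Vale.Agent.P073.H83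
open Vale.Agent.P073.H194 (eInSq fSum)
open Vale.Agent.P073.AB.P86 (rel)

theorem mem_eInSq {s : Idx × Fin 3} {n : ℕ} {k : Fin 3} (hk : k ≠ s.2) {w : Fin 3 → ℤ} :
    w ∈ eInSq s n k ↔ w s.2 = 2 ^ (n - s.1.1) * s.1.2 s.2 ∧
      (2 ^ (n - s.1.1) * s.1.2 k ≤ w k ∧ w k < 2 ^ (n - s.1.1) * (s.1.2 k + 1)) ∧
      ∀ j, j ≠ s.2 → j ≠ k → 2 ^ (n - s.1.1) * s.1.2 j ≤ w j ∧
        w j ≤ 2 ^ (n - s.1.1) * (s.1.2 j + 1) := by
  rw [eInSq, Fintype.mem_piFinset]
  constructor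
  · intro h
    refine ⟨by simpa using h s.2, ?_, fun j hj hjk => ?_⟩
    · have := h k
      rwa [if_neg hk, if_pos rfl, Finset.mem_Ico] at this
    · have := h j
      rwa [if_neg hj, if_neg hjk, Finset.mem_Icc] at this
  · rintro ⟨h1, h2, h3⟩ j
    by_cases hj : j = s.2
    · rw [if_pos hj, Finset.mem_singleton, hj, h1]
    · rw [if_neg hj]
      by_cases hjk : j = k
      · rw [if_pos hjk, Finset.mem_Ico, hjk]
        exact h2
      · rw [if_neg hjk, Finset.mem_Icc]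
        exact h3 j hj hjk

theorem eLow_sub_eInSq {s : Idx × Fin 3} {n : ℕ} {k : Fin 3} (hk : k ≠ s.2) :
    eLow s n ⊆ eInSq s n k := by
  intro w hw
  rw [mem_eLow] at hw
  rw [mem_eInSq hk]
  exact ⟨hw.1, hw.2 k hk, fun j hj _ => ⟨(hw.2 j hj).1, (hw.2 j hj).2.le⟩⟩

theorem up_mem_eInSq {s : Idx × Fin 3} {n : ℕ} {i k : Fin 3} (hk : k ≠ s.2) (hi : i ≠ s.2)
    (hik : i ≠ k) {w : Fin 3 → ℤ} (hw : w ∈ eLow s n) : up w i ∈ eInSq s n k := by
  rw [mem_eLow] at hw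
  rw [mem_eInSq hk]
  refine ⟨by rw [up_ne _ hi.symm]; exact hw.1, by rw [up_ne _ hik.symm]; exact hw.2 k hk,
    fun j hj hjk => ?_⟩
  by_cases hji : j = i
  · rw [hji, up_same]
    have := hw.2 i hi
    constructor <;> linarith [this.1, this.2]
  · rw [up_ne _ hji]
    exact ⟨(hw.2 j hj).1, (hw.2 j hj).2.le⟩

theorem up_injective (i : Fin 3) : Function.Injective fun w : Fin 3 → ℤ => up w i := by
  intro w w' h
  funext j
  have h1 := congrFun h j
  by_cases hj : j = i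
  · rw [hj] at h1 ⊢
    simp only [up_same] at h1
    omega
  · simp only [up_ne _ hj] at h1
    exact h1

/-- the four edges of the subsquares: general form -/
theorem sum_four_le {M : Type*} [AddCommMonoid M] [PartialOrder M] [IsOrderedAddMonoid M]
    (F : Idx × Fin 3 → M) (hF : ∀ e, 0 ≤ F e) (s : Idx × Fin 3) (m : ℕ) :
    ∑ w ∈ eLow s m, (F (eA ((m, w), s.2)) + F (eA' ((m, w), s.2)) + F (eB ((m, w), s.2)) +
        F (eB' ((m, w), s.2))) ≤
      2 • (∑ w ∈ eInSq s m (t1 s.2), F ((m, w), t1 s.2)) +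
      2 • (∑ w ∈ eInSq s m (t2 s.2), F ((m, w), t2 s.2)) := by
  have h1 := t1_ne s.2
  have h2 := t2_ne s.2
  have h12 := t1_ne_t2 s.2
  have low : ∀ k, k ≠ s.2 → ∑ w ∈ eLow s m, F ((m, w), k) ≤ ∑ w ∈ eInSq s m k, F ((m, w), k) :=
    fun k hk => Finset.sum_le_sum_of_subset_of_nonneg (eLow_sub_eInSq hk) fun _ _ _ => hF _
  have upp : ∀ i k, k ≠ s.2 → i ≠ s.2 → i ≠ k →
      ∑ w ∈ eLow s m, F ((m, up w i), k) ≤ ∑ w ∈ eInSq s m k, F ((m, w), k) := by
    intro i k hk hi hik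
    classical
    rw [← Finset.sum_image (f := fun w => F ((m, w), k)) (g := fun w => up w i)
      (fun a _ b _ hab => up_injective i hab)]
    refine Finset.sum_le_sum_of_subset_of_nonneg ?_ fun _ _ _ => hF _
    intro w hw
    rw [Finset.mem_image] at hw
    obtain ⟨w', hw', rfl⟩ := hw
    exact up_mem_eInSq hk hi hik hw'
  rw [Finset.sum_add_distrib, Finset.sum_add_distrib, Finset.sum_add_distrib, two_nsmul, two_nsmul]
  have a1 := low _ h1
  have a2 := upp (t2 s.2) (t1 s.2) h1 h2 h12.symm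
  have a3 := low _ h2
  have a4 := upp (t1 s.2) (t2 s.2) h2 h1 h12
  have e : ∑ w ∈ eInSq s m (t1 s.2), F ((m, w), t1 s.2) +
      ∑ w ∈ eInSq s m (t1 s.2), F ((m, w), t1 s.2) +
      (∑ w ∈ eInSq s m (t2 s.2), F ((m, w), t2 s.2) +
      ∑ w ∈ eInSq s m (t2 s.2), F ((m, w), t2 s.2)) =
      ∑ w ∈ eInSq s m (t1 s.2), F ((m, w), t1 s.2) +
      ∑ w ∈ eInSq s m (t1 s.2), F ((m, w), t1 s.2) +
      ∑ w ∈ eInSq s m (t2 s.2), F ((m, w), t2 s.2) +
      ∑ w ∈ eInSq s m (t2 s.2), F ((m, w), t2 s.2) := by rw [← add_assoc]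
  rw [e]
  exact add_le_add (add_le_add (add_le_add a1 a2) a3) a4

/-- the sum of the squares of the boundary oscillations -/
theorem sum_bo_sq_le (o : Idx × Fin 3 → ℝ) (s : Idx × Fin 3) (m : ℕ) :
    ∑ w ∈ eLow s m, bo o ((m, w), s.2) ^ 2 ≤
      8 * (∑ w ∈ eInSq s m (t1 s.2), o ((m, w), t1 s.2) ^ 2 +
        ∑ w ∈ eInSq s m (t2 s.2), o ((m, w), t2 s.2) ^ 2) := by
  have h1 := sum_four_le (fun e => o e ^ 2) (fun e => sq_nonneg _) s m
  have h2 : ∀ w ∈ eLow s m, bo o ((m, w), s.2) ^ 2 ≤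
      4 * (o (eA ((m, w), s.2)) ^ 2 + o (eA' ((m, w), s.2)) ^ 2 + o (eB ((m, w), s.2)) ^ 2 +
        o (eB' ((m, w), s.2)) ^ 2) := by
    intro w _
    unfold bo
    set a := o (eA ((m, w), s.2))
    set b := o (eA' ((m, w), s.2))
    set c := o (eB ((m, w), s.2))
    set d := o (eB' ((m, w), s.2))
    nlinarith [sq_nonneg (a - b), sq_nonneg (a - c), sq_nonneg (a - d), sq_nonneg (b - c),
      sq_nonneg (b - d), sq_nonneg (c - d)]
  calc _ ≤ ∑ w ∈ eLow s m, 4 * (o (eA ((m, w), s.2)) ^ 2 + o (eA' ((m, w), s.2)) ^ 2 +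
        o (eB ((m, w), s.2)) ^ 2 + o (eB' ((m, w), s.2)) ^ 2) := Finset.sum_le_sum h2
    _ = 4 * ∑ w ∈ eLow s m, (o (eA ((m, w), s.2)) ^ 2 + o (eA' ((m, w), s.2)) ^ 2 +
        o (eB ((m, w), s.2)) ^ 2 + o (eB' ((m, w), s.2)) ^ 2) := by rw [Finset.mul_sum]
    _ ≤ _ := by
      rw [two_nsmul, two_nsmul] at h1
      linarith

/-- the energy form: `o e ^ 2 ≤ |e| ∫_e H` on the edges of generation `m` in the square -/
theorem sum_bo_sq_le_fSum (v : V) (o : Idx × Fin 3 → ℝ) (H : V → ℝ≥0∞) (s : Idx × Fin 3) (m : ℕ)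
    (ho : ∀ k, k ≠ s.2 → ∀ w ∈ eInSq s m k,
      ENNReal.ofReal (o ((m, w), k) ^ 2) ≤ ENNReal.ofReal (1 / 2 ^ m) * eInt v ((m, w), k) H) :
    ENNReal.ofReal (∑ w ∈ eLow s m, bo o ((m, w), s.2) ^ 2) ≤
      8 * (fSum v s m (t1 s.2) H + fSum v s m (t2 s.2) H) := by
  refine (ENNReal.ofReal_le_ofReal (sum_bo_sq_le o s m)).trans ?_
  rw [ENNReal.ofReal_mul (by norm_num), ENNReal.ofReal_ofNat,
    ENNReal.ofReal_add (Finset.sum_nonneg fun _ _ => sq_nonneg _)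
      (Finset.sum_nonneg fun _ _ => sq_nonneg _)]
  gcongr
  · rw [ENNReal.ofReal_sum_of_nonneg fun _ _ => sq_nonneg _]
    exact Finset.sum_le_sum fun w hw => ho _ (t1_ne _) w hw
  · rw [ENNReal.ofReal_sum_of_nonneg fun _ _ => sq_nonneg _]
    exact Finset.sum_le_sum fun w hw => ho _ (t2_ne _) w hw

end P073.H953
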