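import Vale.Agent.P073.H142.Neck2
import Vale.Agent.P073.H953.SqSum

/-!
# P073, block P2a: the necks of a dyadic square

A level `t` for a continuous function `u` on a dyadic square `s`, small on the boundary: the set
where `u` is large is contained in finitely many disjoint discs `D i` of the open square, whose
boundary circles are in the sets `W j`, as soon as these cover the boundaries of the crossing
subsquares; the total weight of the crossing subsquares is at most the average.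
-/

open Set Metric Topology Filter
open scoped ENNReal

namespace P073.H953

open P073
open Vale.Agent.P073.St (V)
open Vale.Agent.P073.SQ (ev)
open Vale.Agent.P073.AB
open Vale.Agent.P073.H83
open Vale.Agent.P073.H194 (eInSq fSum)
open Vale.Agent.P073.AB.P86 (rel)

variable {v : V}

/-! ### A conical function with given zero set -/

theorem conicalOn_aff1 (a b : ℝ) (k : Fin 3) : ConicalOn (fun x : V => a * x k + b) univ := by
  intro x _
  refine ⟨1, one_pos, fun w _ _ t _ => ⟨mem_univ _, ?_⟩⟩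
  simp only [Pi.add_apply, Pi.smul_apply, smul_eq_mul]
  ring

/-- one coordinate -/
noncomputable def g1 (v : V) (s : Idx × Fin 3) (k : Fin 3) (x : V) : ℝ :=
  max (-1 * x k + (v k + s.1.2 k / 2 ^ s.1.1)) (1 * x k + -(v k + (s.1.2 k + 1) / 2 ^ s.1.1))

theorem continuous_g1 (s : Idx × Fin 3) (k : Fin 3) : Continuous (g1 v s k) := by
  unfold g1; fun_prop

theorem conical_g1 (s : Idx × Fin 3) (k : Fin 3) : ConicalOn (g1 v s k) univ :=
  (conicalOn_aff1 _ _ k).rmax (conicalOn_aff1 _ _ k) (by fun_prop) (by fun_prop)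

theorem g1_le {s : Idx × Fin 3} {k : Fin 3} {x : V} : g1 v s k x ≤ 0 ↔
    v k + s.1.2 k / 2 ^ s.1.1 ≤ x k ∧ x k ≤ v k + (s.1.2 k + 1) / 2 ^ s.1.1 := by
  unfold g1
  rw [max_le_iff]
  constructor
  · rintro ⟨h1, h2⟩; constructor <;> linarith
  · rintro ⟨h1, h2⟩; constructor <;> linarith

/-- positive off the prism over the square -/
noncomputable def gs (v : V) (s : Idx × Fin 3) (x : V) : ℝ :=
  max (g1 v s (t1 s.2) x) (g1 v s (t2 s.2) x)

theorem continuous_gs (s : Idx × Fin 3) : Continuous (gs v s) :=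
  (continuous_g1 s _).max (continuous_g1 s _)

theorem conical_gs (s : Idx × Fin 3) : ConicalOn (gs v s) univ :=
  (conical_g1 s _).rmax (conical_g1 s _) (continuous_g1 s _).continuousOn
    (continuous_g1 s _).continuousOn

theorem gs_le {s : Idx × Fin 3} {x : V} (hx : x s.2 = v s.2 + s.1.2 s.2 / 2 ^ s.1.1) :
    gs v s x ≤ 0 ↔ x ∈ squ v s := by
  unfold gs
  rw [max_le_iff, g1_le, g1_le]
  constructor
  · rintro ⟨h1, h2⟩
    refine ⟨hx, fun k hk => ?_⟩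
    rcases eq_t hk with rfl | rfl
    · exact h1
    · exact h2
  · intro h
    exact ⟨h.2 _ (t1_ne _), h.2 _ (t2_ne _)⟩

theorem exists_conical_union {ι : Type*} (A : Finset ι) (S : ι → Idx × Fin 3) :
    ∃ φ : V → ℝ, ConicalOn φ univ ∧ Continuous φ ∧ ∀ x, φ x ≤ 0 ↔ ∃ i ∈ A, gs v (S i) x ≤ 0 := by
  classical
  induction A using Finset.induction_on with
  | empty =>
    refine ⟨fun x => 0 * x 0 + 1, conicalOn_aff1 0 1 0, by fun_prop, fun x => ?_⟩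
    simp
  | insert i A _ ih =>
    obtain ⟨φ, h1, h2, h3⟩ := ih
    refine ⟨fun x => min (gs v (S i) x) (φ x), (conical_gs _).rmin h1
      (continuous_gs _).continuousOn h2.continuousOn, (continuous_gs _).min h2, fun x => ?_⟩
    rw [min_le_iff, h3]
    simp

theorem convex_squ (s : Idx × Fin 3) : Convex ℝ (squ v s) := by
  intro x hx y hy a b ha hb hab
  refine ⟨?_, fun k hk => ?_⟩
  · simp only [Pi.add_apply, Pi.smul_apply, smul_eq_mul]
    rw [hx.1, hy.1, ← add_mul, hab, one_mul]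
  · simp only [Pi.add_apply, Pi.smul_apply, smul_eq_mul]
    obtain ⟨h1, h2⟩ := hx.2 k hk
    obtain ⟨h3, h4⟩ := hy.2 k hk
    set L := v k + s.1.2 k / 2 ^ s.1.1
    set R := v k + (s.1.2 k + 1) / 2 ^ s.1.1
    have e1 : L = a * L + b * L := by rw [← add_mul, hab, one_mul]
    have e2 : R = a * R + b * R := by rw [← add_mul, hab, one_mul]
    constructor
    · rw [e1]; gcongr
    · rw [e2]; gcongr

/-! ### The necks of a square -/

/-- **the necks of a square** -/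
theorem exists_necks_squ {s : Idx × Fin 3} {m : ℕ} (hm : s.1.1 ≤ m) {u : V → ℝ}
    {a b w : (Fin 3 → ℤ) → ℝ}
    (hu : ∀ z ∈ eLow s m, ∀ x ∈ bds v ((m, z), s.2), a z ≤ u x ∧ u x ≤ b z)
    (hw : ∀ z ∈ eLow s m, 0 ≤ w z) {α β δ : ℝ} (hαβ : α < β)
    (hosc : ∀ z ∈ eLow s m, ∀ x ∈ squ v ((m, z), s.2), ∀ y ∈ squ v ((m, z), s.2), u x ≤ u y + δ)
    (hb : ∀ x ∈ bds v s, u x + δ ≤ α) :
    ∃ t ∈ Ioo α β, ∃ A ⊆ eLow s m, (∀ z ∈ A, a z ≤ t ∧ t ≤ b z) ∧
      (β - α) * ∑ z ∈ A, w z ≤ ∑ z ∈ eLow s m, (b z - a z) * w z ∧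
      ∀ (J : Type*) (W : J → Set V), (∀ j, IsOpen (W j)) →
        (∀ j k, j ≠ k → Disjoint (W j) (W k)) →
        (∀ z ∈ A, ∃ j, bds v ((m, z), s.2) ⊆ W j) →
        ∃ (I : Type) (_ : Finite I) (D c : I → Set V),
          (∀ i, ConBall 2 (D i) (c i)) ∧ (∀ i k, i ≠ k → Disjoint (D i) (D k)) ∧
          (∀ i, D i ⊆ rel v s) ∧ (∀ i, ∃ U, IsOpen U ∧ D i \ c i = squ v s ∩ U) ∧
          (∀ i, ∃ j, c i ⊆ W j) ∧
          (∀ x ∈ squ v s, (∀ i, x ∉ D i \ c i) → u x < t + δ) ∧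
          (∀ i, ∃ x ∈ D i \ c i, t - δ ≤ u x) ∧ IsPreconnected (squ v s \ ⋃ i, D i) := by
  classical
  have hne : ∀ z : Fin 3 → ℤ, ∃ x, x ∈ bds v ((m, z), s.2) := fun z =>
    ⟨pt v m z, mem_bds.2 ⟨pt_mem_squ v ((m, z), s.2), t1 s.2, t1_ne _, Or.inl rfl⟩⟩
  have hab : ∀ z ∈ eLow s m, a z ≤ b z := fun z hz => by
    obtain ⟨x, hx⟩ := hne z
    exact (hu z hz x hx).1.trans (hu z hz x hx).2
  obtain ⟨t, ht, -, A, hA, hAt, hsum, hcase⟩ := exists_level_cells (eLow s m)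
    (Q := fun z => squ v ((m, z), s.2)) (bQ := fun z => bds v ((m, z), s.2)) (u := u)
    (S := squ v s) (fun z _ => isClosed_squ _) (fun x hx => exists_mem_sub hm hx)
    (fun z hz z' hz' hne => inter_sub (eLow_eq hz hz') hne) a b w hab hu hw hαβ
    (N := ∅) MeasureTheory.measure_empty
  refine ⟨t, ht, A, hA, hAt, hsum, fun J W hW hWd hWA => ?_⟩
  set U := upSet (eLow s m) (fun z => squ v ((m, z), s.2)) (fun z => bds v ((m, z), s.2)) u t
    with hU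
  obtain ⟨φ, hφ1, hφ2, hφ3⟩ := exists_conical_union (v := v)
    ((eLow s m).filter fun z => ∃ x ∈ bds v ((m, z), s.2), t ≤ u x) (fun z => ((m, z), s.2))
  have hφU : ∀ x ∈ squ v s, (φ x ≤ 0 ↔ x ∈ U) := by
    intro x hx
    rw [hφ3, hU, upSet]
    simp only [Finset.mem_filter, mem_iUnion]
    constructor
    · rintro ⟨z, hz, hx'⟩
      obtain ⟨z', hz', hxz'⟩ := exists_mem_sub hm hx
      refine ⟨z, hz, (gs_le ?_).1 hx'⟩
      rw [hxz'.1]
      show v s.2 + (z' s.2 : ℝ) / 2 ^ m = v s.2 + (z s.2 : ℝ) / 2 ^ m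
      rw [eLow_eq hz' hz.1]
    · rintro ⟨z, hz, hxz⟩
      exact ⟨z, hz, (gs_le hxz.1).2 hxz⟩
  have hUs : ∀ x ∈ U, t - δ ≤ u x := by
    intro x hx
    obtain ⟨z, hz, hxz⟩ := mem_iUnion₂.1 hx
    obtain ⟨y, hy, hty⟩ := hz.2
    have := hosc z hz.1 y (bds_sub hy) x hxz
    linarith
  have hbU : ∀ x ∈ bds v s, 0 < φ x := by
    intro x hx
    by_contra h
    obtain ⟨z, hz, hxz⟩ := mem_iUnion₂.1 ((hφU x (bds_sub hx)).1 (not_lt.1 h))
    obtain ⟨y, hy, hty⟩ := hz.2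
    have h1 := hosc z hz.1 y (bds_sub hy) x hxz
    have h2 := hb x hx
    linarith [ht.1]
  obtain ⟨a', -, I, hI, D, c, h1, h2, h3, h4, h5, h6, -, h8, h9⟩ := H142.exists_necks
    (Gauge.Cx673.ball2 v s) (hφ1.mono (convex_squ s).conicalSet (subset_univ _))
    hφ2.continuousOn hbU hW hWd (a₀ := 1) (by
      intro x hx hx0
      rcases hcase x ((hφU x hx).1 hx0) with h | ⟨z, hz, hxz, -⟩
      · left
        filter_upwards [h, self_mem_nhdsWithin] with y hy hys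
        exact (hφU y hys).2 hy
      · right
        obtain ⟨j, hj⟩ := hWA z hz
        exact ⟨j, hj hxz⟩) one_pos
  refine ⟨I, hI, D, c, h1, h2, fun i x hx => ?_, h4, h6, fun x hx hxD => ?_, fun i => ?_, h9⟩
  · obtain ⟨hx1, hx2⟩ := h3 i hx
    by_contra hcon
    exact hx2 ⟨hx1, hcon⟩
  · have hxU : x ∉ U := by
      intro h
      obtain ⟨i, hi⟩ := h5 x hx ((hφU x hx).2 h)
      exact hxD i hi
    obtain ⟨z, hz, hxz, hlt⟩ := exists_of_notMem_upSet (fun x hx => exists_mem_sub hm hx) hx hxU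
    obtain ⟨y, hy⟩ := hne z
    have := hosc z hz x hxz y (bds_sub hy)
    linarith [hlt y hy]
  · obtain ⟨x, hx, hx0⟩ := h8 i
    exact ⟨x, hx, hUs x ((hφU x (h3 i hx.1).1).1 hx0)⟩

/-! ### Two functions -/

theorem exists_range {ι : Type*} {B : Set ι} (hB : B.Nonempty) {u : ι → ℝ} {r : ℝ}
    (h : ∀ x ∈ B, ∀ y ∈ B, dist (u x) (u y) ≤ r) :
    ∃ a b : ℝ, b - a ≤ r ∧ ∀ x ∈ B, a ≤ u x ∧ u x ≤ b := by
  obtain ⟨x0, hx0⟩ := hB
  have h1 : BddAbove (u '' B) := ⟨u x0 + r, by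
    rintro _ ⟨y, hy, rfl⟩
    have := h y hy x0 hx0
    rw [Real.dist_eq] at this
    linarith [le_abs_self (u y - u x0)]⟩
  have h2 : BddBelow (u '' B) := ⟨u x0 - r, by
    rintro _ ⟨y, hy, rfl⟩
    have := h y hy x0 hx0
    rw [Real.dist_eq] at this
    linarith [neg_abs_le (u y - u x0)]⟩
  have hne : (u '' B).Nonempty := ⟨_, mem_image_of_mem u hx0⟩
  refine ⟨sInf (u '' B), sSup (u '' B), ?_, fun x hx => ⟨csInf_le h2 (mem_image_of_mem u hx),
    le_csSup h1 (mem_image_of_mem u hx)⟩⟩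
  have h3 : sSup (u '' B) ≤ sInf (u '' B) + r := by
    refine csSup_le hne ?_
    rintro _ ⟨x, hx, rfl⟩
    have h4 : u x - r ≤ sInf (u '' B) := by
      refine le_csInf hne ?_
      rintro _ ⟨y, hy, rfl⟩
      have := h x hx y hy
      rw [Real.dist_eq] at this
      linarith [le_abs_self (u x - u y)]
    linarith
  linarith

theorem eA_mem {s : Idx × Fin 3} {m : ℕ} {z : Fin 3 → ℤ} (hz : z ∈ eLow s m) :
    (∃ w ∈ eInSq s m (t1 s.2), eA ((m, z), s.2) = ((m, w), t1 s.2)) ∧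
    (∃ w ∈ eInSq s m (t1 s.2), eA' ((m, z), s.2) = ((m, w), t1 s.2)) ∧
    (∃ w ∈ eInSq s m (t2 s.2), eB ((m, z), s.2) = ((m, w), t2 s.2)) ∧
    (∃ w ∈ eInSq s m (t2 s.2), eB' ((m, z), s.2) = ((m, w), t2 s.2)) :=
  ⟨⟨z, eLow_sub_eInSq (t1_ne _) hz, rfl⟩,
    ⟨_, up_mem_eInSq (t1_ne _) (t2_ne _) (t1_ne_t2 _).symm hz, rfl⟩,
    ⟨z, eLow_sub_eInSq (t2_ne _) hz, rfl⟩,
    ⟨_, up_mem_eInSq (t2_ne _) (t1_ne _) (t1_ne_t2 _) hz, rfl⟩⟩

/-- `o` bounds the oscillation of `g` on the edges of generation `m` in the square `s` -/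
def OscOn {G : Type*} [PseudoMetricSpace G] (v : V) (g : V → G) (s : Idx × Fin 3) (m : ℕ)
    (o : Idx × Fin 3 → ℝ) : Prop :=
  ∀ k, k ≠ s.2 → ∀ w ∈ eInSq s m k, ∀ x ∈ edge v ((m, w), k), ∀ y ∈ edge v ((m, w), k),
    dist (g x) (g y) ≤ o ((m, w), k)

theorem OscOn.dist_le {G : Type*} [PseudoMetricSpace G] {g : V → G} {s : Idx × Fin 3} {m : ℕ}
    {o : Idx × Fin 3 → ℝ} (h : OscOn v g s m o) {z : Fin 3 → ℤ} (hz : z ∈ eLow s m) {x y : V}
    (hx : x ∈ bds v ((m, z), s.2)) (hy : y ∈ bds v ((m, z), s.2)) :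
    dist (g x) (g y) ≤ bo o ((m, z), s.2) := by
  obtain ⟨⟨w1, h1, e1⟩, ⟨w2, h2, e2⟩, ⟨w3, h3, e3⟩, w4, h4, e4⟩ := eA_mem hz
  refine dist_le_bo (v := v) ?_ ?_ ?_ ?_ hx hy
  · rw [e1]; exact h _ (t1_ne _) w1 h1
  · rw [e2]; exact h _ (t1_ne _) w2 h2
  · rw [e3]; exact h _ (t2_ne _) w3 h3
  · rw [e4]; exact h _ (t2_ne _) w4 h4

/-- **the necks of a square for two functions `u`, `f`**: the boundaries of the crossing
subsquares have images under `f` in closed balls with small sum of the radii. -/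
theorem exists_necks_pair {G : Type*} [PseudoMetricSpace G] {s : Idx × Fin 3} {m : ℕ}
    (hm : s.1.1 ≤ m) {u : V → ℝ} {f : V → G} {oU oF : Idx × Fin 3 → ℝ}
    (hoU : OscOn v u s m oU) (hoF : OscOn v f s m oF) {EU EF : ℝ}
    (hEU : ∑ z ∈ eLow s m, bo oU ((m, z), s.2) ^ 2 ≤ EU)
    (hEF : ∑ z ∈ eLow s m, bo oF ((m, z), s.2) ^ 2 ≤ EF) {α β δ : ℝ} (hαβ : α < β)
    (hosc : ∀ z ∈ eLow s m, ∀ x ∈ squ v ((m, z), s.2), ∀ y ∈ squ v ((m, z), s.2), u x ≤ u y + δ)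
    (hb : ∀ x ∈ bds v s, u x + δ ≤ α) :
    ∃ t ∈ Ioo α β, ∃ A ⊆ eLow s m,
      (β - α) * ∑ z ∈ A, bo oF ((m, z), s.2) ≤ √EU * √EF ∧ (∀ z ∈ A, 0 ≤ bo oF ((m, z), s.2)) ∧
      (∀ z ∈ A, ∀ x ∈ bds v ((m, z), s.2),
        f x ∈ closedBall (f (pt v m z)) (bo oF ((m, z), s.2)) ∧ |u x - t| ≤ δ) ∧
      ∀ (J : Type*) (W : J → Set V), (∀ j, IsOpen (W j)) →
        (∀ j k, j ≠ k → Disjoint (W j) (W k)) →
        (∀ z ∈ A, ∃ j, bds v ((m, z), s.2) ⊆ W j) →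
        ∃ (I : Type) (_ : Finite I) (D c : I → Set V),
          (∀ i, ConBall 2 (D i) (c i)) ∧ (∀ i k, i ≠ k → Disjoint (D i) (D k)) ∧
          (∀ i, D i ⊆ rel v s) ∧ (∀ i, ∃ U, IsOpen U ∧ D i \ c i = squ v s ∩ U) ∧
          (∀ i, ∃ j, c i ⊆ W j) ∧
          (∀ x ∈ squ v s, (∀ i, x ∉ D i \ c i) → u x < t + δ) ∧
          (∀ i, ∃ x ∈ D i \ c i, t - δ ≤ u x) ∧ IsPreconnected (squ v s \ ⋃ i, D i) := by
  classical
  have hpt : ∀ z : Fin 3 → ℤ, pt v m z ∈ bds v ((m, z), s.2) := fun z =>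
    mem_bds.2 ⟨pt_mem_squ v ((m, z), s.2), t1 s.2, t1_ne _, Or.inl rfl⟩
  have hF0 : ∀ z ∈ eLow s m, 0 ≤ bo oF ((m, z), s.2) := fun z hz =>
    dist_nonneg.trans (hoF.dist_le hz (hpt z) (hpt z))
  have key : ∀ z : Fin 3 → ℤ, ∃ a b : ℝ, z ∈ eLow s m → b - a ≤ bo oU ((m, z), s.2) ∧
      (∀ x ∈ bds v ((m, z), s.2), a ≤ u x ∧ u x ≤ b) ∧ b - a ≤ δ := by
    intro z
    by_cases hz : z ∈ eLow s m
    · obtain ⟨a, b, h1, h2⟩ := exists_range (B := bds v ((m, z), s.2)) (u := u)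
        (r := min (bo oU ((m, z), s.2)) δ) ⟨_, hpt z⟩ (fun x hx y hy => le_min
        (hoU.dist_le hz hx hy) (by
          rw [Real.dist_eq, abs_le]
          have h1 := hosc z hz x (bds_sub hx) y (bds_sub hy)
          have h2 := hosc z hz y (bds_sub hy) x (bds_sub hx)
          constructor <;> linarith))
      exact ⟨a, b, fun _ => ⟨h1.trans (min_le_left _ _), h2, h1.trans (min_le_right _ _)⟩⟩
    · exact ⟨0, 0, fun h => absurd h hz⟩
  choose a b hab using key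
  obtain ⟨t, ht, A, hA, hAt, hsum, hmain⟩ := exists_necks_squ hm (u := u) (a := a) (b := b)
    (w := fun z => bo oF ((m, z), s.2)) (fun z hz => (hab z hz).2.1) hF0 hαβ hosc hb
  refine ⟨t, ht, A, hA, ?_, fun z hz => hF0 z (hA hz), fun z hz x hx => ⟨?_, ?_⟩, hmain⟩
  · refine hsum.trans ((Finset.sum_le_sum fun z hz => ?_).trans
      (sum_mul_le_sqrt (eLow s m) (fun z => bo oU ((m, z), s.2)) (fun z => bo oF ((m, z), s.2))
        hEU hEF))
    exact mul_le_mul_of_nonneg_right (hab z hz).1 (hF0 z hz)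
  · exact hoF.dist_le (hA hz) hx (hpt z)
  · obtain ⟨h1, h2, h3⟩ := hab z (hA hz)
    obtain ⟨h4, h5⟩ := h2 x hx
    obtain ⟨h6, h7⟩ := hAt z hz
    rw [abs_le]
    constructor <;> linarith

end P073.H953
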