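import Vale.Agent.P073.H953.Bypass

/-!
# P073, P2h: leaves [FILL], [HULL2]

The image of a compact set is contained in every closed ball which contains the image of the
boundary; a disc in an open square is contained in every closed ball which contains its boundary
circle.
-/

open Set Metric Topology Filter

namespace P073.H953

open P073
open Vale.Agent.P073.St (V)
open Vale.Agent.P073.AB
open P073.Net (dyc dyo)
open Vale.Agent.P073.AB.P86 (rel lo lo_same lo_other)

/-- the image of an open set under a conical homeomorphism of open sets -/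
theorem isOpen_image {E F : Type*} [NormedAddCommGroup E] [NormedSpace ℝ E]
    [NormedAddCommGroup F] [NormedSpace ℝ F] {Ω : Set E} {Λ : Set F} (hΛ : IsOpen Λ)
    (h : ConHomeo Ω Λ) {U : Set E} (hU : IsOpen U) (hUΩ : U ⊆ Ω) : IsOpen (h.toFun '' U) := by
  have e : h.toFun '' U = Λ ∩ h.invFun ⁻¹' U := by
    ext y
    constructor
    · rintro ⟨x, hx, rfl⟩
      refine ⟨h.mapsTo (hUΩ hx), ?_⟩
      rw [mem_preimage, h.left_inv (hUΩ hx)]
      exact hx
    · rintro ⟨hy, hy'⟩
      exact ⟨h.invFun y, hy', h.right_inv hy⟩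
  rw [e]
  exact h.cont_inv.isOpen_inter_preimage hΛ hU

/-- an open bounded set cannot have a point of maximal norm -/
theorem exists_farther {U : Set V} (hU : IsOpen U) {p y : V} (hp : p ∈ U) (hpy : p ≠ y) :
    ∃ q ∈ U, dist p y < dist q y := by
  obtain ⟨ε, hε, hb⟩ := Metric.isOpen_iff.1 hU p hp
  have hn : 0 < ‖p - y‖ := norm_pos_iff.2 (sub_ne_zero.2 hpy)
  refine ⟨p + (ε / 2 / ‖p - y‖) • (p - y), hb ?_, ?_⟩
  · rw [mem_ball, dist_eq_norm, add_sub_cancel_left, norm_smul, Real.norm_of_nonneg (by positivity),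
      div_mul_cancel₀ _ hn.ne']
    linarith
  · rw [dist_eq_norm, dist_eq_norm]
    have e : p + (ε / 2 / ‖p - y‖) • (p - y) - y = (1 + ε / 2 / ‖p - y‖) • (p - y) := by
      module
    rw [e, norm_smul, Real.norm_of_nonneg (by positivity)]
    have : 0 < ε / 2 / ‖p - y‖ * ‖p - y‖ := by positivity
    linarith [add_mul 1 (ε / 2 / ‖p - y‖) ‖p - y‖, one_mul ‖p - y‖]

/-- **[FILL]** -/
theorem fill {Ω Λ : Set V} (hΛ : IsOpen Λ) (h : ConHomeo Ω Λ) {K U : Set V} (hK : IsCompact K)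
    (hKΩ : K ⊆ Ω) (hU : IsOpen U) (hUK : U ⊆ K) {y : V} {R : ℝ} (hR : 0 ≤ R)
    (hfr : ∀ x ∈ K \ U, h.toFun x ∈ closedBall y R) :
    ∀ x ∈ K, h.toFun x ∈ closedBall y R := by
  intro x hx
  obtain ⟨x0, hx0, hmax⟩ := hK.exists_isMaxOn ⟨x, hx⟩
    (f := fun x => dist (h.toFun x) y) ((continuous_id.dist continuous_const).comp_continuousOn (h.cont.mono hKΩ))
  have h1 : dist (h.toFun x) y ≤ dist (h.toFun x0) y := hmax hx
  by_cases hx0U : x0 ∈ U
  · by_cases hne : h.toFun x0 = y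
    · rw [hne, dist_self] at h1
      rw [mem_closedBall]
      linarith
    · exfalso
      obtain ⟨q, ⟨x', hx', rfl⟩, hq⟩ := exists_farther
        (isOpen_image hΛ h hU (hUK.trans hKΩ)) (mem_image_of_mem _ hx0U) hne
      exact absurd (hmax (hUK hx')) (not_le.2 hq)
  · exact h1.trans (hfr x0 ⟨hx0, hx0U⟩)

theorem isOpen_dyo (v : V) (n : ℕ) (z : Fin 3 → ℤ) : IsOpen (dyo v n z) := by
  rw [dyo_eq_lbox]
  exact isOpen_obox _ _

theorem isCompact_dyc (v : V) (n : ℕ) (z : Fin 3 → ℤ) : IsCompact (dyc v n z) := by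
  rw [dyc_eq_Icc]
  exact isCompact_Icc

theorem frontier_dyc (v : V) (n : ℕ) (z : Fin 3 → ℤ) : frontier (dyc v n z) =
    dyc v n z \ dyo v n z := by
  have hp : (0:ℝ) < 2 ^ n := by positivity
  have h1 : dyc v n z = closure (dyo v n z) := by
    rw [dyo_eq_lbox, lbox, closure_obox, dyc_eq_Icc]
    intro k
    push_cast
    gcongr
    linarith
  have h2 : interior (dyc v n z) = dyo v n z := by
    rw [dyc_eq_Icc, dyo_eq_lbox, lbox, obox_eq, ← pi_univ_Icc, interior_pi_set finite_univ]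
    simp only [interior_Icc]
  rw [frontier, h2, (isCompact_dyc v n z).isClosed.closure_eq]

/-- [FILL] for a dyadic cube -/
theorem fill_dyc {Ω Λ : Set V} (hΛ : IsOpen Λ) (h : ConHomeo Ω Λ) {v : V} {n : ℕ}
    {z : Fin 3 → ℤ} (hz : dyc v n z ⊆ Ω) {y : V} {R : ℝ}
    (hfr : h.toFun '' frontier (dyc v n z) ⊆ closedBall y R) :
    h.toFun '' dyc v n z ⊆ closedBall y R := by
  rintro _ ⟨x, hx, rfl⟩
  have hR : 0 ≤ R := by
    have hp : (0:ℝ) < 2 ^ n := by positivity
    have h1 : pt v n z ∈ frontier (dyc v n z) := by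
      rw [frontier_dyc]
      exact ⟨Vale.Agent.P073.H83.pt_mem_dyc v n z, fun h => lt_irrefl _ (h 0).1⟩
    exact dist_nonneg.trans (hfr (mem_image_of_mem _ h1))
  exact fill hΛ h (isCompact_dyc v n z) hz (isOpen_dyo v n z)
    (fun x hx k => ⟨(hx k).1.le, (hx k).2.le⟩) hR (fun x hx => hfr (mem_image_of_mem _ (by
      rw [frontier_dyc]; exact hx))) x hx

/-- **[HULL2]** -/
theorem hull2 {v : V} {s : Idx × Fin 3} {E κ : Set V} (hE : IsCompact E) (hEs : E ⊆ rel v s)
    (hκE : κ ⊆ E) (hκ : κ.Nonempty) (hEU : ∃ U, IsOpen U ∧ E \ κ = squ v s ∩ U)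
    {o : V} {R : ℝ} (hκR : κ ⊆ closedBall o R) : E ⊆ closedBall o R := by
  obtain ⟨y, hy⟩ := hκ
  have hR : 0 ≤ R := dist_nonneg.trans (hκR hy)
  obtain ⟨U, hU, hEU⟩ := hEU
  -- a point of `E` which is extremal in the tangential direction `k` lies on `κ`
  have key : ∀ k, k ≠ s.2 → ∀ σ : ℝ, σ = 1 ∨ σ = -1 → ∀ x ∈ E, ∃ y ∈ κ, σ * x k ≤ σ * y k := by
    intro k hk σ hσ x hx
    obtain ⟨x0, hx0, hmax⟩ := hE.exists_isMaxOn ⟨x, hx⟩ (f := fun x => σ * x k)
      (by fun_prop)
    by_cases hx0κ : x0 ∈ κ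
    · exact ⟨x0, hx0κ, hmax hx⟩
    · exfalso
      have h1 : x0 ∈ squ v s ∩ U := by rw [← hEU]; exact ⟨hx0, hx0κ⟩
      obtain ⟨ε, hε, hb⟩ := Metric.isOpen_iff.1 hU x0 h1.2
      obtain ⟨h2, h3⟩ := (hEs hx0).2 k hk
      obtain ⟨η, hη, hη1, hη2, hη3⟩ : ∃ η > 0, η < ε ∧
          v k + s.1.2 k / 2 ^ s.1.1 ≤ x0 k + σ * η ∧
          x0 k + σ * η ≤ v k + (s.1.2 k + 1) / 2 ^ s.1.1 := by
        refine ⟨min (ε / 2) (min (x0 k - (v k + s.1.2 k / 2 ^ s.1.1))
          (v k + (s.1.2 k + 1) / 2 ^ s.1.1 - x0 k)), lt_min (by positivity)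
          (lt_min (by linarith) (by linarith)), (min_le_left _ _).trans_lt (by linarith), ?_, ?_⟩
        · have h4 := (min_le_right (ε / 2) (min (x0 k - (v k + s.1.2 k / 2 ^ s.1.1))
            (v k + (s.1.2 k + 1) / 2 ^ s.1.1 - x0 k))).trans (min_le_left _ _)
          have h5 : 0 ≤ min (ε / 2) (min (x0 k - (v k + s.1.2 k / 2 ^ s.1.1))
            (v k + (s.1.2 k + 1) / 2 ^ s.1.1 - x0 k)) := le_min (by positivity)
              (le_min (by linarith) (by linarith))
          rcases hσ with rfl | rfl <;> linarith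
        · have h4 := (min_le_right (ε / 2) (min (x0 k - (v k + s.1.2 k / 2 ^ s.1.1))
            (v k + (s.1.2 k + 1) / 2 ^ s.1.1 - x0 k))).trans (min_le_right _ _)
          have h5 : 0 ≤ min (ε / 2) (min (x0 k - (v k + s.1.2 k / 2 ^ s.1.1))
            (v k + (s.1.2 k + 1) / 2 ^ s.1.1 - x0 k)) := le_min (by positivity)
              (le_min (by linarith) (by linarith))
          rcases hσ with rfl | rfl <;> linarith
      have h4 : Function.update x0 k (x0 k + σ * η) ∈ E \ κ := by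
        rw [hEU]
        refine ⟨⟨?_, fun j hj => ?_⟩, hb ?_⟩
        · rw [Function.update_of_ne (Ne.symm hk)]
          exact h1.1.1
        · by_cases hjk : j = k
          · rw [hjk, Function.update_self]
            exact ⟨hη2, hη3⟩
          · rw [Function.update_of_ne hjk]
            exact h1.1.2 j hj
        · rw [mem_ball, dist_pi_lt_iff hε]
          intro j
          by_cases hjk : j = k
          · rw [hjk, Function.update_self, Real.dist_eq, add_sub_cancel_left, abs_mul]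
            rcases hσ with rfl | rfl
            · rw [abs_one, one_mul, abs_of_pos hη]; exact hη1
            · rw [abs_neg, abs_one, one_mul, abs_of_pos hη]; exact hη1
          · rw [Function.update_of_ne hjk, dist_self]
            exact hε
      have h5 := hmax h4.1
      simp only [Function.update_self, mem_ofPred_eq] at h5
      have h6 : σ * σ = 1 := by rcases hσ with rfl | rfl <;> norm_num
      nlinarith
  intro x hx
  rw [mem_closedBall, dist_pi_le_iff hR]
  intro k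
  have hc : ∀ y ∈ κ, |y k - o k| ≤ R := by
    intro y hy
    have := (dist_pi_le_iff hR).1 (mem_closedBall.1 (hκR hy)) k
    rwa [Real.dist_eq] at this
  rw [Real.dist_eq]
  by_cases hk : k = s.2
  · subst hk
    have h1 : x s.2 = y s.2 := by rw [(hEs hx).1, (hEs (hκE hy)).1]
    rw [h1]
    exact hc y hy
  · obtain ⟨y1, hy1, h1⟩ := key k hk 1 (Or.inl rfl) x hx
    obtain ⟨y2, hy2, h2⟩ := key k hk (-1) (Or.inr rfl) x hx
    have h3 := abs_le.1 (hc y1 hy1)
    have h4 := abs_le.1 (hc y2 hy2)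
    rw [abs_le]
    constructor <;> linarith [h3.2, h4.1]

/-- [HULL2] for discs -/
theorem hull2_ball {v : V} {s : Idx × Fin 3} {E κ : Set V} (hE : ConBall 2 E κ)
    (hEs : E ⊆ rel v s) (hEU : ∃ U, IsOpen U ∧ E \ κ = squ v s ∩ U)
    {o : V} {R : ℝ} (hκR : κ ⊆ closedBall o R) : E ⊆ closedBall o R := by
  have h1 : κ.Nonempty := by
    obtain ⟨hB, φ, hφ⟩ := hE
    obtain ⟨y, hy⟩ := NormedSpace.sphere_nonempty (E := Fin 2 → ℝ) (x := 0) (r := 1) |>.2 zero_le_one
    rw [← hφ] at hy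
    obtain ⟨x, hx, -⟩ := hy
    exact ⟨x, hx⟩
  have h2 : IsCompact E := by
    obtain ⟨_, φ, _⟩ := hE
    exact φ.symm.isCompact_right (isCompact_closedBall _ _)
  exact hull2 h2 hEs hE.1 h1 hEU hκR

end P073.H953
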