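import Vale.Agent.P073.H726.NeckLen
import Vale.Agent.P073.H190.ColB3

/-!
# P073, P2h: the alternative for connected sets outside of the kept cubes

`g`: the map before the retractions, `g'`: after the retractions (equal to `g` or in one of the neck
cubes), `T`: the collapse of helper190.
-/

open Set Metric Topology Filter
open scoped ENNReal

namespace P073.H953

open P073
open Vale.Agent.P073.St (V)
open Vale.Agent.P073.H190 (IsColB)

variable {ι E : Type*} [TopologicalSpace E] {J : Finset ι} {b : ι → V} {r : ι → ℝ} {S : Set E}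
  {g g' : E → V}

/-- every point of a connected set has an unmoved partner, or the whole set is in one cube -/
theorem colB_partner
    (hd : ∀ i ∈ J, ∀ j ∈ J, i ≠ j → Disjoint (closedBall (b i) (r i)) (closedBall (b j) (r j)))
    (hS : IsPreconnected S) (hg : ContinuousOn g S) (hg' : ContinuousOn g' S)
    (h : ∀ x ∈ S, g' x = g x ∨ ∃ i ∈ J, g' x ∈ closedBall (b i) (r i)) :
    (∃ i ∈ J, MapsTo g' S (closedBall (b i) (r i))) ∨
      ∀ x ∈ S, g' x = g x ∨ ∃ i ∈ J, g' x ∈ closedBall (b i) (r i) ∧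
        ∃ y ∈ S, g' y = g y ∧ g' y ∈ closedBall (b i) (r i) := by
  by_cases h0 : ∃ i ∈ J, MapsTo g' S (closedBall (b i) (r i))
  · exact Or.inl h0
  · right
    intro x hx
    rcases h x hx with h1 | ⟨i, hi, h1⟩
    · exact Or.inl h1
    · right
      refine ⟨i, hi, h1, ?_⟩
      rcases Vale.Agent.P073.H726.NL.exists_partner (J := {j // j ∈ J}) (b := fun j => b j.1)
        (ρ := fun j => r j.1) (fun i j hij => hd _ i.2 _ j.2 fun e => hij (Subtype.ext e)) hS hg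
        hg' (fun x hx => (h x hx).imp_right fun ⟨i, hi, h2⟩ => ⟨⟨i, hi⟩, h2⟩) (i := ⟨i, hi⟩) hx h1
        with h2 | ⟨y, hy, h3, h4⟩
      · exact absurd ⟨i, hi, h2⟩ h0
      · exact ⟨y, hy, h3, h4⟩

variable {D : V → ℝ} {ε l₀ ρ d : ℝ} {T : V → V}

/-- **the oscillation** after the retractions and the collapse -/
theorem osc_colB (HT : IsColB b r D J ε l₀ T) (hε : 0 ≤ ε) (hl : 0 ≤ l₀)
    (hd : ∀ i ∈ J, ∀ j ∈ J, i ≠ j → Disjoint (closedBall (b i) (r i)) (closedBall (b j) (r j)))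
    (hr : ∀ i ∈ J, 2 * r i ≤ ρ) (hρ : 0 ≤ ρ)
    (hS : IsPreconnected S) (hg : ContinuousOn g S) (hg' : ContinuousOn g' S)
    (h : ∀ x ∈ S, g' x = g x ∨ ∃ i ∈ J, g' x ∈ closedBall (b i) (r i))
    (hosc : ∀ x ∈ S, ∀ y ∈ S, ‖g x - g y‖ ≤ d) {x y : E} (hx : x ∈ S) (hy : y ∈ S) :
    ‖T (g' x) - T (g' y)‖ ≤ (1 + 48 * ε) * d + 2 * (l₀ * ρ) := by
  have hd0 : 0 ≤ d := (norm_nonneg _).trans (hosc x hx x hx)
  have hball : ∀ i ∈ J, ∀ u ∈ closedBall (b i) (r i), ∀ w ∈ closedBall (b i) (r i),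
      ‖T u - T w‖ ≤ l₀ * ρ := by
    intro i hi u hu w hw
    rw [mem_closedBall, dist_eq_norm] at hu hw
    refine (HT.sq_diam hl hi hu hw).trans ?_
    exact mul_le_mul_of_nonneg_left (hr i hi) hl
  have hlρ : 0 ≤ l₀ * ρ := by positivity
  rcases colB_partner hd hS hg hg' h with ⟨i, hi, h1⟩ | h1
  · refine (hball i hi _ (h1 hx) _ (h1 hy)).trans ?_
    have : 0 ≤ (1 + 48 * ε) * d := by positivity
    linarith
  · have hp : ∀ z ∈ S, ∃ w ∈ S, g' w = g w ∧ ‖T (g' z) - T (g' w)‖ ≤ l₀ * ρ := by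
      intro z hz
      rcases h1 z hz with h2 | ⟨i, hi, h2, w, hw, h3, h4⟩
      · exact ⟨z, hz, h2, by rw [sub_self, norm_zero]; exact hlρ⟩
      · exact ⟨w, hw, h3, hball i hi _ h2 _ h4⟩
    obtain ⟨w, hw, e1, e2⟩ := hp x hx
    obtain ⟨w', hw', e3, e4⟩ := hp y hy
    have e5 : ‖T (g' w) - T (g' w')‖ ≤ (1 + 48 * ε) * d := by
      refine (HT.lipn _ _).trans ?_
      rw [e1, e3]
      exact mul_le_mul_of_nonneg_left (hosc w hw w' hw') (by positivity)
    rw [norm_sub_rev] at e4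
    calc ‖T (g' x) - T (g' y)‖
        ≤ ‖T (g' x) - T (g' w)‖ + ‖T (g' w) - T (g' y)‖ := norm_sub_le_norm_sub_add_norm_sub _ _ _
      _ ≤ ‖T (g' x) - T (g' w)‖ + (‖T (g' w) - T (g' w')‖ + ‖T (g' w') - T (g' y)‖) := by
          gcongr
          exact norm_sub_le_norm_sub_add_norm_sub _ _ _
      _ ≤ _ := by linarith

/-- **the alternative**: nothing happens on the connected set, or its image is near a neck cube -/
theorem alt_colB {R₀ : ℝ} (HT : IsColB b r (fun _ => R₀) J ε l₀ T) (hε : 0 ≤ ε) (hl : 0 ≤ l₀)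
    (hd : ∀ i ∈ J, ∀ j ∈ J, i ≠ j → Disjoint (closedBall (b i) (r i)) (closedBall (b j) (r j)))
    (hr : ∀ i ∈ J, 2 * r i ≤ ρ) (hρ : 0 ≤ ρ) (hρR : ρ ≤ 4 * R₀)
    (hS : IsPreconnected S) (hg : ContinuousOn g S) (hg' : ContinuousOn g' S)
    (h : ∀ x ∈ S, g' x = g x ∨ ∃ i ∈ J, g' x ∈ closedBall (b i) (r i))
    (hosc : ∀ x ∈ S, ∀ y ∈ S, ‖g x - g y‖ ≤ d) :
    (∀ x ∈ S, g' x = g x ∧ T (g' x) = g x) ∨
      ∃ j ∈ J, ∀ x ∈ S, ‖T (g' x) - b j‖ ≤
        2 * R₀ + 3 * ε * R₀ + ((1 + 48 * ε) * d + 2 * (l₀ * ρ)) := by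
  by_cases h0 : ∃ x ∈ S, ∃ j ∈ J, ‖g' x - b j‖ ≤ 2 * R₀
  · obtain ⟨x, hx, j, hj, h1⟩ := h0
    right
    refine ⟨j, hj, fun y hy => ?_⟩
    have h2 := osc_colB HT hε hl hd hr hρ hS hg hg' h hosc hy hx
    have h3 := HT.disp (g' x)
    calc ‖T (g' y) - b j‖ ≤ ‖T (g' y) - T (g' x)‖ + ‖T (g' x) - b j‖ :=
          norm_sub_le_norm_sub_add_norm_sub _ _ _
      _ ≤ ‖T (g' y) - T (g' x)‖ + (‖T (g' x) - g' x‖ + ‖g' x - b j‖) := by
          gcongr
          exact norm_sub_le_norm_sub_add_norm_sub _ _ _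
      _ ≤ _ := by linarith
  · left
    push Not at h0
    intro x hx
    have h1 : g' x = g x := by
      rcases h x hx with h2 | ⟨i, hi, h2⟩
      · exact h2
      · exfalso
        rw [mem_closedBall, dist_eq_norm] at h2
        have h3 := h0 x hx i hi
        have h4 := hr i hi
        linarith
    refine ⟨h1, ?_⟩
    rw [HT.id (g' x) fun j hj => h0 x hx j hj, h1]

end P073.H953
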