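import Vale.Agent.P073.PR.Faces
import Vale.Agent.P073.AB.Part86
import Vale.Agent.P073.H953.SqGrid

/-!
# P073, P2h: leaves [BYPASS], [EXT]

Removing finitely many open pieces, each of which can be bypassed on a connected set, does not
disconnect; application: lattice boxes, lattice cubes and discs in lattice squares.
-/

open Set Metric Topology Filter

namespace P073.H953

open P073
open Vale.Agent.P073.St (V)
open Vale.Agent.P073.AB
open P073.Net (dyc dyo)
open Vale.Agent.P073.AB.P86 (rel lo lo_same lo_other)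

/-- **[BYPASS]** -/
theorem bypass {E ι : Type*} [TopologicalSpace E] [Finite ι] {X : Set E} (hX : IsPreconnected X)
    {G C : ι → Set E} (hG : ∀ i, ∃ U, IsOpen U ∧ G i = X ∩ U)
    (hd : ∀ i j, i ≠ j → Disjoint (G i) (G j)) (hC : ∀ i, IsPreconnected (C i))
    (hCX : ∀ i, C i ⊆ X \ ⋃ i, G i) (hcl : ∀ i, X ∩ closure (G i) ⊆ G i ∪ C i) :
    IsPreconnected (X \ ⋃ i, G i) := by
  classical
  refine isPreconnected_of_forall_constant fun f hf => ?_
  have hb : ∀ i, ∃ b : Bool, ∀ x ∈ C i, f x = b := by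
    intro i
    rcases (C i).eq_empty_or_nonempty with h | ⟨x0, hx0⟩
    · exact ⟨true, by simp [h]⟩
    · exact ⟨f x0, fun x hx => (hC i).constant (hf.mono (hCX i)) hx hx0⟩
  choose b hb using hb
  set g : E → Bool := fun x => if h : ∃ i, x ∈ G i then b h.choose else f x with hg
  have gG : ∀ i, ∀ x ∈ G i, g x = b i := by
    intro i x hx
    have h : ∃ i, x ∈ G i := ⟨i, hx⟩
    rw [hg]
    simp only [dif_pos h]
    congr 1
    by_contra hne
    exact disjoint_left.1 (hd _ _ hne) h.choose_spec hx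
  have gY : ∀ x, (∀ i, x ∉ G i) → g x = f x := by
    intro x hx
    rw [hg]
    simp only
    rw [dif_neg]
    rintro ⟨i, hi⟩
    exact hx i hi
  have hcont : ContinuousOn g X := by
    intro x hx
    have key : ∀ᶠ y in 𝓝[X] x, g y = g x := by
      by_cases hxG : ∃ i, x ∈ G i
      · obtain ⟨i, hi⟩ := hxG
        obtain ⟨U, hU, hGU⟩ := hG i
        have hxU : x ∈ U := by rw [hGU] at hi; exact hi.2
        filter_upwards [mem_nhdsWithin_of_mem_nhds (hU.mem_nhds hxU), self_mem_nhdsWithin]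
          with y hy hyX
        rw [gG i y (by rw [hGU]; exact ⟨hyX, hy⟩), gG i x hi]
      · have hxG' : ∀ i, x ∉ G i := fun i hi => hxG ⟨i, hi⟩
        have hxY : x ∈ X \ ⋃ i, G i := ⟨hx, by rw [mem_iUnion]; exact hxG⟩
        have h1 : ∀ᶠ y in 𝓝 x, y ∈ X \ (⋃ i, G i) → f y = f x :=
          eventually_nhdsWithin_iff.1 ((hf x hxY) (IsOpen.mem_nhds (isOpen_discrete {f x}) rfl))
        have h2 : ∀ᶠ y in 𝓝[X] x, ∀ i, y ∈ G i → b i = f x := by
          rw [eventually_all]
          intro i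
          by_cases hcx : x ∈ closure (G i)
          · have : x ∈ C i := (hcl i ⟨hx, hcx⟩).resolve_left (hxG' i)
            exact Eventually.of_forall fun y _ => (hb i x this).symm
          · filter_upwards [mem_nhdsWithin_of_mem_nhds (isClosed_closure.isOpen_compl.mem_nhds hcx)]
              with y hy hyG
            exact absurd (subset_closure hyG) hy
        filter_upwards [mem_nhdsWithin_of_mem_nhds h1, h2, self_mem_nhdsWithin] with y hy1 hy2 hyX
        rw [gY x hxG']
        by_cases hyG : ∃ i, y ∈ G i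
        · obtain ⟨i, hi⟩ := hyG
          rw [gG i y hi, hy2 i hi]
        · rw [gY y fun i hi => hyG ⟨i, hi⟩]
          exact hy1 ⟨hyX, by rw [mem_iUnion]; exact hyG⟩
    exact (tendsto_const_nhds (x := g x)).congr' (key.mono fun y hy => hy.symm)
  intro x hx y hy
  have h1 := hX.constant hcont hx.1 hy.1
  have hx' : ∀ i, x ∉ G i := fun i hi => hx.2 (mem_iUnion.2 ⟨i, hi⟩)
  have hy' : ∀ i, y ∉ G i := fun i hi => hy.2 (mem_iUnion.2 ⟨i, hi⟩)
  rwa [gY x hx', gY y hy'] at h1

/-- removing finitely many disjoint open sets with connected frontiers -/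
theorem bypass_open {E ι : Type*} [TopologicalSpace E] [Finite ι] {X : Set E}
    (hX : IsPreconnected X) {G : ι → Set E} (hG : ∀ i, IsOpen (G i))
    (hd : ∀ i j, i ≠ j → Disjoint (G i) (G j)) (hC : ∀ i, IsPreconnected (frontier (G i)))
    (hGX : ∀ i, closure (G i) ⊆ X) : IsPreconnected (X \ ⋃ i, G i) := by
  refine bypass hX (C := fun i => frontier (G i)) (fun i => ⟨G i, hG i,
    (inter_eq_right.2 (subset_closure.trans (hGX i))).symm⟩) hd hC (fun i x hx => ⟨hGX i
    (frontier_subset_closure hx), ?_⟩) fun i x hx => ?_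
  · rw [mem_iUnion]
    rintro ⟨j, hj⟩
    by_cases hij : j = i
    · subst hij
      rw [frontier, (hG j).interior_eq] at hx
      exact hx.2 hj
    · have h1 := frontier_subset_closure hx
      rw [_root_.mem_closure_iff] at h1
      obtain ⟨y, hy1, hy2⟩ := h1 (G j) (hG j) hj
      exact disjoint_left.1 (hd j i hij) hy1 hy2
  · by_cases h : x ∈ G i
    · exact Or.inl h
    · right
      rw [frontier, (hG i).interior_eq]
      exact ⟨hx.2, h⟩

/-- the boundary of a conical ball of dimension at least two is connected -/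
theorem bdry_preconn {E : Type*} [NormedAddCommGroup E] [NormedSpace ℝ E] {n : ℕ} (hn : 2 ≤ n)
    {C B : Set E} (h : ConBall n C B) : IsPreconnected B := by
  obtain ⟨hB, φ, hφ⟩ := h
  have h1 : B = φ.invFun '' sphere 0 1 := by
    rw [← hφ]
    ext x
    constructor
    · exact fun hx => ⟨φ.toFun x, ⟨x, hx, rfl⟩, φ.left_inv (hB hx)⟩
    · rintro ⟨_, ⟨y, hy, rfl⟩, rfl⟩
      rwa [φ.left_inv (hB hy)]
  rw [h1]
  refine IsPreconnected.image ?_ _ (φ.cont_inv.mono sphere_subset_closedBall)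
  refine isPreconnected_sphere ?_ 0 1
  rw [rank_fin_fun]
  exact_mod_cast hn

/-! ### Open boxes -/

/-- open box -/
def obox (lo hi : V) : Set V := {x | ∀ k, lo k < x k ∧ x k < hi k}

theorem obox_eq (lo hi : V) : obox lo hi = Set.pi univ fun k => Ioo (lo k) (hi k) := by
  ext x
  simp [obox]

theorem isOpen_obox (lo hi : V) : IsOpen (obox lo hi) := by
  rw [obox_eq]
  exact isOpen_set_pi finite_univ fun k _ => isOpen_Ioo

theorem closure_obox {lo hi : V} (h : ∀ k, lo k < hi k) : closure (obox lo hi) = Icc lo hi := by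
  rw [obox_eq, closure_pi_set]
  ext x
  simp only [closure_Ioo (h _).ne, Set.mem_pi, mem_univ, forall_const, mem_Icc, Pi.le_def]
  exact forall_and

theorem frontier_obox_preconn {lo hi : V} (h : ∀ k, lo k < hi k) :
    IsPreconnected (frontier (obox lo hi)) := by
  have h1 := bdry_preconn (by norm_num) (conBall_brick three_ne_zero h)
  rw [frontier, (isOpen_obox lo hi).interior_eq, closure_obox h]
  have e : Icc lo hi = {x : Fin 3 → ℝ | ∀ k, lo k ≤ x k ∧ x k ≤ hi k} := by
    ext x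
    simp only [mem_Icc, Pi.le_def, mem_ofPred_eq]
    exact forall_and.symm
  rw [e]
  exact h1

/-- removing finitely many disjoint open boxes -/
theorem ext_boxes {ι : Type*} [Finite ι] {Ω : Set V} (hΩ : IsPreconnected Ω) {a b : ι → V}
    (hab : ∀ i k, a i k < b i k) (hd : ∀ i j, i ≠ j → Disjoint (obox (a i) (b i)) (obox (a j) (b j)))
    (hsub : ∀ i, Icc (a i) (b i) ⊆ Ω) : IsPreconnected (Ω \ ⋃ i, obox (a i) (b i)) :=
  bypass_open hΩ (fun _ => isOpen_obox _ _) hd (fun i => frontier_obox_preconn (hab i))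
    fun i => by rw [closure_obox (hab i)]; exact hsub i

/-- lattice box with corners `z`, `z'` -/
noncomputable def lbox (v : V) (N : ℕ) (z z' : Fin 3 → ℤ) : Set V :=
  obox (fun k => v k + z k / 2 ^ N) fun k => v k + z' k / 2 ^ N

theorem dyo_eq_lbox (v : V) (N : ℕ) (z : Fin 3 → ℤ) : dyo v N z = lbox v N z fun k => z k + 1 := by
  ext x
  simp [dyo, lbox, obox]

theorem dyc_eq_Icc (v : V) (N : ℕ) (z : Fin 3 → ℤ) : dyc v N z =
    Icc (fun k => v k + z k / 2 ^ N : V) fun k => v k + ((z k + 1 : ℤ) : ℝ) / 2 ^ N := by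
  ext x
  simp only [dyc, mem_ofPred_eq, mem_Icc, Pi.le_def]
  push_cast
  exact forall_and

/-- a lattice cube is contained in a lattice box or disjoint from it -/
theorem dyo_lbox {v : V} {N : ℕ} {z a b : Fin 3 → ℤ} :
    dyo v N z ⊆ lbox v N a b ∨ Disjoint (dyo v N z) (lbox v N a b) := by
  have hp : (0:ℝ) < 2 ^ N := by positivity
  by_cases h : ∀ k, a k ≤ z k ∧ z k + 1 ≤ b k
  · left
    intro x hx k
    obtain ⟨h1, h2⟩ := hx k
    obtain ⟨h3, h4⟩ := h k
    have h3' : (a k : ℝ) ≤ z k := by exact_mod_cast h3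
    have h4' : (z k : ℝ) + 1 ≤ b k := by exact_mod_cast h4
    have h5 : (a k : ℝ) / 2 ^ N ≤ z k / 2 ^ N := by gcongr
    have h6 : ((z k : ℝ) + 1) / 2 ^ N ≤ b k / 2 ^ N := by gcongr
    constructor
    · show v k + (a k : ℝ) / 2 ^ N < x k
      linarith
    · show x k < v k + (b k : ℝ) / 2 ^ N
      linarith
  · right
    rw [disjoint_left]
    intro x hx hx'
    apply h
    intro k
    obtain ⟨h1, h2⟩ := hx k
    obtain ⟨h3, h4⟩ : v k + (a k : ℝ) / 2 ^ N < x k ∧ x k < v k + (b k : ℝ) / 2 ^ N := hx' k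
    have h5 : (a k : ℝ) / 2 ^ N < (z k + 1) / 2 ^ N := by linarith
    have h6 : (z k : ℝ) / 2 ^ N < b k / 2 ^ N := by linarith
    rw [div_lt_div_iff_of_pos_right hp] at h5 h6
    have h5' : a k < z k + 1 := by exact_mod_cast h5
    have h6' : z k < b k := by exact_mod_cast h6
    constructor <;> omega

theorem dyo_disj {v : V} {N : ℕ} {z z' : Fin 3 → ℤ} (h : z ≠ z') :
    Disjoint (dyo v N z) (dyo v N z') := by
  have hp : (0:ℝ) < 2 ^ N := by positivity
  obtain ⟨k, hk⟩ := Function.ne_iff.1 h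
  rw [disjoint_left]
  intro x hx hx'
  obtain ⟨h1, h2⟩ := hx k
  obtain ⟨h3, h4⟩ := hx' k
  have h5 : (z k : ℝ) / 2 ^ N < (z' k + 1) / 2 ^ N := by linarith
  have h6 : (z' k : ℝ) / 2 ^ N < (z k + 1) / 2 ^ N := by linarith
  rw [div_lt_div_iff_of_pos_right hp] at h5 h6
  have h5' : z k < z' k + 1 := by exact_mod_cast h5
  have h6' : z' k < z k + 1 := by exact_mod_cast h6
  omega

theorem ext_lboxes {Ω : Set V} (hΩ : IsPreconnected Ω) (v : V) (N : ℕ)
    {S : Set ((Fin 3 → ℤ) × (Fin 3 → ℤ))} (hS : S.Finite) (hlt : ∀ p ∈ S, ∀ k, p.1 k < p.2 k)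
    (hd : ∀ p ∈ S, ∀ p' ∈ S, p ≠ p' → Disjoint (lbox v N p.1 p.2) (lbox v N p'.1 p'.2))
    (hsub : ∀ p ∈ S, Icc (fun k => v k + p.1 k / 2 ^ N : V) (fun k => v k + p.2 k / 2 ^ N) ⊆ Ω) :
    IsPreconnected (Ω \ ⋃ p ∈ S, lbox v N p.1 p.2) := by
  have : Finite S := hS
  have h := ext_boxes (ι := S) hΩ (a := fun p k => v k + p.1.1 k / 2 ^ N)
    (b := fun p k => v k + p.1.2 k / 2 ^ N) (fun p k => by
      have h1 : (p.1.1 k : ℝ) < p.1.2 k := by exact_mod_cast hlt p.1 p.2 k
      gcongr) (fun p p' hne => hd p.1 p.2 p'.1 p'.2 fun h => hne (Subtype.ext h))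
    fun p => hsub p.1 p.2
  rw [biUnion_eq_iUnion]
  exact h

/-- **[EXT]**: a lattice box and finitely many lattice cubes are removed -/
theorem ext_lattice {Ω : Set V} (hΩ : IsPreconnected Ω) (v : V) (N : ℕ) {a b : Fin 3 → ℤ}
    (hab : ∀ k, a k < b k)
    (hD : Icc (fun k => v k + a k / 2 ^ N : V) (fun k => v k + b k / 2 ^ N) ⊆ Ω)
    {Q : Set (Fin 3 → ℤ)} (hQf : Q.Finite) (hQ : ∀ z ∈ Q, dyc v N z ⊆ Ω) :
    IsPreconnected (Ω \ (lbox v N a b ∪ ⋃ z ∈ Q, dyo v N z)) := by
  set S : Set ((Fin 3 → ℤ) × (Fin 3 → ℤ)) := insert (a, b)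
    ((fun z => (z, fun k => z k + 1)) '' {z | z ∈ Q ∧ Disjoint (dyo v N z) (lbox v N a b)}) with hS
  have hmem : ∀ p ∈ S, p = (a, b) ∨ ∃ z ∈ Q, Disjoint (dyo v N z) (lbox v N a b) ∧
      p = (z, fun k => z k + 1) := by
    intro p hp
    rcases hp with h | ⟨z, hz, h⟩
    · exact Or.inl h
    · exact Or.inr ⟨z, hz.1, hz.2, h.symm⟩
  have key := ext_lboxes hΩ v N (S := S)
    (((hQf.subset fun z hz => hz.1).image _).insert _) (by
      intro p hp k
      rcases hmem p hp with rfl | ⟨z, -, -, rfl⟩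
      · exact hab k
      · exact Int.lt_succ _) (by
      intro p hp p' hp' hne
      rcases hmem p hp with rfl | ⟨z, -, hz, rfl⟩ <;> rcases hmem p' hp' with rfl | ⟨z', -, hz', rfl⟩
      · exact absurd rfl hne
      · rw [dyo_eq_lbox] at hz'
        exact hz'.symm
      · rw [dyo_eq_lbox] at hz
        exact hz
      · have h1 := dyo_disj (v := v) (N := N) (z := z) (z' := z') fun h => hne (by rw [h])
        rw [dyo_eq_lbox, dyo_eq_lbox] at h1
        exact h1) (by
      intro p hp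
      rcases hmem p hp with rfl | ⟨z, hz, -, rfl⟩
      · exact hD
      · have h1 := hQ z hz
        rw [dyc_eq_Icc] at h1
        exact h1)
  have e : ⋃ p ∈ S, lbox v N p.1 p.2 = lbox v N a b ∪ ⋃ z ∈ Q, dyo v N z := by
    apply Subset.antisymm
    · refine iUnion₂_subset fun p hp => ?_
      rcases hmem p hp with rfl | ⟨z, hz, -, rfl⟩
      · exact subset_union_left
      · refine Subset.trans ?_ subset_union_right
        refine Subset.trans ?_ (subset_iUnion₂ z hz)
        rw [dyo_eq_lbox]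
    · refine union_subset ?_ (iUnion₂_subset fun z hz => ?_)
      · exact subset_iUnion₂_of_subset (a, b) (mem_insert _ _) Subset.rfl
      · rcases dyo_lbox (v := v) (N := N) (z := z) (a := a) (b := b) with h1 | h1
        · exact h1.trans (subset_iUnion₂_of_subset (a, b) (mem_insert _ _) Subset.rfl)
        · refine subset_iUnion₂_of_subset (z, fun k => z k + 1)
            (mem_insert_of_mem _ ⟨z, ⟨hz, h1⟩, rfl⟩) ?_
          rw [dyo_eq_lbox]
  rwa [e] at key

/-- the open double cube over a lattice square -/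
theorem rel_nhds {v : V} {s : Idx × Fin 3} :
    ∃ O, IsOpen O ∧ rel v s ⊆ O ∧
      ∀ x ∈ O, x ∈ rel v s ∨ x ∈ dyo v s.1.1 s.1.2 ∨ x ∈ dyo v s.1.1 (lo s) := by
  have hp : (0:ℝ) < 1 / 2 ^ s.1.1 := by positivity
  set a : V := fun k => if k = s.2 then v k + s.1.2 k / 2 ^ s.1.1 - 1 / 2 ^ s.1.1 else
    v k + s.1.2 k / 2 ^ s.1.1 with ha
  set b : V := fun k => v k + s.1.2 k / 2 ^ s.1.1 + 1 / 2 ^ s.1.1 with hb
  have ab : ∀ k, k ≠ s.2 → a k = v k + s.1.2 k / 2 ^ s.1.1 ∧
      b k = v k + (s.1.2 k + 1) / 2 ^ s.1.1 := by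
    intro k hk
    refine ⟨by rw [ha]; exact if_neg hk, ?_⟩
    rw [hb]
    simp only
    rw [add_div, add_assoc]
  refine ⟨obox a b, isOpen_obox a b, fun x hx k => ?_, fun x hx => ?_⟩
  · by_cases hk : k = s.2
    · subst hk
      have h1 := hx.1
      have h2 : a s.2 = v s.2 + s.1.2 s.2 / 2 ^ s.1.1 - 1 / 2 ^ s.1.1 := by rw [ha]; exact if_pos rfl
      rw [h2, h1]
      constructor
      · linarith
      · rw [hb]; simp only; linarith
    · rw [(ab k hk).1, (ab k hk).2]
      exact hx.2 k hk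
  · have hx2 := hx s.2
    have h2 : a s.2 = v s.2 + s.1.2 s.2 / 2 ^ s.1.1 - 1 / 2 ^ s.1.1 := by rw [ha]; exact if_pos rfl
    have h3 : b s.2 = v s.2 + s.1.2 s.2 / 2 ^ s.1.1 + 1 / 2 ^ s.1.1 := rfl
    rw [h2, h3] at hx2
    have hxk : ∀ k, k ≠ s.2 → v k + s.1.2 k / 2 ^ s.1.1 < x k ∧
        x k < v k + (s.1.2 k + 1) / 2 ^ s.1.1 := by
      intro k hk
      have := hx k
      rwa [(ab k hk).1, (ab k hk).2] at this
    rcases lt_trichotomy (x s.2) (v s.2 + s.1.2 s.2 / 2 ^ s.1.1) with h | h | h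
    · right; right
      intro k
      by_cases hk : k = s.2
      · subst hk
        rw [lo_same]
        push_cast
        rw [sub_add_cancel, sub_div]
        constructor
        · linarith [hx2.1]
        · exact h
      · rw [lo_other s hk]
        exact hxk k hk
    · exact Or.inl ⟨h, hxk⟩
    · right; left
      intro k
      by_cases hk : k = s.2
      · subst hk
        refine ⟨h, ?_⟩
        rw [add_div]
        linarith [hx2.2]
      · exact hxk k hk

/-- **[EXT], second part**: the open parts of finitely many discs in open lattice squares, whose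
two cubes do not meet `X`, are removed -/
theorem ext_discs {X : Set V} (hX : IsPreconnected X) {v : V} {ι : Type*} [Finite ι]
    {s : ι → Idx × Fin 3} {E κ : ι → Set V} (hE : ∀ i, ConBall 2 (E i) (κ i))
    (hEs : ∀ i, E i ⊆ rel v (s i)) (hEU : ∀ i, ∃ U, IsOpen U ∧ E i \ κ i = squ v (s i) ∩ U)
    (hEE : ∀ i j, i ≠ j → Disjoint (E i) (E j)) (hEX : ∀ i, E i ⊆ X)
    (h1 : ∀ i, Disjoint X (dyo v (s i).1.1 (s i).1.2)) (h2 : ∀ i, Disjoint X (dyo v (s i).1.1 (lo (s i)))) :
    IsPreconnected (X \ ⋃ i, E i \ κ i) := by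
  refine bypass hX (C := κ) (fun i => ?_) (fun i j hij => ?_) (fun i => bdry_preconn le_rfl (hE i))
    (fun i x hx => ?_) fun i x hx => ?_
  · obtain ⟨U, hU, hEU'⟩ := hEU i
    obtain ⟨O, hO, hO1, hO2⟩ := rel_nhds (v := v) (s := s i)
    refine ⟨U ∩ O, hU.inter hO, Subset.antisymm (fun x hx => ?_) fun x hx => ?_⟩
    · have h3 := hx
      rw [hEU'] at h3
      exact ⟨hEX i hx.1, h3.2, hO1 (hEs i hx.1)⟩
    · rw [hEU']
      rcases hO2 x hx.2.2 with h3 | h3 | h3
      · exact ⟨P86.rel_sub h3, hx.2.1⟩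
      · exact absurd h3 (disjoint_left.1 (h1 i) hx.1)
      · exact absurd h3 (disjoint_left.1 (h2 i) hx.1)
  · exact (hEE i j hij).mono sdiff_subset sdiff_subset
  · have hxE : x ∈ E i := (hE i).1 hx
    refine ⟨hEX i hxE, ?_⟩
    rw [mem_iUnion]
    rintro ⟨j, hj⟩
    by_cases hij : j = i
    · subst hij
      exact hj.2 hx
    · exact disjoint_left.1 (hEE j i hij) hj.1 hxE
  · have hcl : IsClosed (E i) := by
      obtain ⟨_, φ, _⟩ := hE i
      exact (φ.symm.isCompact_right (isCompact_closedBall _ _)).isClosed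
    have h3 : x ∈ E i := by
      have := closure_mono (sdiff_subset (s := E i) (t := κ i)) hx.2
      rwa [hcl.closure_eq] at this
    by_cases h4 : x ∈ κ i
    · exact Or.inr h4
    · exact Or.inl ⟨h3, h4⟩

end P073.H953
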