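import Vale.Agent.P073.H953.AltAB
import Vale.Agent.P073.Gauge.CxR673b
import Vale.Agent.P073.H687.LenSeg

/-!
# P073, P2h: the lengths of the mesh edges outside of the cells after the retractions and the
collapse
-/

open Set Metric Topology Filter MeasureTheory
open scoped ENNReal

namespace P073.H953

open P073
open Vale.Agent.P073.St (V Mat)
open Vale.Agent.P073.SQ (ev)
open Vale.Agent.P073.AB
open Vale.Agent.P073.H190 (IsColB)
open P073.Net (dyc dyo len)
open P073.Gauge (gam)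
open P073.Gauge.C110 (mem_edge_iff)
open Vale.Agent.P073.H73 (onSeg segP)

/-- the edges of a partition which meet a compact set -/
theorem finite_edges {Ω : Set V} {v : V} {I : Set Idx} (hI : Part Ω v I) {K : Set V} (hK : K ⊆ Ω)
    (hKc : IsCompact K) :
    {e : Idx × Fin 3 | (∃ q ∈ I, EdgeOf e q) ∧ ∃ t ∈ Icc (0:ℝ) 1, gam v e t ∈ K}.Finite := by
  refine ((hI.fin K hK hKc).biUnion fun q _ => Gauge.CxR.finite_edgeOf q).subset ?_
  rintro e ⟨⟨q, hq, he⟩, t, ht, htK⟩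
  exact mem_iUnion₂.2 ⟨q, ⟨hq, gam v e t, Gr.edge_subset_dyc he (mem_edge_iff.2 ⟨t, ht, rfl⟩),
    htK⟩, he⟩

variable {ι : Type*} {J : Finset ι} {b : ι → V} {r : ι → ℝ} {Ω Λ : Set V}

theorem conical_gam (v : V) (e : Idx × Fin 3) : ConicalOn (gam v e) (Icc 0 1) := by
  have hg : gam v e = fun t => AffineMap.lineMap (k := ℝ) (segP v e).1 (segP v e).2 t := by
    funext t
    rw [AffineMap.lineMap_apply]
    simp only [gam, segP, vsub_eq_sub, vadd_eq_add, add_sub_cancel_left]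
    rw [add_comm]
  rw [hg]
  exact conicalOn_of_affine _ (Convex.conicalSet (convex_Icc 0 1))

/-- **the strength of the collapse**: the lengths of all mesh edges which avoid the kept cubes -/
theorem exists_iota_edges
    (hd : ∀ i ∈ J, ∀ j ∈ J, i ≠ j → Disjoint (closedBall (b i) (r i)) (closedBall (b j) (r j)))
    (hB : ∀ j ∈ J, closedBall (b j) (r j) ⊆ Λ) {v : V} {I : Set Idx} (hI : Part Ω v I)
    {P : Idx × Fin 3 → Prop} (hP : ∀ e, P e → ∃ q ∈ I, EdgeOf e q)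
    (h' : ConHomeo Ω Λ) {g : V → V} (hg : ContinuousOn g Ω)
    (h : ∀ e, P e → ∀ x ∈ edge v e, h'.toFun x = g x ∨ ∃ i ∈ J, h'.toFun x ∈ closedBall (b i) (r i))
    {δ : Idx × Fin 3 → ℝ} (hδ : ∀ e, 0 < δ e) :
    ∃ ι₀ > 0, ∀ l, 0 ≤ l → l ≤ ι₀ → ∀ {D : V → ℝ} {ε : ℝ} {T : V → V}, 0 ≤ ε →
      IsColB b r D J ε l T → ∀ e, P e →
        len (onSeg (fun x => T (h'.toFun x)) (segP v e)) (Icc 0 1) ≤
          ENNReal.ofReal (2 * (1 + 48 * ε)) * len (onSeg g (segP v e)) (Icc 0 1) +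
            ENNReal.ofReal (δ e) := by
  have hsub : ∀ e, P e → edge v e ⊆ Ω := by
    intro e he
    obtain ⟨q, hq, h1⟩ := hP e he
    exact (Gr.edge_subset_dyc h1).trans (hI.sub q hq)
  obtain ⟨ι₀, hι₀, H⟩ := Vale.Agent.P073.H726.NL.exists_iota (J := {j // j ∈ J})
    (b := fun j => b j.1) (ρ := fun j => r j.1)
    (fun i j hij => hd _ i.2 _ j.2 fun e => hij (Subtype.ext e)) (fun j => hB _ j.2) h' hg
    (E := {e // P e}) (q := fun e => gam v e.1) (fun e => (by unfold gam; fun_prop))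
    (fun e => conical_gam v e.1) (fun e t ht => hsub e.1 e.2 (mem_edge_iff.2 ⟨t, ht, rfl⟩))
    (fun K hK hKc => by
      refine ((finite_edges hI hK hKc).preimage Subtype.val_injective.injOn).subset ?_
      rintro e ⟨t, ht, htK⟩
      exact ⟨hP e.1 e.2, t, ht, htK⟩)
    (fun e t ht => (h e.1 e.2 _ (mem_edge_iff.2 ⟨t, ht, rfl⟩)).imp_right
      fun ⟨i, hi, h2⟩ => ⟨⟨i, hi⟩, h2⟩) (ε := fun e => δ e.1) (fun e => hδ e.1)
  refine ⟨ι₀, hι₀, fun l hl0 hl D ε T hε HT e he => ?_⟩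
  rw [Vale.Agent.P073.H687.onSeg_segP, Vale.Agent.P073.H687.onSeg_segP]
  exact (H l hl0 hl T (1 + 48 * ε) (by positivity) HT.lipn (fun j x hx y hy => by
    rw [mem_closedBall, dist_eq_norm] at hx hy
    exact HT.sq j.1 j.2 x hx y hy) ⟨e, he⟩).2

end P073.H953
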