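import Mathlib

/-!
# P073, block P2b: merging closed balls

A finite family of closed balls is contained in a finite family of pairwise disjoint closed balls,
with the same sum of the radii, cluster by cluster.
-/

open Set Metric

namespace P073.H953

variable {E : Type*} [NormedAddCommGroup E] [NormedSpace ℝ E]

/-- two closed balls which meet are contained in a closed ball with the sum of the radii -/
theorem exists_center {a b : E} {r s : ℝ} (hr : 0 ≤ r) (hs : 0 ≤ s) (h : ‖a - b‖ ≤ r + s) :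
    ∃ c : E, ‖a - c‖ ≤ s ∧ ‖b - c‖ ≤ r := by
  rcases eq_or_lt_of_le (add_nonneg hr hs) with h0 | h0
  · have hr0 : r = 0 := by linarith
    have hs0 : s = 0 := by linarith
    have : a = b := by
      rw [← h0] at h
      exact sub_eq_zero.1 (norm_le_zero_iff.1 h)
    refine ⟨a, by rw [sub_self, norm_zero]; exact hs, by rw [this, sub_self, norm_zero]; exact hr⟩
  · refine ⟨a + (s / (r + s)) • (b - a), ?_, ?_⟩
    · rw [sub_add_cancel_left, norm_neg, norm_smul, Real.norm_of_nonneg (by positivity),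
        norm_sub_rev]
      calc s / (r + s) * ‖a - b‖ ≤ s / (r + s) * (r + s) := by gcongr
        _ = s := by field_simp
    · have e : b - (a + (s / (r + s)) • (b - a)) = (r / (r + s)) • (b - a) := by
        have h1 : r / (r + s) = 1 - s / (r + s) := by field_simp; ring
        rw [h1]
        module
      rw [e, norm_smul, Real.norm_of_nonneg (by positivity), norm_sub_rev]
      calc r / (r + s) * ‖a - b‖ ≤ r / (r + s) * (r + s) := by gcongr
        _ = r := by field_simp

/-- a system of clusters -/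
structure Clu {ι : Type*} [DecidableEq ι] (S : Finset ι) (x : ι → E) (r : ι → ℝ) (ε : ℝ)
    (J : Finset ι) (π : ι → ι) (b : ι → E) (ρ : ι → ℝ) : Prop where
  sub : J ⊆ S
  mem : ∀ i ∈ S, π i ∈ J
  cov : ∀ i ∈ S, ‖x i - b (π i)‖ + r i ≤ ρ (π i)
  sum : ∀ j ∈ J, ρ j = ∑ i ∈ S with π i = j, r i
  le : ∀ j ∈ J, ρ j ≤ ε

/-- **[P2b] merging** -/
theorem exists_merge {ι : Type*} [DecidableEq ι] (S : Finset ι) (x : ι → E) (r : ι → ℝ)
    (hr : ∀ i ∈ S, 0 ≤ r i) {R ε : ℝ} (hloc : ∀ y, ∑ i ∈ S with ‖x i - y‖ ≤ R, r i ≤ ε)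
    (hε : 2 * ε ≤ R) :
    ∃ (J : Finset ι) (π : ι → ι) (b : ι → E) (ρ : ι → ℝ), Clu S x r ε J π b ρ ∧
      ∀ j ∈ J, ∀ k ∈ J, j ≠ k → ρ j + ρ k < ‖b j - b k‖ := by
  classical
  -- the trivial system
  have h0 : ∃ (n : ℕ) (J : Finset ι) (π : ι → ι) (b : ι → E) (ρ : ι → ℝ),
      Clu S x r ε J π b ρ ∧ J.card = n := by
    refine ⟨S.card, S, id, x, r, ⟨Finset.Subset.refl _, fun i hi => hi, fun i _ => ?_,
      fun j hj => ?_, fun j hj => ?_⟩, rfl⟩
    · simp
    · have : (S.filter fun i => id i = j) = {j} := by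
        ext i
        simp only [Finset.mem_filter, id, Finset.mem_singleton]
        exact ⟨fun h => h.2, fun h => ⟨h ▸ hj, h⟩⟩
      rw [this, Finset.sum_singleton]
    · have hε0 : 0 ≤ ε := le_trans (Finset.sum_nonneg fun i hi => hr i (Finset.mem_filter.1 hi).1)
        (hloc (x j))
      refine le_trans ?_ (hloc (x j))
      refine Finset.single_le_sum (f := r) (fun i hi => hr i (Finset.mem_filter.1 hi).1) ?_
      rw [Finset.mem_filter, sub_self, norm_zero]
      exact ⟨hj, by linarith⟩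
  obtain ⟨J, π, b, ρ, hC, hcard⟩ := Nat.find_spec h0
  refine ⟨J, π, b, ρ, hC, fun j hj k hk hjk => ?_⟩
  by_contra hcon
  push Not at hcon
  have hρ : ∀ j ∈ J, 0 ≤ ρ j := fun j hj => by
    rw [hC.sum j hj]
    exact Finset.sum_nonneg fun i hi => hr i (Finset.mem_filter.1 hi).1
  obtain ⟨c, hc1, hc2⟩ := exists_center (hρ j hj) (hρ k hk) hcon
  set π' : ι → ι := fun i => if π i = k then j else π i with hπ'
  set b' : ι → E := Function.update b j c with hb'
  set ρ' : ι → ℝ := Function.update ρ j (ρ j + ρ k) with hρ'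
  have hmemJ : ∀ i ∈ S, π' i ∈ J.erase k := by
    intro i hi
    rw [hπ']
    simp only
    by_cases h : π i = k
    · rw [if_pos h]
      exact Finset.mem_erase.2 ⟨hjk, hj⟩
    · rw [if_neg h]
      exact Finset.mem_erase.2 ⟨h, hC.mem i hi⟩
  have hcov : ∀ i ∈ S, ‖x i - b' (π' i)‖ + r i ≤ ρ' (π' i) := by
    intro i hi
    have h1 := hC.cov i hi
    by_cases h : π i = k
    · have e : π' i = j := by rw [hπ']; exact if_pos h
      rw [e, hb', hρ', Function.update_self, Function.update_self]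
      rw [h] at h1
      have h2 : ‖x i - c‖ ≤ ‖x i - b k‖ + ‖b k - c‖ := norm_sub_le_norm_sub_add_norm_sub _ _ _
      linarith
    · have e : π' i = π i := by rw [hπ']; exact if_neg h
      rw [e]
      by_cases h' : π i = j
      · rw [h', hb', hρ', Function.update_self, Function.update_self]
        rw [h'] at h1
        have h2 : ‖x i - c‖ ≤ ‖x i - b j‖ + ‖b j - c‖ := norm_sub_le_norm_sub_add_norm_sub _ _ _
        linarith
      · rw [hb', hρ', Function.update_of_ne h', Function.update_of_ne h']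
        exact h1
  have hsumj : ∑ i ∈ S with π' i = j, r i = ρ j + ρ k := by
    rw [hC.sum j hj, hC.sum k hk, ← Finset.sum_union]
    · congr 1
      ext i
      simp only [Finset.mem_union, Finset.mem_filter, hπ']
      constructor
      · rintro ⟨hi, h⟩
        by_cases h' : π i = k
        · exact Or.inr ⟨hi, h'⟩
        · rw [if_neg h'] at h
          exact Or.inl ⟨hi, h⟩
      · rintro (⟨hi, h⟩ | ⟨hi, h⟩)
        · exact ⟨hi, by rw [if_neg (by rw [h]; exact hjk), h]⟩
        · exact ⟨hi, by rw [if_pos h]⟩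
    · rw [Finset.disjoint_left]
      intro i h1 h2
      exact hjk ((Finset.mem_filter.1 h1).2.symm.trans (Finset.mem_filter.1 h2).2)
  have hC' : Clu S x r ε (J.erase k) π' b' ρ' := by
    refine ⟨(Finset.erase_subset _ _).trans hC.sub, hmemJ, hcov, fun l hl => ?_, fun l hl => ?_⟩
    · by_cases hlj : l = j
      · rw [hlj, hsumj, hρ', Function.update_self]
      · rw [hρ', Function.update_of_ne hlj, hC.sum l (Finset.mem_of_mem_erase hl)]
        congr 1
        ext i
        simp only [Finset.mem_filter, hπ']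
        refine and_congr_right fun _ => ?_
        by_cases h' : π i = k
        · rw [if_pos h', h']
          exact ⟨fun h => absurd h.symm (Finset.ne_of_mem_erase hl), fun h => absurd h.symm hlj⟩
        · rw [if_neg h']
    · by_cases hlj : l = j
      · rw [hlj, hρ', Function.update_self, ← hsumj]
        refine le_trans ?_ (hloc c)
        refine Finset.sum_le_sum_of_subset_of_nonneg ?_
          (fun i hi _ => hr i (Finset.mem_filter.1 hi).1)
        intro i hi
        rw [Finset.mem_filter] at hi ⊢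
        refine ⟨hi.1, ?_⟩
        have h1 := hcov i hi.1
        rw [hi.2, hb', hρ', Function.update_self, Function.update_self] at h1
        have h2 := hC.le j hj
        have h3 := hC.le k hk
        have h4 := hr i hi.1
        linarith
      · rw [hρ', Function.update_of_ne hlj]
        exact hC.le l (Finset.mem_of_mem_erase hl)
  have hlt : (J.erase k).card < Nat.find h0 := by
    rw [← hcard]
    exact Finset.card_erase_lt_of_mem hk
  exact Nat.find_min h0 hlt ⟨_, _, _, _, hC', rfl⟩


omit [NormedSpace ℝ E] in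
theorem Clu.loc {ι : Type*} [DecidableEq ι] {S : Finset ι} {x : ι → E} {r : ι → ℝ} {ε R : ℝ}
    {J : Finset ι} {π : ι → ι} {b : ι → E} {ρ : ι → ℝ} (hC : Clu S x r ε J π b ρ)
    (hr : ∀ i ∈ S, 0 ≤ r i) (hloc : ∀ y, ∑ i ∈ S with ‖x i - y‖ ≤ R, r i ≤ ε) {R' : ℝ}
    (hR' : R' + ε ≤ R) (y : E) (J' : Finset ι) (hJ' : J' ⊆ J) (hJy : ∀ j ∈ J', ‖b j - y‖ ≤ R') :
    ∑ j ∈ J', ρ j ≤ ε := by
  classical
  have h1 : ∑ j ∈ J', ρ j = ∑ j ∈ J', ∑ i ∈ S with π i = j, r i :=
    Finset.sum_congr rfl fun j hj => hC.sum j (hJ' hj)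
  have h2 : ∑ j ∈ J', ∑ i ∈ S with π i = j, r i = ∑ i ∈ S with π i ∈ J', r i := by
    rw [← Finset.sum_fiberwise_of_maps_to (s := S.filter fun i => π i ∈ J') (t := J')
      (g := π) (fun i hi => (Finset.mem_filter.1 hi).2)]
    refine Finset.sum_congr rfl fun j hj => ?_
    congr 1
    ext i
    simp only [Finset.mem_filter]
    constructor
    · rintro ⟨hi, rfl⟩
      exact ⟨⟨hi, hj⟩, rfl⟩
    · rintro ⟨⟨hi, -⟩, h⟩
      exact ⟨hi, h⟩
  rw [h1, h2]
  refine le_trans (Finset.sum_le_sum_of_subset_of_nonneg ?_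
    (fun i hi _ => hr i (Finset.mem_filter.1 hi).1)) (hloc y)
  intro i hi
  rw [Finset.mem_filter] at hi ⊢
  refine ⟨hi.1, ?_⟩
  have h3 := hC.cov i hi.1
  have h4 := hC.le _ (hJ' hi.2)
  have h5 := hJy _ hi.2
  have h6 := hr i hi.1
  have h7 : ‖x i - y‖ ≤ ‖x i - b (π i)‖ + ‖b (π i) - y‖ := norm_sub_le_norm_sub_add_norm_sub _ _ _
  linarith

end P073.H953
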