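import Vale.Agent.P073.H989.NetNear
import Vale.Agent.P073.H194.Hold
import Vale.Agent.P073.H953.NeckSq

/-!
# P073, block P2a: the necks of a square, energy form

`f` is absolutely continuous with derivative `F` on the lattice lines; `A` is affine with linear
part `L`. The oscillations of `f` and `f - A` on the edges of a fine generation are controlled by
the energies of `F` and `F - L` on the square, through the Riemann sums of `Gen`.
-/

open Set Metric Topology Filter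
open scoped ENNReal

namespace P073.H953

open P073
open Vale.Agent.P073.St (V Mat)
open Vale.Agent.P073.SQ (ev)
open Vale.Agent.P073.AB
open Vale.Agent.P073.H83
open Vale.Agent.P073.H194 (eInSq fSum sInt eInt_rpow_le)
open Vale.Agent.P073.AB.P86 (rel)

variable {v : V} {Ω : Set V} {f : V → V} {F : V → Mat}

theorem edge_sub_squ {s : Idx × Fin 3} {m : ℕ} (hm : s.1.1 ≤ m) {k : Fin 3} (hk : k ≠ s.2)
    {w : Fin 3 → ℤ} (hw : w ∈ eInSq s m k) : edge v ((m, w), k) ⊆ squ v s := by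
  intro x hx
  rw [edge, segment_eq_image'] at hx
  obtain ⟨t, ht, rfl⟩ := hx
  simp only [add_sub_cancel_left]
  exact edge_mem_squ hm hk hw ht

/-- the energy of an edge as oscillation -/
noncomputable def oE (v : V) (F : V → Mat) (L : V →L[ℝ] V) (e : Idx × Fin 3) : ℝ :=
  2 * (eInt v e (fun y => ENNReal.ofReal ‖cl (F y) (ev e.2) - L (ev e.2)‖)).toReal

theorem eInt_mono {v : V} {e : Idx × Fin 3} {H H' : V → ℝ≥0∞}
    (h : ∀ x ∈ edge v e, H x ≤ H' x) : eInt v e H ≤ eInt v e H' := by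
  unfold eInt
  refine mul_le_mul' le_rfl (MeasureTheory.setLIntegral_mono' measurableSet_Icc fun t ht => h _ ?_)
  exact mem_edge v e.1.1 e.1.2 e.2 ht

/-- the square of the oscillation of an edge is bounded by its energy -/
theorem oE_sq_le {L : V →L[ℝ] V} {e : Idx × Fin 3} {H : V → ℝ≥0∞}
    (hH : ∀ y ∈ edge v e, ‖cl (F y) (ev e.2) - L (ev e.2)‖ₑ ^ 2 ≤ H y) (hfin : eInt v e H ≠ ⊤) :
    ENNReal.ofReal (oE v F L e ^ 2) ≤ ENNReal.ofReal (1 / 2 ^ e.1.1) *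
      eInt v e (fun y => 4 * H y) := by
  set I := eInt v e (fun y => ENNReal.ofReal ‖cl (F y) (ev e.2) - L (ev e.2)‖) with hI
  have h1 : I ^ (2:ℝ) ≤ ENNReal.ofReal ((1 / 2 ^ e.1.1) ^ ((2:ℝ) - 1)) *
      eInt v e (fun x => ENNReal.ofReal ‖cl (F x) (ev e.2) - L (ev e.2)‖ ^ (2:ℝ)) :=
    eInt_rpow_le (by norm_num) v e _
  have h2 : eInt v e (fun x => ENNReal.ofReal ‖cl (F x) (ev e.2) - L (ev e.2)‖ ^ (2:ℝ)) ≤
      eInt v e H := by
    refine eInt_mono fun x hx => ?_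
    rw [ofReal_norm, ENNReal.rpow_two]
    exact hH x hx
  have h3 : ((2:ℝ) - 1) = 1 := by norm_num
  rw [h3, Real.rpow_one, ENNReal.rpow_two] at h1
  have h4 : I ^ 2 ≤ ENNReal.ofReal (1 / 2 ^ e.1.1) * eInt v e H := h1.trans (by gcongr)
  have h5 : I ≠ ⊤ := by
    intro h
    rw [h] at h4
    have : ENNReal.ofReal (1 / 2 ^ e.1.1) * eInt v e H ≠ ⊤ :=
      ENNReal.mul_ne_top ENNReal.ofReal_ne_top hfin
    exact this (top_le_iff.1 (by simpa using h4))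
  have h6 : ENNReal.ofReal (oE v F L e ^ 2) = 4 * I ^ 2 := by
    unfold oE
    rw [mul_pow, ENNReal.ofReal_mul (by norm_num), ENNReal.ofReal_pow ENNReal.toReal_nonneg,
      ENNReal.ofReal_toReal h5]
    congr 1
    norm_num
  have h7 : eInt v e (fun y => 4 * H y) = 4 * eInt v e H := by
    unfold eInt
    rw [MeasureTheory.lintegral_const_mul' _ _ (by norm_num)]
    ring
  rw [h6, h7, mul_left_comm]
  gcongr

/-- oscillation of `f - A` on the edges -/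
theorem oscOn_sub (rat : RatGood v Ω f F) {s : Idx × Fin 3} (hs : squ v s ⊆ Ω) {m : ℕ}
    (hm : s.1.1 ≤ m) {A : V → V} {L : V →L[ℝ] V} (aff : ∀ x y, A y - A x = L (y - x))
    (hfin : ∀ k, k ≠ s.2 → ∀ w ∈ eInSq s m k,
      eInt v ((m, w), k) (fun y => ENNReal.ofReal ‖cl (F y) (ev k) - L (ev k)‖) ≠ ⊤) :
    OscOn v (fun x => f x - A x) s m (oE v F L) := by
  intro k hk w hw x hx y hy
  have hsub : edge v ((m, w), k) ⊆ Ω := (edge_sub_squ hm hk hw).trans hs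
  have h0 := hfin k hk w hw
  have key : ∀ y ∈ edge v ((m, w), k), ‖f y - f (pt v m w) - L (y - pt v m w)‖ ≤
      (eInt v ((m, w), k) (fun y => ENNReal.ofReal ‖cl (F y) (ev k) - L (ev k)‖)).toReal :=
    fun y hy => Vale.Agent.P073.H989.edge_near rat hsub L ENNReal.toReal_nonneg
      (ENNReal.ofReal_toReal h0).ge hy
  have e1 : (f x - A x) - (f y - A y) = (f x - f (pt v m w) - L (x - pt v m w)) -
      (f y - f (pt v m w) - L (y - pt v m w)) := by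
    rw [← aff, ← aff]
    abel
  rw [dist_eq_norm, e1]
  refine (norm_sub_le _ _).trans ?_
  unfold oE
  linarith [key x hx, key y hy]

theorem OscOn.norm {G : Type*} [SeminormedAddCommGroup G] {g : V → G} {s : Idx × Fin 3} {m : ℕ}
    {o : Idx × Fin 3 → ℝ} (h : OscOn v g s m o) : OscOn v (fun x => ‖g x‖) s m o := by
  intro k hk w hw x hx y hy
  refine le_trans ?_ (h k hk w hw x hx y hy)
  rw [Real.dist_eq, dist_eq_norm]
  exact abs_norm_sub_norm_le _ _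

/-- the necks at generation `m`: a level `t`, cubes for the crossing subsquares, and the discs -/
def NecksAt {G : Type*} [PseudoMetricSpace G] (v : V) (f : V → G) (u : V → ℝ) (s : Idx × Fin 3)
    (m : ℕ) (α β δ C : ℝ) : Prop :=
  ∃ t ∈ Ioo α β, ∃ A ⊆ eLow s m, ∃ r : (Fin 3 → ℤ) → ℝ, ∑ z ∈ A, r z ≤ C ∧
    (∀ z ∈ A, 0 ≤ r z) ∧
    (∀ z ∈ A, ∀ x ∈ bds v ((m, z), s.2), f x ∈ closedBall (f (pt v m z)) (r z) ∧ |u x - t| ≤ δ) ∧
    ∀ (J : Type) (W : J → Set V), (∀ j, IsOpen (W j)) →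
      (∀ j k, j ≠ k → Disjoint (W j) (W k)) →
      (∀ z ∈ A, ∃ j, bds v ((m, z), s.2) ⊆ W j) →
      ∃ (I : Type) (_ : Finite I) (D c : I → Set V),
        (∀ i, ConBall 2 (D i) (c i)) ∧ (∀ i k, i ≠ k → Disjoint (D i) (D k)) ∧
        (∀ i, D i ⊆ rel v s) ∧ (∀ i, ∃ U, IsOpen U ∧ D i \ c i = squ v s ∩ U) ∧
        (∀ i, ∃ j, c i ⊆ W j) ∧
        (∀ x ∈ squ v s, (∀ i, x ∉ D i \ c i) → u x < t + δ) ∧
        (∀ i, ∃ x ∈ D i \ c i, t - δ ≤ u x) ∧ IsPreconnected (squ v s \ ⋃ i, D i)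

theorem exists_hosc {s : Idx × Fin 3} {u : V → ℝ} (hu : ContinuousOn u (squ v s)) {δ : ℝ}
    (hδ : 0 < δ) : ∃ m₀ : ℕ, ∀ m, m₀ ≤ m → s.1.1 ≤ m → ∀ z ∈ eLow s m,
      ∀ x ∈ squ v ((m, z), s.2), ∀ y ∈ squ v ((m, z), s.2), u x ≤ u y + δ := by
  have h1 := (isCompact_squ v s).uniformContinuousOn_of_continuous hu
  rw [Metric.uniformContinuousOn_iff] at h1
  obtain ⟨d, hd, h2⟩ := h1 δ hδ
  obtain ⟨N, hN⟩ := exists_pow_lt_of_lt_one hd (show (1 / 2 : ℝ) < 1 by norm_num)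
  refine ⟨N, fun m hm hsm z hz x hx y hy => ?_⟩
  have hmd : (1 / 2 ^ m : ℝ) < d := by
    refine lt_of_le_of_lt ?_ hN
    rw [one_div_pow]
    exact one_div_le_one_div_of_le (by positivity) (pow_le_pow_right₀ (by norm_num) hm)
  have h3 := h2 x (squ_sub hsm hz hx) y (squ_sub hsm hz hy)
    ((dist_le_of_mem_squ hx hy).trans_lt hmd)
  rw [Real.dist_eq] at h3
  linarith [le_abs_self (u x - u y)]

/-- the sum over the subsquares, with the energies on the square -/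
theorem sum_oE_le {s : Idx × Fin 3} {m : ℕ} (hm : s.1.1 ≤ m) {L : V →L[ℝ] V} {H : V → ℝ≥0∞}
    (hH : ∀ y ∈ squ v s, ∀ k, k ≠ s.2 → ‖cl (F y) (ev k) - L (ev k)‖ₑ ^ 2 ≤ H y)
    {E : ℝ} (hE : ∀ k, k ≠ s.2 → fSum v s m k H ≤ ENNReal.ofReal E) (hE0 : 0 ≤ E) :
    (∀ k, k ≠ s.2 → ∀ w ∈ eInSq s m k, eInt v ((m, w), k) H ≠ ⊤) ∧
    ∑ z ∈ eLow s m, bo (oE v F L) ((m, z), s.2) ^ 2 ≤ 64 * E := by
  have hfin : ∀ k, k ≠ s.2 → ∀ w ∈ eInSq s m k, eInt v ((m, w), k) H ≠ ⊤ := by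
    intro k hk w hw h
    have h1 : ENNReal.ofReal (1 / 2 ^ m) * eInt v ((m, w), k) H ≤ ENNReal.ofReal E :=
      (Finset.single_le_sum (f := fun w => ENNReal.ofReal (1 / 2 ^ m) * eInt v ((m, w), k) H)
        (fun _ _ => bot_le) hw).trans (hE k hk)
    rw [h, ENNReal.mul_top (by
      rw [ne_eq, ENNReal.ofReal_eq_zero, not_le]; positivity)] at h1
    exact ENNReal.ofReal_ne_top (top_le_iff.1 h1)
  refine ⟨hfin, ?_⟩
  have h1 := sum_bo_sq_le_fSum v (oE v F L) (fun y => 4 * H y) s m (fun k hk w hw =>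
    oE_sq_le (fun y hy => hH y (edge_sub_squ hm hk hw hy) k hk) (hfin k hk w hw))
  have h2 : ∀ k, fSum v s m k (fun y => 4 * H y) = 4 * fSum v s m k H := by
    intro k
    unfold fSum
    rw [Finset.mul_sum]
    refine Finset.sum_congr rfl fun w _ => ?_
    unfold eInt
    rw [MeasureTheory.lintegral_const_mul' _ _ (by norm_num)]
    ring
  have h3 : ENNReal.ofReal (∑ z ∈ eLow s m, bo (oE v F L) ((m, z), s.2) ^ 2) ≤
      ENNReal.ofReal (64 * E) := by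
    refine h1.trans ?_
    rw [h2, h2]
    calc 8 * (4 * fSum v s m (t1 s.2) H + 4 * fSum v s m (t2 s.2) H) ≤
        8 * (4 * ENNReal.ofReal E + 4 * ENNReal.ofReal E) := by
          gcongr
          · exact hE _ (t1_ne _)
          · exact hE _ (t2_ne _)
      _ = ENNReal.ofReal (64 * E) := by
          rw [ENNReal.ofReal_mul (by norm_num)]
          have : ENNReal.ofReal 64 = 64 := by norm_num
          rw [this]
          ring
  exact (ENNReal.ofReal_le_ofReal_iff (by positivity)).1 h3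

/-- the necks of a square from bounds for the Riemann sums -/
theorem exists_necks_fsum (rat : RatGood v Ω f F) (hf : ContinuousOn f Ω) {s : Idx × Fin 3}
    (hs : squ v s ⊆ Ω) {A : V → V} {L : V →L[ℝ] V} (aff : ∀ x y, A y - A x = L (y - x))
    {HL H0 : V → ℝ≥0∞}
    (hHL : ∀ y ∈ squ v s, ∀ k, k ≠ s.2 → ‖cl (F y) (ev k) - L (ev k)‖ₑ ^ 2 ≤ HL y)
    (hH0 : ∀ y ∈ squ v s, ∀ k, k ≠ s.2 → ‖cl (F y) (ev k)‖ₑ ^ 2 ≤ H0 y)
    {nn : ℕ → ℕ} (hnn : StrictMono nn) {EL E0 : ℝ} (hEL0 : 0 ≤ EL) (hE00 : 0 ≤ E0)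
    (hEL : ∀ᶠ l in atTop, ∀ k, k ≠ s.2 → fSum v s (nn l) k HL ≤ ENNReal.ofReal EL)
    (hE0 : ∀ᶠ l in atTop, ∀ k, k ≠ s.2 → fSum v s (nn l) k H0 ≤ ENNReal.ofReal E0)
    {α β δ : ℝ} (hαβ : α < β) (hδ : 0 < δ) (hb : ∀ x ∈ bds v s, ‖f x - A x‖ + δ ≤ α) :
    ∀ᶠ l in atTop, s.1.1 ≤ nn l ∧
      NecksAt v f (fun x => ‖f x - A x‖) s (nn l) α β δ (64 * (√EL * √E0) / (β - α)) := by
  have hA : Continuous A := by
    have : A = fun x => A 0 + L x := by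
      funext x
      have := aff 0 x
      rw [sub_zero] at this
      rw [← this]
      abel
    rw [this]
    exact continuous_const.add L.continuous
  have hfs : ContinuousOn f (squ v s) := hf.mono hs
  obtain ⟨m₀, hm₀⟩ := exists_hosc (v := v) (s := s) (u := fun x => ‖f x - A x‖)
    (hfs.sub hA.continuousOn).norm hδ
  filter_upwards [hEL, hE0, hnn.tendsto_atTop.eventually_ge_atTop s.1.1,
    hnn.tendsto_atTop.eventually_ge_atTop m₀] with l h1 h2 h3 h4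
  refine ⟨h3, ?_⟩
  have hH0' : ∀ y ∈ squ v s, ∀ k, k ≠ s.2 →
      ‖cl (F y) (ev k) - (0 : V →L[ℝ] V) (ev k)‖ₑ ^ 2 ≤ H0 y := by
    intro y hy k hk
    rw [zero_apply, sub_zero]
    exact hH0 y hy k hk
  obtain ⟨fL, sL⟩ := sum_oE_le h3 hHL h1 hEL0
  obtain ⟨f0, s0⟩ := sum_oE_le h3 hH0' h2 hE00
  have fin : ∀ {H : V → ℝ≥0∞} {L : V →L[ℝ] V},
      (∀ y ∈ squ v s, ∀ k, k ≠ s.2 → ‖cl (F y) (ev k) - L (ev k)‖ₑ ^ 2 ≤ H y) →
      (∀ k, k ≠ s.2 → ∀ w ∈ eInSq s (nn l) k, eInt v ((nn l, w), k) H ≠ ⊤) →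
      ∀ k, k ≠ s.2 → ∀ w ∈ eInSq s (nn l) k,
        eInt v ((nn l, w), k) (fun y => ENNReal.ofReal ‖cl (F y) (ev k) - L (ev k)‖) ≠ ⊤ := by
    intro H L hH hfin k hk w hw
    have a1 := eInt_rpow_le (p := 2) (by norm_num) v ((nn l, w), k)
      (fun y => ENNReal.ofReal ‖cl (F y) (ev k) - L (ev k)‖)
    intro htop
    rw [htop] at a1
    have a2 : eInt v ((nn l, w), k)
        (fun x => ENNReal.ofReal ‖cl (F x) (ev k) - L (ev k)‖ ^ (2:ℝ)) ≤
        eInt v ((nn l, w), k) H := by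
      refine eInt_mono fun x hx => ?_
      rw [ofReal_norm, ENNReal.rpow_two]
      exact hH x (edge_sub_squ h3 hk hw hx) k hk
    have a3 : ENNReal.ofReal ((1 / 2 ^ nn l) ^ ((2:ℝ) - 1)) * eInt v ((nn l, w), k)
        (fun x => ENNReal.ofReal ‖cl (F x) (ev k) - L (ev k)‖ ^ (2:ℝ)) ≠ ⊤ :=
      ENNReal.mul_ne_top ENNReal.ofReal_ne_top (ne_top_of_le_ne_top (hfin k hk w hw) a2)
    refine a3 (top_le_iff.1 (le_trans ?_ a1))
    rw [ENNReal.top_rpow_of_pos (by norm_num)]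
  have oU := (oscOn_sub rat hs h3 aff (fin hHL fL)).norm
  have oF : OscOn v f s (nn l) (oE v F 0) := by
    have := oscOn_sub rat hs h3 (A := fun _ => 0) (L := 0) (fun x y => by simp) (fin hH0' f0)
    simpa using this
  obtain ⟨t, ht, B, hB, hsum, hB0, hBx, hmain⟩ := exists_necks_pair h3 oU oF sL s0 hαβ
    (hm₀ (nn l) h4 h3) hb
  refine ⟨t, ht, B, hB, fun z => bo (oE v F 0) ((nn l, z), s.2), ?_, hB0, hBx, fun J W => hmain J W⟩
  have hβα : 0 < β - α := by linarith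
  rw [le_div_iff₀ hβα, mul_comm]
  refine hsum.trans ?_
  rw [Real.sqrt_mul (by norm_num), Real.sqrt_mul (by norm_num)]
  have : √(64:ℝ) = 8 := by
    rw [show (64:ℝ) = 8 ^ 2 by norm_num, Real.sqrt_sq (by norm_num)]
  rw [this]
  apply le_of_eq
  ring

/-- **[NECK-E] the necks of a square from the energies.** -/
theorem exists_necks_energy (rat : RatGood v Ω f F) (hf : ContinuousOn f Ω) {s : Idx × Fin 3}
    (hs : squ v s ⊆ Ω) {A : V → V} {L : V →L[ℝ] V} (aff : ∀ x y, A y - A x = L (y - x))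
    {HL H0 : V → ℝ≥0∞}
    (hHL : ∀ y ∈ squ v s, ∀ k, k ≠ s.2 → ‖cl (F y) (ev k) - L (ev k)‖ₑ ^ 2 ≤ HL y)
    (hH0 : ∀ y ∈ squ v s, ∀ k, k ≠ s.2 → ‖cl (F y) (ev k)‖ₑ ^ 2 ≤ H0 y)
    {nn : ℕ → ℕ} (hnn : StrictMono nn)
    (gL : ∀ k, k ≠ s.2 → ∀ η : ℝ≥0∞, η ≠ 0 → ∀ᶠ l in atTop,
      fSum v s (nn l) k HL ≤ sInt v s HL + η)
    (g0 : ∀ k, k ≠ s.2 → ∀ η : ℝ≥0∞, η ≠ 0 → ∀ᶠ l in atTop,
      fSum v s (nn l) k H0 ≤ sInt v s H0 + η)
    {EL E0 : ℝ} (hEL : sInt v s HL < ENNReal.ofReal EL) (hE0 : sInt v s H0 < ENNReal.ofReal E0)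
    {α β δ : ℝ} (hαβ : α < β) (hδ : 0 < δ) (hb : ∀ x ∈ bds v s, ‖f x - A x‖ + δ ≤ α) :
    ∀ᶠ l in atTop, s.1.1 ≤ nn l ∧
      NecksAt v f (fun x => ‖f x - A x‖) s (nn l) α β δ (64 * (√EL * √E0) / (β - α)) := by
  have ev1 : ∀ {H : V → ℝ≥0∞} {E : ℝ}, sInt v s H < ENNReal.ofReal E →
      (∀ k, k ≠ s.2 → ∀ η : ℝ≥0∞, η ≠ 0 → ∀ᶠ l in atTop,
        fSum v s (nn l) k H ≤ sInt v s H + η) →
      ∀ᶠ l in atTop, ∀ k, k ≠ s.2 → fSum v s (nn l) k H ≤ ENNReal.ofReal E := by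
    intro H E hE g
    rw [eventually_all]
    intro k
    by_cases hk : k = s.2
    · exact Eventually.of_forall fun l h => absurd hk h
    · filter_upwards [g k hk (ENNReal.ofReal E - sInt v s H) (tsub_pos_of_lt hE).ne'] with l hl _
      rwa [add_tsub_cancel_of_le hE.le] at hl
  have pos : ∀ {H : V → ℝ≥0∞} {E : ℝ}, sInt v s H < ENNReal.ofReal E → 0 ≤ E := by
    intro H E hE
    exact (ENNReal.ofReal_pos.1 (bot_le.trans_lt hE)).le
  exact exists_necks_fsum rat hf hs aff hHL hH0 hnn (pos hEL) (pos hE0) (ev1 hEL gL) (ev1 hE0 g0)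
    hαβ hδ hb

end P073.H953
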