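import Vale.Agent.P073.H234.P2Defs
import Vale.Agent.P073.H953.NeckEn
import Vale.Agent.P073.H953.Fill
import Vale.Agent.P073.H953.Merge

/-!
# P073, block NECKS-ALL: auxiliary facts

Riemann sums of constants, the finite set of clean squares, closeness on the own edges.
-/

open Set Metric Topology Filter
open scoped ENNReal

namespace P073.H953

open P073
open Vale.Agent.P073.St (V Mat)
open Vale.Agent.P073.SQ (ev)
open Vale.Agent.P073.AB
open Vale.Agent.P073.H83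
open Vale.Agent.P073.H194 (eInSq fSum sInt)
open Vale.Agent.P073.AB.P86 (rel lo lo_same lo_other)
open Vale.Agent.P073.H234 (Clean P2Cells dn)
open P073.Net (dyc dyo)

variable {v : V} {Ω Λ : Set V} {f : V → V} {F : V → Mat}

/-! ### Riemann sums of constants -/

theorem card_eInSq_le {s : Idx × Fin 3} {n : ℕ} {k : Fin 3} (hk : k ≠ s.2) :
    (eInSq s n k).card ≤ 2 * (2 ^ (n - s.1.1)) ^ 2 := by
  have hP : 1 ≤ 2 ^ (n - s.1.1) := Nat.one_le_two_pow
  rw [eInSq, Fintype.card_piFinset]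
  have e1 : ∀ z : ℤ, ((Finset.Ico ((2:ℤ) ^ (n - s.1.1) * z) (2 ^ (n - s.1.1) * (z + 1)))).card =
      2 ^ (n - s.1.1) := by
    intro z
    rw [Int.card_Ico]
    have : (2:ℤ) ^ (n - s.1.1) * (z + 1) - 2 ^ (n - s.1.1) * z = ((2 ^ (n - s.1.1) : ℕ) : ℤ) := by
      push_cast; ring
    rw [this, Int.toNat_natCast]
  have e2 : ∀ z : ℤ, ((Finset.Icc ((2:ℤ) ^ (n - s.1.1) * z) (2 ^ (n - s.1.1) * (z + 1)))).card =
      2 ^ (n - s.1.1) + 1 := by
    intro z
    rw [Int.card_Icc]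
    have : (2:ℤ) ^ (n - s.1.1) * (z + 1) + 1 - 2 ^ (n - s.1.1) * z =
        ((2 ^ (n - s.1.1) + 1 : ℕ) : ℤ) := by push_cast; ring
    rw [this, Int.toNat_natCast]
  have e3 : ∀ j : Fin 3, (if j = s.2 then ({2 ^ (n - s.1.1) * s.1.2 j} : Finset ℤ)
      else if j = k then Finset.Ico (2 ^ (n - s.1.1) * s.1.2 j) (2 ^ (n - s.1.1) * (s.1.2 j + 1))
      else Finset.Icc (2 ^ (n - s.1.1) * s.1.2 j) (2 ^ (n - s.1.1) * (s.1.2 j + 1))).card =
      if j = s.2 then 1 else if j = k then 2 ^ (n - s.1.1) else 2 ^ (n - s.1.1) + 1 := by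
    intro j
    by_cases h1 : j = s.2
    · rw [if_pos h1, if_pos h1, Finset.card_singleton]
    · by_cases h2 : j = k
      · rw [if_neg h1, if_neg h1, if_pos h2, if_pos h2, e1]
      · rw [if_neg h1, if_neg h1, if_neg h2, if_neg h2, e2]
  rw [Finset.prod_congr rfl fun j _ => e3 j]
  set P := 2 ^ (n - s.1.1) with hPd
  have key : ∀ i k : Fin 3, k ≠ i → (∏ j : Fin 3, if j = i then 1 else if j = k then P else P + 1) =
      P * (P + 1) := by
    intro i k hk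
    rw [Fin.prod_univ_three]
    fin_cases i <;> fin_cases k <;> simp at hk ⊢ <;> ring
  rw [key s.2 k hk]
  nlinarith

theorem fSum_const_le {s : Idx × Fin 3} {n : ℕ} (hn : s.1.1 ≤ n) {k : Fin 3} (hk : k ≠ s.2)
    (c : ℝ) (hc : 0 ≤ c) :
    fSum v s n k (fun _ => ENNReal.ofReal c) ≤ ENNReal.ofReal (2 * c / 4 ^ s.1.1) := by
  have h1 : ∀ w : Fin 3 → ℤ, ENNReal.ofReal (1 / 2 ^ n) *
      eInt v ((n, w), k) (fun _ => ENNReal.ofReal c) = ENNReal.ofReal (c * (1 / 2 ^ n) ^ 2) := by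
    intro w
    unfold eInt
    rw [MeasureTheory.setLIntegral_const, Real.volume_Icc, sub_zero, ENNReal.ofReal_one, mul_one,
      ← ENNReal.ofReal_mul (by positivity), ← ENNReal.ofReal_mul (by positivity)]
    congr 1
    ring
  unfold fSum
  rw [Finset.sum_congr rfl fun w _ => h1 w, Finset.sum_const, nsmul_eq_mul,
    ← ENNReal.ofReal_natCast, ← ENNReal.ofReal_mul (by positivity)]
  apply ENNReal.ofReal_le_ofReal
  have h2 : ((eInSq s n k).card : ℝ) ≤ 2 * (2 ^ (n - s.1.1)) ^ 2 := by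
    exact_mod_cast card_eInSq_le hk
  have hs := two_pow_split hn
  calc ((eInSq s n k).card : ℝ) * (c * (1 / 2 ^ n) ^ 2) ≤
      (2 * (2 ^ (n - s.1.1)) ^ 2) * (c * (1 / 2 ^ n) ^ 2) := by gcongr
    _ = 2 * c / 4 ^ s.1.1 := by
      have h4 : (4:ℝ) ^ s.1.1 = (2 ^ s.1.1) ^ 2 := by
        rw [← pow_mul, mul_comm, pow_mul]; norm_num
      rw [hs, h4]
      field_simp

theorem fSum_add (s : Idx × Fin 3) (n : ℕ) (k : Fin 3) {H G : V → ℝ≥0∞} (hG : ∃ c, G = fun _ => c) :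
    fSum v s n k (fun x => H x + G x) = fSum v s n k H + fSum v s n k G := by
  obtain ⟨c, rfl⟩ := hG
  unfold fSum
  rw [← Finset.sum_add_distrib]
  refine Finset.sum_congr rfl fun w _ => ?_
  rw [← mul_add]
  congr 1
  unfold eInt
  rw [← mul_add]
  congr 1
  exact MeasureTheory.lintegral_add_right _ measurable_const

theorem fSum_two_mul (s : Idx × Fin 3) (n : ℕ) (k : Fin 3) {H : V → ℝ≥0∞} :
    fSum v s n k (fun x => 2 * H x) = 2 * fSum v s n k H := by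
  unfold fSum
  rw [Finset.mul_sum]
  refine Finset.sum_congr rfl fun w _ => ?_
  unfold eInt
  rw [MeasureTheory.lintegral_const_mul' _ _ (by norm_num)]
  ring

/-! ### Clean squares -/

theorem interior_dyc (v : V) (n : ℕ) (z : Fin 3 → ℤ) : interior (dyc v n z) = dyo v n z := by
  rw [dyc_eq_Icc, dyo_eq_lbox, lbox, obox_eq, ← pi_univ_Icc, interior_pi_set finite_univ]
  simp only [interior_Icc]

theorem dyo_nonempty (v : V) (n : ℕ) (z : Fin 3 → ℤ) : (dyo v n z).Nonempty := by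
  have hp : (0:ℝ) < 2 ^ n := by positivity
  refine ⟨fun k => v k + (z k + 1 / 2) / 2 ^ n, fun k => ⟨?_, ?_⟩⟩
  · simp only; gcongr; linarith
  · simp only; gcongr; norm_num

theorem eq_of_dyc_sub {m n : ℕ} {w z z' : Fin 3 → ℤ} (h : dyc v n w ⊆ dyc v m z)
    (h' : dyc v n w ⊆ dyc v m z') : z = z' := by
  by_contra hne
  obtain ⟨x, hx⟩ := dyo_nonempty v n w
  rw [← interior_dyc] at hx
  have h1 := interior_mono h hx
  have h2 := interior_mono h' hx
  rw [interior_dyc] at h1 h2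
  exact disjoint_left.1 (dyo_disj hne) h1 h2

theorem rel_disj {s s' : Idx × Fin 3} (hg : s.1.1 = s'.1.1) (hne : s ≠ s') :
    Disjoint (rel v s) (rel v s') := by
  obtain ⟨⟨n, w⟩, i⟩ := s
  obtain ⟨⟨n', w'⟩, i'⟩ := s'
  simp only at hg
  subst hg
  have hp : (0:ℝ) < 2 ^ n := by positivity
  rw [disjoint_left]
  rintro x ⟨h1, h2⟩ ⟨h3, h4⟩
  simp only at h1 h2 h3 h4
  have inj : ∀ a b : ℤ, (a:ℝ) / 2 ^ n < b / 2 ^ n → a < b := by
    intro a b h
    rw [div_lt_div_iff_of_pos_right hp] at h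
    exact_mod_cast h
  by_cases hi : i = i'
  · subst hi
    apply hne
    congr 2
    funext k
    by_cases hk : k = i
    · subst hk
      have h5 : (w k : ℝ) / 2 ^ n = w' k / 2 ^ n := by linarith
      rw [div_left_inj' hp.ne'] at h5
      exact_mod_cast h5
    · obtain ⟨a1, b1⟩ := h2 k hk
      obtain ⟨a2, b2⟩ := h4 k hk
      have h5 := inj (w k) (w' k + 1) (by push_cast; linarith)
      have h6 := inj (w' k) (w k + 1) (by push_cast; linarith)
      omega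
  · obtain ⟨a1, b1⟩ := h4 i hi
    rw [h1] at a1 b1
    have h5 := inj (w' i) (w i) (by linarith)
    have h6 := inj (w i) (w' i + 1) (by push_cast; linarith)
    omega

theorem finite_clean (v : V) (m j : ℕ) (J : Finset (Fin 3 → ℤ)) :
    {q : (Fin 3 → ℤ) × (Idx × Fin 3) | q.1 ∈ J ∧ Clean v m j q.1 q.2}.Finite := by
  have h1 : (⋃ z ∈ J, {q : (Fin 3 → ℤ) × (Idx × Fin 3) | q.1 = z ∧
      q.2.1.1 = m + j ∧ pt v q.2.1.1 q.2.1.2 ∈ dyc v m z}).Finite := by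
    refine Set.Finite.biUnion J.finite_toSet fun z _ => ?_
    refine ((P073.Gauge.O407.finite_pts v m j z).image fun e => (z, e)).subset ?_
    rintro ⟨z', e⟩ ⟨rfl, h1, h2⟩
    exact ⟨e, ⟨h1, h2⟩, rfl⟩
  refine h1.subset ?_
  rintro ⟨z, s⟩ ⟨hz, hs1, hs2, -⟩
  refine mem_iUnion₂.2 ⟨z, hz, rfl, hs1, hs2 ?_⟩
  show pt v s.1.1 s.1.2 ∈ _
  rw [hs1]
  exact pt_mem_dyc v _ _

theorem squ_sub_of_clean {m j : ℕ} {z : Fin 3 → ℤ} {s : Idx × Fin 3} (h : Clean v m j z s) :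
    squ v s ⊆ dyc v m z := by
  refine Subset.trans ?_ h.2.1
  have := P86.squ_sub_hi (v := v) (s := s)
  rwa [h.1] at this

/-! ### Closeness on the own edges -/

theorem edge_close {A : V → V} {L : V →L[ℝ] V} {κ : ℝ} {m j : ℕ} {z : Fin 3 → ℤ}
    (hκ : 0 ≤ κ) (rat : RatGood v Ω f F) (hΩ : dyc v m z ⊆ Ω)
    (aff : ∀ x y, A y - A x = L (y - x))
    (vert : ∀ a : Fin 3 → ℤ, pt v (m + j) a ∈ dyc v m z →
      ‖f (pt v (m + j) a) - A (pt v (m + j) a)‖ ≤ κ / 2 ^ (m + j))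
    (edg : ∀ e : Idx × Fin 3, e.1.1 = m + j → edge v e ⊆ dyc v m z →
      eInt v e (fun x => ENNReal.ofReal ‖cl (F x) (ev e.2) - L (ev e.2)‖) ≤
        ENNReal.ofReal (κ / 2 ^ (m + j)))
    {e : Idx × Fin 3} (he : e.1.1 = m + j) (hes : edge v e ⊆ dyc v m z) {y : V}
    (hy : y ∈ edge v e) : ‖f y - A y‖ ≤ 2 * κ / 2 ^ (m + j) := by
  have h1 := Vale.Agent.P073.H989.edge_near rat (hes.trans hΩ) L (by positivity) (edg e he hes) hy
  have h2 := vert e.1.2 (by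
    have : pt v e.1.1 e.1.2 ∈ edge v e := left_mem_segment ℝ _ _
    rw [he] at this
    exact hes this)
  rw [he] at h1
  have e1 : f y - A y = (f y - f (pt v (m + j) e.1.2) - L (y - pt v (m + j) e.1.2)) +
      (f (pt v (m + j) e.1.2) - A (pt v (m + j) e.1.2)) := by
    rw [← aff]
    abel
  rw [e1]
  refine (norm_add_le _ _).trans ?_
  have : 2 * κ / 2 ^ (m + j) = κ / 2 ^ (m + j) + κ / 2 ^ (m + j) := by ring
  linarith

theorem bds_close {A : V → V} {L : V →L[ℝ] V} {κ : ℝ} {m j : ℕ} {z : Fin 3 → ℤ}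
    (hκ : 0 ≤ κ) (rat : RatGood v Ω f F) (hΩ : dyc v m z ⊆ Ω)
    (aff : ∀ x y, A y - A x = L (y - x))
    (vert : ∀ a : Fin 3 → ℤ, pt v (m + j) a ∈ dyc v m z →
      ‖f (pt v (m + j) a) - A (pt v (m + j) a)‖ ≤ κ / 2 ^ (m + j))
    (edg : ∀ e : Idx × Fin 3, e.1.1 = m + j → edge v e ⊆ dyc v m z →
      eInt v e (fun x => ENNReal.ofReal ‖cl (F x) (ev e.2) - L (ev e.2)‖) ≤
        ENNReal.ofReal (κ / 2 ^ (m + j)))
    {s : Idx × Fin 3} (hs : Clean v m j z s) {y : V}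
    (hy : y ∈ bds v s) : ‖f y - A y‖ ≤ 2 * κ / 2 ^ (m + j) := by
  have hlow : s.1.2 ∈ eLow s s.1.1 := by
    rw [mem_eLow]
    simp
  have key : ∀ k, k ≠ s.2 → ∀ w ∈ eInSq s s.1.1 k, ∀ y ∈ edge v ((s.1.1, w), k),
      ‖f y - A y‖ ≤ 2 * κ / 2 ^ (m + j) := by
    intro k hk w hw y hy
    exact edge_close hκ rat hΩ aff vert edg (e := ((s.1.1, w), k)) hs.1
      ((edge_sub_squ le_rfl hk hw).trans (squ_sub_of_clean hs)) hy
  obtain ⟨⟨w1, h1, e1⟩, ⟨w2, h2, e2⟩, ⟨w3, h3, e3⟩, w4, h4, e4⟩ := eA_mem hlow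
  rcases bds_cases hy with h | h | h | h
  · exact key _ (t1_ne _) w1 h1 y (by rw [← e1]; exact h)
  · exact key _ (t1_ne _) w2 h2 y (by rw [← e2]; exact h)
  · exact key _ (t2_ne _) w3 h3 y (by rw [← e3]; exact h)
  · exact key _ (t2_ne _) w4 h4 y (by rw [← e4]; exact h)

end P073.H953
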