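import Vale.Agent.P073.H234.Cleaned
import Vale.Agent.P073.H333.NetInA
import Vale.Agent.P073.H953.AltAB
import Vale.Agent.P073.H953.NeckAux

/-!
# P073, P2h, [K4]: connected sets outside of the kept tiles after the retractions and the collapse
-/

namespace Vale.Agent.P073.H953

open MeasureTheory Set Filter Topology Metric Vale.Agent.P073.St Vale.Agent.P073.AB
open Vale.Agent.P073.SQ (ev)
open Vale.Agent.P073.AB.P86 (rel)
open Vale.Agent.P073.H234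
open _root_.P073.Net (dyc dyo)
open _root_.P073 (ConBall ConHomeo)
open scoped ENNReal

variable {p : ℝ} {ε : ℝ≥0∞} {θ M κ c₀ t₀ δ₀ ε₁ β σ : ℝ} {j : ℕ} {Ω Λ : Set V} {f : V → V}
  {F : V → Mat} {T : Set V} {v : V} {m : ℕ}
  {C : P2Cells p ε θ M κ c₀ t₀ δ₀ j Ω Λ f F T v m} {Nk : Necks θ M β σ f v m j C.J C.A}
  {n N : ℕ} {J' : Finset (Fin 3 → ℤ)} {π : (Fin 3 → ℤ) → Fin 3 → ℤ} {η l₀ : ℝ} {o : Nk.γ → V}
  {h₀ h' h₁ : ConHomeo Ω Λ} {Tc : V → V} {G : Finset Nk.γ}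

/-- a tile which touches a good cell is in its big cube -/
theorem touch_sub (S : SubCells C n J' π) (hmN : m ≤ N) {z u : Fin 3 → ℤ} (hz : z ∈ J')
    (h : Touch v n N z u) : dyc v N u ⊆ dyc v m (π z) := by
  obtain ⟨y, hy, hy'⟩ := h
  exact _root_.P073.Net.NC.dyc_sub (_root_.P073.Net.NC.fine_sub hmN (S.sub z hz hy') hy)

/-- the good cells are in the domain -/
theorem cell_sub (hT : TSet θ M κ t₀ δ₀ ε₁ Ω f F T) (S : SubCells C n J' π) :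
    ∀ z ∈ J', dyc v n z ⊆ Ω := fun z hz =>
  ((S.sub z hz).trans P86.dyo_sub_dyc).trans (P2Cells.sub hT C (S.mem z hz))

theorem touch_near {z u : Fin 3 → ℤ} (h : Touch v n N z u) {x : V} (hx : x ∈ dyc v N u) :
    ∃ y ∈ dyc v n z, ‖x - y‖ ≤ 1 / 2 ^ N := by
  obtain ⟨y, hy, hy'⟩ := h
  exact ⟨y, hy', dyc_dist hx hy⟩

/-- the open sub-cube is in the open tile -/
theorem dyo_sub {M' : ℕ} {w u : Fin 3 → ℤ} (h : dyc v M' w ⊆ dyc v N u) :
    dyo v M' w ⊆ dyo v N u := by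
  rw [← _root_.P073.H953.interior_dyc v M' w, ← _root_.P073.H953.interior_dyc v N u]
  exact interior_mono h

/-- connected sets outside of the open kept tiles miss the cubes at the selected squares -/
theorem notMem_qC {S : Set V} (hS : ∀ u, Tch v n N J' u → Disjoint S (dyo v N u))
    {s : Idx × Fin 3} (hs : Sel v (m + j) n N J' s) {x : V} (hx : x ∈ S) : x ∉ qC v s := by
  obtain ⟨h1, z, hz, u, u', hu, hu', h2, h3⟩ := hs
  rintro (h | h)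
  · rw [h1] at h
    exact disjoint_left.1 (hS u ⟨z, hz, hu⟩) hx (dyo_sub h2 h)
  · rw [h1] at h
    exact disjoint_left.1 (hS u' ⟨z, hz, hu'⟩) hx (dyo_sub h3 h)

theorem lat_pos (m j : ℕ) : (0:ℝ) < 1 / 2 ^ (m + j) := by positivity

/-- the neck cube near a point which is moved -/
theorem exists_neck (K : Cleaned C Nk n N J' η l₀ o h₀ h' h₁ Tc G) (hσ : σ ≤ 1 / 16) {x : V}
    (hx : x ∈ Ω) (hq : ∀ i ∈ selI Nk n N J', x ∉ qC v (Nk.s i))
    (hne : h₁.toFun x ≠ h₀.toFun x) :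
    ∃ g ∈ G, ‖h₁.toFun x - Nk.b g‖ ≤ 3 / 2 ^ (m + j) := by
  have hr := lat_pos m j
  have h2 : (2:ℝ) * (1 / 2 ^ (m + j)) = 2 / 2 ^ (m + j) := by ring
  have key : ∃ g ∈ G, ‖h'.toFun x - Nk.b g‖ ≤ 2 * (1 / 2 ^ (m + j)) := by
    by_contra hcon
    push Not at hcon
    have h3 : Tc (h'.toFun x) = h'.toFun x := K.col.id _ hcon
    rcases K.dich x hx hq with h4 | ⟨g, hg, h4⟩
    · rw [K.eq x hx, h3, h4] at hne
      exact hne rfl
    · rw [mem_ball, dist_eq_norm] at h4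
      have h5 := hcon g hg
      have h6 := K.ρle g
      have h7 : σ / 2 ^ (m + j) = σ * (1 / 2 ^ (m + j)) := by ring
      rw [h7] at h6
      have h8 : σ * (1 / 2 ^ (m + j)) ≤ 1 / 16 * (1 / 2 ^ (m + j)) := by gcongr
      linarith
  obtain ⟨g, hg, h3⟩ := key
  refine ⟨g, hg, ?_⟩
  have h4 := K.col.disp (h'.toFun x)
  rw [K.eq x hx]
  have h5 : (3:ℝ) / 2 ^ (m + j) = 3 * (1 / 2 ^ (m + j)) := by ring
  have h6 : 3 * σ * (1 / 2 ^ (m + j)) ≤ 3 * (1 / 16) * (1 / 2 ^ (m + j)) := by gcongr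
  calc ‖Tc (h'.toFun x) - Nk.b g‖ ≤ ‖Tc (h'.toFun x) - h'.toFun x‖ + ‖h'.toFun x - Nk.b g‖ :=
        norm_sub_le_norm_sub_add_norm_sub _ _ _
    _ ≤ _ := by rw [h5]; linarith

/-- a linear map with a lower bound is onto -/
theorem exists_preim {L : V →L[ℝ] V} (hθ : 0 < θ) (below : ∀ w, θ * ‖w‖ ≤ ‖L w‖) (y : V) :
    ∃ w, L w = y ∧ θ * ‖w‖ ≤ ‖y‖ := by
  have hinj : Function.Injective (L : V →ₗ[ℝ] V) := by
    rw [injective_iff_map_eq_zero]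
    intro w hw
    have h1 := below w
    have h2 : L w = 0 := hw
    rw [h2, norm_zero] at h1
    have h3 : ‖w‖ ≤ 0 := by
      by_contra hn
      push Not at hn
      nlinarith
    exact norm_le_zero_iff.1 h3
  obtain ⟨w, hw⟩ := LinearMap.injective_iff_surjective.1 hinj y
  refine ⟨w, hw, ?_⟩
  have h2 : L w = y := hw
  rw [← h2]
  exact below w

/-- the nearest point of the cell is not in the inner box -/
theorem exists_clamp {k₁ : ℕ} {z : Fin 3 → ℤ} {x y' : V} (hx : x ∉ dyc v n z)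
    (hy' : y' ∈ dyc v n z) : ∃ y ∈ dyc v n z, y ∉ boxB v n k₁ z ∧ ‖x - y‖ ≤ ‖x - y'‖ := by
  set lo : V := fun k => v k + z k / 2 ^ n with hlo
  set hi : V := fun k => v k + (z k + 1) / 2 ^ n with hhi
  have hlh : ∀ k, lo k ≤ hi k := by
    intro k
    simp only [hlo, hhi]
    gcongr
    linarith
  refine ⟨fun k => max (lo k) (min (hi k) (x k)), fun k => ⟨le_max_left _ _,
    max_le (hlh k) (min_le_left _ _)⟩, fun hB => ?_, ?_⟩
  · have hp : (0:ℝ) < 1 / 2 ^ (n + k₁) := by positivity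
    refine hx fun k => ?_
    obtain ⟨h1, h2⟩ := hB k
    have h1' : lo k + 1 / 2 ^ (n + k₁) ≤ max (lo k) (min (hi k) (x k)) := h1
    have h2' : max (lo k) (min (hi k) (x k)) ≤ hi k - 1 / 2 ^ (n + k₁) := h2
    rcases le_total (lo k) (min (hi k) (x k)) with h3 | h3
    · rw [max_eq_right h3] at h1' h2'
      rcases le_total (hi k) (x k) with h4 | h4
      · rw [min_eq_left h4] at h2'
        linarith
      · rw [min_eq_right h4] at h3
        exact ⟨h3, h4⟩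
    · rw [max_eq_left h3] at h1'
      linarith
  · rw [pi_norm_le_iff_of_nonneg (norm_nonneg _)]
    intro k
    refine le_trans ?_ (norm_le_pi_norm (x - y') k)
    obtain ⟨h1, h2⟩ := hy' k
    have h1' : lo k ≤ y' k := h1
    have h2' : y' k ≤ hi k := h2
    simp only [Pi.sub_apply, Real.norm_eq_abs]
    rcases le_total (hi k) (x k) with h4 | h4
    · rw [min_eq_left h4, max_eq_right (hlh k), abs_of_nonneg (by linarith),
        abs_of_nonneg (by linarith)]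
      linarith
    · rw [min_eq_right h4]
      rcases le_total (lo k) (x k) with h5 | h5
      · rw [max_eq_right h5, sub_self, abs_zero]
        exact abs_nonneg _
      · rw [max_eq_left h5, abs_of_nonpos (by linarith), abs_of_nonpos (by linarith)]
        linarith

/-- **[K4], position**: a moved point outside of the kept tiles is near the boundary layer of the
image of a good cell -/
theorem near_layer (hN : Num θ M κ β) (S : SubCells C n J' π) (hmn : m ≤ n) {k₁ k₀ : ℕ}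
    (hNk : N = n + k₁ + k₀) (hNj : N ≤ m + j)
    (K : Cleaned C Nk n N J' η l₀ o h₀ h' h₁ Tc G) (hσ : σ ≤ 1 / 16)
    (hsub : ∀ z ∈ J', dyc v n z ⊆ Ω) {a : ℝ}
    (hcl : ∀ z ∈ J', ∀ x ∈ dyc v n z, ‖h₁.toFun x - C.A (π z) x‖ ≤ a)
    (ha : a < θ * (1 / 2 ^ (N + 2)))
    (hr : 16 * (1 / 2 ^ (m + j)) ≤ θ * (1 / 2 ^ N)) {x : V} (hx : x ∈ Ω)
    (hq : ∀ i ∈ selI Nk n N J', x ∉ qC v (Nk.s i)) (hJ : ∀ z ∈ J', x ∉ dyo v n z)
    (hne : h₁.toFun x ≠ h₀.toFun x) :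
    ∃ z ∈ J', ∃ y ∈ dyc v n z, y ∉ interior (boxB v n k₁ z) ∧
      ‖h₁.toFun x - C.A (π z) y‖ ≤ (M + 4) / 2 ^ N := by
  have hr0 := lat_pos m j
  obtain ⟨g, hg, h1⟩ := exists_neck K hσ hx hq hne
  obtain ⟨z₀, s, hpt, hs1, z, hz, u, u', hu, hu', hsu, hsu'⟩ := K.pt g hg
  have hmN : m ≤ N := by omega
  have hzz : z₀ = π z := by
    have e1 := hpt.clean.2.1
    have e2 := hsu.trans (touch_sub S hmN hz hu)
    exact _root_.P073.H953.eq_of_dyc_sub e1 e2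
  subst hzz
  have hou : o g ∈ dyc v N u := by
    refine hsu ?_
    have := squ_sub_up hpt.sq
    rwa [hpt.clean.1] at this
  have h2 : ‖h₁.toFun x - C.A (π z) (o g)‖ ≤ 4 * (1 / 2 ^ (m + j)) := by
    have e1 := hpt.near
    have e2 : 2 * β / 2 ^ (m + j) ≤ 1 * (1 / 2 ^ (m + j)) := by
      rw [mul_one_div]
      gcongr
      linarith [hN.β1]
    have e3 : (3:ℝ) / 2 ^ (m + j) = 3 * (1 / 2 ^ (m + j)) := by ring
    rw [e3] at h1
    calc _ ≤ ‖h₁.toFun x - Nk.b g‖ + ‖Nk.b g - C.A (π z) (o g)‖ :=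
          norm_sub_le_norm_sub_add_norm_sub _ _ _
      _ ≤ _ := by linarith
  obtain ⟨y', hy', hoy'⟩ := touch_near hu hou
  -- the point of the cell
  have key : ∃ y ∈ dyc v n z, y ∉ interior (boxB v n k₁ z) ∧ ‖o g - y‖ ≤ 1 / 2 ^ N := by
    by_cases hoz : o g ∈ dyc v n z
    · refine ⟨o g, hoz, fun hyB => ?_, by rw [sub_self, norm_zero]; positivity⟩
      -- otherwise the point is in the image of the open cell
      obtain ⟨w, hw, hwn⟩ := exists_preim hN.θ0 (C.below (π z) (S.mem z hz))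
        (h₁.toFun x - C.A (π z) (o g))
      have e4 : (1:ℝ) / 2 ^ (N + 2) = 1 / 4 * (1 / 2 ^ N) := by
        rw [pow_add]
        field_simp
        norm_num
      have hw1 : ‖w‖ ≤ 1 / 2 ^ (N + 2) := by
        have e1 : θ * ‖w‖ ≤ θ * (1 / 2 ^ (N + 2)) := by
          rw [e4]
          linarith
        exact le_of_mul_le_mul_left e1 hN.θ0
      have hyB' : o g ∈ boxB v n k₁ z := interior_subset hyB
      have hNn : (1:ℝ) / 2 ^ N ≤ 1 / 2 ^ (n + k₁) := by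
        apply one_div_le_one_div_of_le (by positivity)
        exact pow_le_pow_right₀ (by norm_num) (by omega)
      have hpN : (0:ℝ) < 1 / 2 ^ N := by positivity
      have hmem : o g + w ∈ shrink v n z (1 / 2 ^ (N + 2)) := by
        intro k
        have e1 := hyB' k
        have e3 := (norm_le_pi_norm w k).trans hw1
        rw [Real.norm_eq_abs, abs_le] at e3
        rw [Pi.add_apply]
        rw [e4] at e3 ⊢
        constructor <;> linarith [e1.1, e1.2, e3.1, e3.2]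
      have himg : C.A (π z) (o g + w) = h₁.toFun x := by
        have e1 := C.aff (π z) (S.mem z hz) (o g) (o g + w)
        rw [add_sub_cancel_left, hw] at e1
        exact sub_left_injective e1
      have h4 : 4 * (1 / 2 ^ (N + 2) : ℝ) ≤ 1 / 2 ^ n := by
        have e5 : 4 * (1 / 2 ^ (N + 2) : ℝ) = 1 / 2 ^ N := by rw [e4]; ring
        rw [e5]
        apply one_div_le_one_div_of_le (by positivity)
        exact pow_le_pow_right₀ (by norm_num) (by omega)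
      have hin := H333.shrink_sub_image h₁ (hsub z hz) hN.θ0 (C.aff (π z) (S.mem z hz))
        (C.below (π z) (S.mem z hz)) (hcl z hz) ha h4 ⟨_, hmem, himg⟩
      obtain ⟨x', hx', hxx⟩ := hin
      have hx'Ω : x' ∈ Ω := hsub z hz (P86.dyo_sub_dyc hx')
      have := h₁.injOn hx'Ω hx hxx
      exact hJ z hz (this ▸ hx')
    · obtain ⟨y, hy, hyB, hyo⟩ := exists_clamp (k₁ := k₁) hoz hy'
      exact ⟨y, hy, fun h => hyB (interior_subset h), hyo.trans hoy'⟩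
  obtain ⟨y, hy, hyB, hoy⟩ := key
  refine ⟨z, hz, y, hy, hyB, ?_⟩
  have e1 : ‖C.A (π z) (o g) - C.A (π z) y‖ ≤ M * (1 / 2 ^ N) := by
    rw [C.aff (π z) (S.mem z hz) y (o g)]
    refine (C.above (π z) (S.mem z hz) _).trans ?_
    have := hN.M0
    gcongr
  have e2 : (1:ℝ) / 2 ^ (m + j) ≤ 1 / 2 ^ N := by
    apply one_div_le_one_div_of_le (by positivity)
    exact pow_le_pow_right₀ (by norm_num) hNj
  have e3 : (M + 4) / 2 ^ N = M * (1 / 2 ^ N) + 4 * (1 / 2 ^ N) := by ring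
  rw [e3]
  calc _ ≤ ‖h₁.toFun x - C.A (π z) (o g)‖ + ‖C.A (π z) (o g) - C.A (π z) y‖ :=
        norm_sub_le_norm_sub_add_norm_sub _ _ _
    _ ≤ _ := by linarith

/-- the dichotomy on a connected set, in the form of `AltAB` -/
theorem dich_on (K : Cleaned C Nk n N J' η l₀ o h₀ h' h₁ Tc G) {S : Set V} (hSΩ : S ⊆ Ω)
    (hS : ∀ u, Tch v n N J' u → Disjoint S (dyo v N u)) : ∀ x ∈ S, h'.toFun x = h₀.toFun x ∨
      ∃ g ∈ G, h'.toFun x ∈ closedBall (Nk.b g) (Nk.ρ g) := fun x hx =>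
  (K.dich x (hSΩ hx) fun _ hi => notMem_qC hS hi hx).imp_right fun ⟨g, hg, h⟩ =>
    ⟨g, hg, ball_subset_closedBall h⟩

/-- **[K4], oscillation** -/
theorem osc_cleaned (K : Cleaned C Nk n N J' η l₀ o h₀ h' h₁ Tc G) (hσ0 : 0 ≤ σ)
    (hl : 0 ≤ l₀) {S : Set V} (hSΩ : S ⊆ Ω) (hSp : IsPreconnected S)
    (hS : ∀ u, Tch v n N J' u → Disjoint S (dyo v N u)) {D : ℝ}
    (hD : ∀ x ∈ S, ∀ y ∈ S, ‖h₀.toFun x - h₀.toFun y‖ ≤ D) {x y : V} (hx : x ∈ S) (hy : y ∈ S) :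
    ‖h₁.toFun x - h₁.toFun y‖ ≤ (1 + 48 * σ) * D + 4 * l₀ * σ * (1 / 2 ^ (m + j)) := by
  have hr := lat_pos m j
  have h1 := _root_.P073.H953.osc_colB (J := G) (ρ := 2 * σ * (1 / 2 ^ (m + j))) K.col hσ0 hl
    (fun i _ j _ hij => Nk.bdisj i j hij) (fun i _ => by
      have h6 := K.ρle i
      have h7 : σ / 2 ^ (m + j) = σ * (1 / 2 ^ (m + j)) := by ring
      rw [h7] at h6
      linarith) (by positivity) hSp (h₀.cont.mono hSΩ) (h'.cont.mono hSΩ)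
    (dich_on K hSΩ hS) hD hx hy
  rw [K.eq x (hSΩ hx), K.eq y (hSΩ hy)]
  refine h1.trans (le_of_eq ?_)
  ring

/-- **[K4]** the alternative -/
theorem alt_cleaned (hN : Num θ M κ β) (S' : SubCells C n J' π) (hmn : m ≤ n) {k₁ k₀ : ℕ}
    (hNk : N = n + k₁ + k₀) (hNj : N ≤ m + j)
    (K : Cleaned C Nk n N J' η l₀ o h₀ h' h₁ Tc G) (hσ0 : 0 ≤ σ) (hσ : σ ≤ 1 / 48)
    (hl : 0 ≤ l₀) (hsub : ∀ z ∈ J', dyc v n z ⊆ Ω) {a : ℝ}
    (hcl : ∀ z ∈ J', ∀ x ∈ dyc v n z, ‖h₁.toFun x - C.A (π z) x‖ ≤ a)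
    (ha : a < θ * (1 / 2 ^ (N + 2))) (hr : 16 * (1 / 2 ^ (m + j)) ≤ θ * (1 / 2 ^ N)) {S : Set V} (hSΩ : S ⊆ Ω)
    (hSp : IsPreconnected S) (hSJ : ∀ z ∈ J', Disjoint S (dyo v n z))
    (hS : ∀ u, Tch v n N J' u → Disjoint S (dyo v N u)) :
    (∀ x ∈ S, h₁.toFun x = h₀.toFun x) ∨
      ((∀ D, (∀ x ∈ S, ∀ y ∈ S, ‖h₀.toFun x - h₀.toFun y‖ ≤ D) → ∀ x ∈ S, ∀ y ∈ S,
        ‖h₁.toFun x - h₁.toFun y‖ ≤ 2 * D + 4 * l₀ * σ * (1 / 2 ^ (m + j))) ∧
      ∃ x₀ ∈ S, ∃ z ∈ J', ∃ y ∈ dyc v n z, y ∉ interior (boxB v n k₁ z) ∧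
        ‖h₁.toFun x₀ - C.A (π z) y‖ ≤ (M + 4) / 2 ^ N) := by
  by_cases h0 : ∀ x ∈ S, h₁.toFun x = h₀.toFun x
  · exact Or.inl h0
  · right
    push Not at h0
    obtain ⟨x₀, hx₀, hne⟩ := h0
    refine ⟨fun D hD x hx y hy => ?_, x₀, hx₀, near_layer hN S' hmn hNk hNj K (by linarith)
      hsub hcl ha hr (hSΩ hx₀) (fun i hi => notMem_qC hS hi hx₀)
      (fun z hz => disjoint_left.1 (hSJ z hz) hx₀) hne⟩
    have hD0 : 0 ≤ D := (norm_nonneg _).trans (hD x hx x hx)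
    refine (osc_cleaned K hσ0 hl hSΩ hSp hS hD hx hy).trans ?_
    have : (1 + 48 * σ) * D ≤ 2 * D := by gcongr; linarith
    linarith

/-- **[K4]** the field `off` of `NetRes2` for `h₁` -/
theorem off_cleaned (hN : Num θ M κ β) (S' : SubCells C n J' π) (hmn : m ≤ n) {k₁ k₀ : ℕ}
    (hNk : N = n + k₁ + k₀) (hNj : N ≤ m + j)
    (K : Cleaned C Nk n N J' η l₀ o h₀ h' h₁ Tc G) (hσ0 : 0 ≤ σ) (hσ : σ ≤ 1 / 48)
    (hl : 0 ≤ l₀) (hsub : ∀ z ∈ J', dyc v n z ⊆ Ω) {a : ℝ}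
    (hcl : ∀ z ∈ J', ∀ x ∈ dyc v n z, ‖h₁.toFun x - C.A (π z) x‖ ≤ a)
    (ha : a < θ * (1 / 2 ^ (N + 2))) (hr : 16 * (1 / 2 ^ (m + j)) ≤ θ * (1 / 2 ^ N)) {σf : V → ℝ}
    (hσf : ∀ x ∈ Ω, ‖h₀.toFun x - f x‖ ≤ σf x) {τ : ℝ}
    (hτ : 4 * η + 4 * l₀ * σ * (1 / 2 ^ (m + j)) ≤ τ) {Cc : ℝ} (hCc : M + 4 ≤ Cc)
    {S : Set V} (hSΩ : S ⊆ Ω)
    (hSp : IsPreconnected S) (hSJ : ∀ z ∈ J', Disjoint S (dyo v n z))
    (hS : ∀ u, Tch v n N J' u → Disjoint S (dyo v N u)) :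
    (∀ x ∈ S, ‖h₁.toFun x - f x‖ ≤ σf x) ∨
      ∀ D, (∀ x ∈ S, ∀ y ∈ S, ‖f x - f y‖ ≤ D) →
        (∀ x ∈ S, ∀ y ∈ S, ‖h₁.toFun x - h₁.toFun y‖ ≤ 2 * D + τ) ∧
        ∀ x ∈ S, ∃ z ∈ J', ∃ y ∈ dyc v n z, y ∉ interior (boxB v n k₁ z) ∧
          ‖h₁.toFun x - C.A (π z) y‖ ≤ 2 * D + τ + Cc / 2 ^ N := by
  rcases alt_cleaned hN S' hmn hNk hNj K hσ0 hσ hl hsub hcl ha hr hSΩ hSp hSJ hS with
    h | ⟨h1, x₀, hx₀, z, hz, y, hy, hyB, h2⟩
  · left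
    intro x hx
    rw [h x hx]
    exact hσf x (hSΩ hx)
  · right
    intro D hD
    have h3 : ∀ x ∈ S, ∀ y ∈ S, ‖h₀.toFun x - h₀.toFun y‖ ≤ D + 2 * η := by
      intro x hx y hy
      have e1 := K.near₀ x (hSΩ hx)
      have e2 := K.near₀ y (hSΩ hy)
      have e3 := hD x hx y hy
      rw [norm_sub_rev] at e2
      calc ‖h₀.toFun x - h₀.toFun y‖
          ≤ ‖h₀.toFun x - f x‖ + ‖f x - h₀.toFun y‖ := norm_sub_le_norm_sub_add_norm_sub _ _ _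
        _ ≤ ‖h₀.toFun x - f x‖ + (‖f x - f y‖ + ‖f y - h₀.toFun y‖) := by
            gcongr
            exact norm_sub_le_norm_sub_add_norm_sub _ _ _
        _ ≤ _ := by linarith
    have h4 : ∀ x ∈ S, ∀ y ∈ S, ‖h₁.toFun x - h₁.toFun y‖ ≤ 2 * D + τ := by
      intro x hx y hy
      have := h1 _ h3 x hx y hy
      linarith
    refine ⟨h4, fun x hx => ⟨z, hz, y, hy, hyB, ?_⟩⟩
    have e1 := h4 x hx x₀ hx₀
    have e2 : (M + 4) / 2 ^ N ≤ Cc / 2 ^ N := by gcongr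
    calc _ ≤ ‖h₁.toFun x - h₁.toFun x₀‖ + ‖h₁.toFun x₀ - C.A (π z) y‖ :=
          norm_sub_le_norm_sub_add_norm_sub _ _ _
      _ ≤ _ := by linarith

end Vale.Agent.P073.H953
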