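import Vale.Agent.P073.H953.Bm5
import Vale.Agent.P073.H439.CloseFin

/-!
# P073: approximation in `W^{1,q}`, `2 < q < 3`, with uniform closeness and closeness zero at the
boundary: general case
-/

namespace Vale.Agent.P073.H953

open Vale.Agent.P073

/-- **[G1]** `CloseK q` (`= CloseA q`) for `2 < q < 3` -/
theorem closeK {q : ℝ} (hq : 2 < q) (hq3 : q < 3) : H989.CloseK q :=
  H439.closeK_of_confaceN hq.le hq3 fun _ _ _ _ hΩ hΛ hf hF hu hD =>
    H73.confaceN hq hq3 hΩ hΛ hf hF hu hD

/-- **[G1]** `CloseA q` for `2 < q < 3` -/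
theorem closeA {q : ℝ} (hq : 2 < q) (hq3 : q < 3) : H732.CloseA q := closeK hq hq3

end Vale.Agent.P073.H953
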