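import Vale.Agent.P073.H239.FSpec
import Vale.Agent.P073.H439.Ener

/-!
# P073, block B10, PRE-F (i): the energies `EnB` from the local estimate of the chain
-/

open Set Metric Topology Filter MeasureTheory Matrix WithLp
open scoped ENNReal NNReal

namespace Vale.Agent.P073.H953

open Vale.Agent.P073
open Vale.Agent.P073.St (V Mat)
open Vale.Agent.P073.SQ (ev)
open Vale.Agent.P073.AB (Idx Part pt edge eInt squ cl)
open Vale.Agent.P073.H194 (sInt)
open Vale.Agent.P073.H235 (Bx Fr Co cmp cmpD P2 rect VData VData2 SpecEner)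
open Vale.Agent.P073.H239 (enP enX EnB)
open Vale.Agent.P073.H696 (R2 HF)
open Vale.Agent.P073.H851 (M3)
open _root_.P073.Net (dyc dyo)

theorem isOpen_Bx (a : V) : IsOpen (Bx a) := by
  have : Bx a = ⋂ i, ({x : V | 0 < x i} ∩ {x | x i < a i}) := by
    ext x
    simp [Bx]
  rw [this]
  exact isOpen_iInter_of_finite fun i => (isOpen_lt (by fun_prop) (by fun_prop)).inter
    (isOpen_lt (by fun_prop) (by fun_prop))

variable {p C₀ θ κ : ℝ} {m₀ : ℕ} {Λ : Set V} {f : V → V} {F : V → Mat}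

/-- energy of the map from `SpecEner` -/
theorem int_HF_le (D : VData2 p C₀ θ κ m₀ Λ f F) {R : Set V} (hR : R ⊆ Bx (H235.fl θ))
    (hRm : MeasurableSet R) : ∫⁻ y in R, HF p (Bx (H235.fl θ)) (cmpD (H235.fl θ) F) y ≤
      ∫⁻ y in R, (D.H y + H194.Bk 1 y) := by
  refine lintegral_mono_ae ?_
  have hN : ∀ᵐ y : V, y ∉ D.N := measure_eq_zero_iff_ae_notMem.1 D.null
  filter_upwards [ae_restrict_of_ae hN, ae_restrict_mem hRm] with y hy hyR
  have h1 : HF p (Bx (H235.fl θ)) (cmpD (H235.fl θ) F) y = D.H y := by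
    unfold HF
    rw [indicator_of_mem (hR hyR), D.eq y (hR hyR) hy]
  rw [h1]
  exact le_self_add

/-- neighbourhoods of the frame -/
theorem frame_nbhd {ν r₀ : ℝ} (hr : r₀ < ν) {x : V}
    (hx : infDist x (Fr (H235.fl θ) (2 * ν) {0, 1}) ≤ r₀) : x ∈ Fr (H235.fl θ) (3 * ν) {0, 1} := by
  have hfl : ∀ i ∈ ({0, 1} : Finset (Fin 3)), H235.fl θ i = 1 := by
    intro i hi
    fin_cases i
    · rfl
    · rfl
    · exact absurd hi (by decide)
  by_cases hne : (Fr (H235.fl θ) (2 * ν) {0, 1}).Nonempty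
  · obtain ⟨a, ⟨i, hi, ha⟩, hd⟩ := (infDist_lt_iff hne).1 (lt_of_le_of_lt hx hr)
    refine ⟨i, hi, ?_⟩
    rw [hfl i hi, mul_one, mul_one] at ha ⊢
    have h1 : |x i - a i| < ν := by
      refine lt_of_le_of_lt ?_ hd
      rw [dist_eq_norm]
      exact norm_le_pi_norm (x - a) i
    rw [abs_lt] at h1
    rcases ha with ha | ha
    · left; linarith [h1.1, h1.2]
    · right; linarith [h1.1, h1.2]
  · exfalso
    refine hne ⟨fun _ => 2 * ν, 0, by decide, Or.inl ?_⟩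
    rw [hfl 0 (by decide), mul_one]

/-- neighbourhoods of subsets of a plane -/
theorem plane_nbhd {c r₀ t : ℝ} (hr : r₀ < t) {A : Set V} (hne : A.Nonempty)
    (hA : ∀ a ∈ A, a 2 = c) {x : V} (hx : infDist x A ≤ r₀) : |x 2 - c| ≤ t := by
  obtain ⟨a, ha, hd⟩ := (infDist_lt_iff hne).1 (lt_of_le_of_lt hx hr)
  rw [← hA a ha]
  refine le_trans ?_ hd.le
  rw [dist_eq_norm]
  exact norm_le_pi_norm (x - a) 2

theorem measurableSet_nbhd (a : V) (A : Set V) (r₀ : ℝ) :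
    MeasurableSet {y | y ∈ Bx a ∧ infDist y A ≤ r₀} :=
  (isOpen_Bx a).measurableSet.inter
    ((isClosed_le (continuous_infDist_pt A) continuous_const).measurableSet)

/-- the passive cubes which meet the empty set -/
theorem enP_empty {Cu : ℝ} {Lc : M3 → ℝ} {δ : ℝ} {j : ℕ} {ε : ℝ} {Ω : Set V} {v : V}
    (X : R2 p Cu Lc δ j ε Ω Λ f F v) : enP X ∅ = 0 := by
  unfold enP
  rw [ENNReal.tsum_eq_zero]
  rintro ⟨q, -, hq⟩
  rw [inter_empty] at hq
  exact absurd hq not_nonempty_empty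

theorem two_rpow_pos (p : ℝ) : (0:ℝ) < 2 ^ p := Real.rpow_pos_of_pos (by norm_num) p

/-- **PRE-F (i)**: the energies. `r₀` depends on the generic origin, `ν`, `C₁`, `ε`. -/
theorem exists_enB (hE : SpecEner) (hp : 1 ≤ p) (hθ : 0 < θ) (hθ2 : θ ≤ 1 / 2) {ν : ℝ} (hν : 0 < ν)
    (D : VData2 p C₀ θ κ m₀ Λ f F) (hκ : κ ≤ ν * θ) (hν4 : ν ≤ 1) {C₁ : ℝ}
    (hC₁ : 0 < C₁) {ε : ℝ} (hε : 0 < ε) :
    ∃ r₀ > 0, ∀ r, 0 < r → r ≤ r₀ → ∀ {Cu : ℝ} {Lc : M3 → ℝ} {δ : ℝ} {j : ℕ} {Λ' : Set V}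
      {g : V → V} {G : V → Mat} {w : V} (X : R2 p Cu Lc δ j ε (Bx (H235.fl θ)) Λ' g G w)
      (nS : ℕ) (a b : Fin 3 → ℤ) (ε₂ : ℝ), w 2 + a 2 / 2 ^ nS = D.v 2 + D.B / 2 ^ m₀ →
      ε₂ ≤ ν * θ → ε₂ ≤ ε / 2 →
      (∀ A : Set V, enX X A ≤ ENNReal.ofReal C₁ *
        (∫⁻ y in {y | y ∈ Bx (H235.fl θ) ∧ infDist y A ≤ r},
          HF p (Bx (H235.fl θ)) (cmpD (H235.fl θ) F) y) + ENNReal.ofReal ε₂) →
      EnB (25 * C₁ * 2 ^ p + 1) θ ν X nS a b := by
  obtain ⟨e1, -, e3, e4, e5, -⟩ := hE p C₀ θ κ m₀ Λ f F hp hθ hθ2 D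
  have h2p := two_rpow_pos p
  obtain ⟨κ', hκ0, hκ, hκκ⟩ : ∃ κ' : ℝ, 0 ≤ κ' ∧ κ' ≤ ν * θ ∧ κ ≤ κ' :=
    ⟨max κ 0, le_max_right _ _, max_le hκ (by positivity), le_max_left _ _⟩
  have hsmall := D.small.trans (ENNReal.ofReal_le_ofReal hκκ)
  set c : ℝ := D.v 2 + D.B / 2 ^ m₀ with hc
  obtain ⟨n, -, hn⟩ := e5 c (ε / (2 * C₁)) 0 (by positivity)
  refine ⟨min (ν / 2) (1 / 2 / 2 ^ n), by positivity, fun r hr hr0 => ?_⟩
  have hrν : r < ν := lt_of_le_of_lt (hr0.trans (min_le_left _ _)) (by linarith)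
  have hrn : r < 1 / 2 ^ n := by
    refine lt_of_le_of_lt (hr0.trans (min_le_right _ _)) ?_
    gcongr
    norm_num
  intro Cu Lc δ j Λ' g G w X nS a b ε₂ hplane hε2 hε2' hX
  -- a bound for sets with small volume
  have key : ∀ {A : Set V} {R : Set V} {V₀ : ℝ}, 0 ≤ V₀ → R ⊆ Bx (H235.fl θ) → MeasurableSet R →
      {y | y ∈ Bx (H235.fl θ) ∧ infDist y A ≤ r} ⊆ R → volume R ≤ ENNReal.ofReal V₀ →
      enX X A ≤ ENNReal.ofReal (C₁ * (2 ^ p * (κ' + V₀)) + ν * θ) := by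
    intro A R V₀ hV₀ hR hRm hsub hvol
    refine (hX A).trans ?_
    rw [ENNReal.ofReal_add (by positivity) (by positivity), ENNReal.ofReal_mul hC₁.le,
      ENNReal.ofReal_mul h2p.le, ENNReal.ofReal_add hκ0 hV₀]
    gcongr
    calc ∫⁻ y in {y | y ∈ Bx (H235.fl θ) ∧ infDist y A ≤ r},
          HF p (Bx (H235.fl θ)) (cmpD (H235.fl θ) F) y
        ≤ ∫⁻ y in R, HF p (Bx (H235.fl θ)) (cmpD (H235.fl θ) F) y := lintegral_mono_set hsub
      _ ≤ ∫⁻ y in R, (D.H y + H194.Bk 1 y) := int_HF_le D hR hRm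
      _ ≤ ENNReal.ofReal (2 ^ p) * ((∫⁻ x in R, D.H₁ x) + volume R) := e1 R hR hRm
      _ ≤ ENNReal.ofReal (2 ^ p) * (ENNReal.ofReal κ' + ENNReal.ofReal V₀) := by
          gcongr
          exact (lintegral_mono_set hR).trans hsmall
  refine ⟨?_, ?_, ?_⟩
  · -- bulk
    refine (key (A := univ) (R := Bx (H235.fl θ)) (V₀ := 2 * θ) (by positivity) le_rfl
      (isOpen_Bx _).measurableSet (fun y hy => hy.1) e3).trans (ENNReal.ofReal_le_ofReal ?_)
    have h1 : κ' + 2 * θ ≤ 3 * θ := by nlinarith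
    have h2 : C₁ * (2 ^ p * (κ' + 2 * θ)) ≤ C₁ * (2 ^ p * (3 * θ)) := by gcongr
    have h3 : 0 ≤ C₁ * 2 ^ p * θ := by positivity
    have h4 : ν * θ ≤ 1 * θ := by gcongr
    nlinarith
  · -- frame
    have hcl : IsClosed (Fr (H235.fl θ) (3 * ν) {0, 1}) := by
      have : Fr (H235.fl θ) (3 * ν) {0, 1} = ⋃ i ∈ ({0, 1} : Finset (Fin 3)),
          ({x : V | x i ≤ 3 * ν * H235.fl θ i} ∪ {x | (1 - 3 * ν) * H235.fl θ i ≤ x i}) := by
        ext x
        simp [Fr]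
      rw [this]
      exact Set.Finite.isClosed_biUnion (Finset.finite_toSet _) fun i _ =>
        (isClosed_le (by fun_prop) (by fun_prop)).union (isClosed_le (by fun_prop) (by fun_prop))
    refine (key (A := Fr (H235.fl θ) (2 * ν) {0, 1})
      (R := Bx (H235.fl θ) ∩ Fr (H235.fl θ) (3 * ν) {0, 1}) (V₀ := 24 * ν * θ) (by positivity)
      inter_subset_left ((isOpen_Bx _).measurableSet.inter hcl.measurableSet)
      (fun y hy => ⟨hy.1, frame_nbhd hrν hy.2⟩) (e4 ν hν)).trans (ENNReal.ofReal_le_ofReal ?_)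
    have h1 : κ' + 24 * ν * θ ≤ 25 * (ν * θ) := by linarith
    have h2 : C₁ * (2 ^ p * (κ' + 24 * ν * θ)) ≤ C₁ * (2 ^ p * (25 * (ν * θ))) := by gcongr
    calc _ ≤ C₁ * (2 ^ p * (25 * (ν * θ))) + ν * θ := by gcongr
      _ = (25 * C₁ * 2 ^ p + 1) * ν * θ := by ring
  · -- layer
    set A : Set V := ⋃ k ∈ rect a b, squ w ((nS, k), 2) with hA
    by_cases hne : A.Nonempty
    · have hplane' : ∀ x ∈ A, x 2 = c := by
        intro x hx
        obtain ⟨k, hk, hx⟩ := mem_iUnion₂.1 hx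
        have h1 : k 2 = a 2 := by
          have := Fintype.mem_piFinset.1 hk 2
          simpa using this
        rw [hx.1, ← hplane]
        show w 2 + (k 2 : ℝ) / 2 ^ nS = _
        rw [h1]
      refine (le_self_add : enP X A ≤ enX X A).trans ((hX A).trans ?_)
      have h1 : ∫⁻ y in {y | y ∈ Bx (H235.fl θ) ∧ infDist y A ≤ r},
          HF p (Bx (H235.fl θ)) (cmpD (H235.fl θ) F) y ≤ ENNReal.ofReal (ε / (2 * C₁)) := by
        refine le_trans ?_ hn
        have hsub : {y | y ∈ Bx (H235.fl θ) ∧ infDist y A ≤ r} ⊆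
            Bx (H235.fl θ) ∩ {x | |x 2 - c| ≤ 1 / 2 ^ n} := fun y hy =>
          ⟨hy.1, plane_nbhd hrn hne hplane' hy.2⟩
        have hm : MeasurableSet (Bx (H235.fl θ) ∩ {x : V | |x 2 - c| ≤ 1 / 2 ^ n}) :=
          (isOpen_Bx _).measurableSet.inter
            (isClosed_le (by fun_prop) continuous_const).measurableSet
        exact (lintegral_mono_set hsub).trans (int_HF_le D inter_subset_left hm)
      calc _ ≤ ENNReal.ofReal C₁ * ENNReal.ofReal (ε / (2 * C₁)) + ENNReal.ofReal (ε / 2) := by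
            gcongr
        _ = ENNReal.ofReal ε := by
            rw [← ENNReal.ofReal_mul hC₁.le, ← ENNReal.ofReal_add (by positivity) (by positivity)]
            congr 1
            field_simp
            ring
    · rw [not_nonempty_iff_eq_empty] at hne
      rw [hne, enP_empty]
      exact zero_le

end Vale.Agent.P073.H953
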