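import Vale.Agent.P073.H239.FSpec2
import Vale.Agent.P073.H953.EnF

/-!
# P073, block B10: `SpecEnF`
-/

open Set Metric Topology Filter MeasureTheory
open scoped ENNReal NNReal

namespace Vale.Agent.P073.H953

open Vale.Agent.P073
open Vale.Agent.P073.H239 (SpecEnF)

/-- **[EN-F]** -/
theorem specEnF {p : ℝ} (hp : 1 ≤ p) : SpecEnF p := by
  intro C₁ hC₁
  have h2p := two_rpow_pos p
  refine ⟨25 * C₁ * 2 ^ p + 1, by positivity, ?_⟩
  intro C₀ θ ν κ m₀ Λ f F D hθ hθ2 hν hν4 hκ ε hε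
  have hC₁' : 0 < C₁ := by linarith
  obtain ⟨r₀, hr₀, H⟩ := exists_enB H439.EN.specEner hp hθ hθ2 hν D hκ (by linarith) hC₁' hε
  refine ⟨r₀, hr₀, min (ν * θ) (ε / 2), by positivity, ?_⟩
  intro Cu Lc δ j X nS a b hpl _ hX
  exact H r₀ hr₀ le_rfl X nS a b _ (by rw [hpl]) (min_le_left _ _) (min_le_right _ _) hX

end Vale.Agent.P073.H953
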