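import Vale.Agent.P073.H953.NeckAux

/-!
# P073, block NECKS-ALL: the necks of all clean squares
-/

open Set Metric Topology Filter
open scoped ENNReal

namespace P073.H953

open P073
open Vale.Agent.P073.St (V Mat)
open Vale.Agent.P073.SQ (ev)
open Vale.Agent.P073.AB
open Vale.Agent.P073.H83
open Vale.Agent.P073.H194 (eInSq fSum sInt)
open Vale.Agent.P073.AB.P86 (rel lo lo_same lo_other)
open Vale.Agent.P073.H234 (Clean P2Cells Necks dn)
open P073.Net (dyc dyo)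

variable {v : V} {Ω Λ : Set V} {f : V → V} {F : V → Mat}

theorem norm_ev (k : Fin 3) : ‖(ev k : V)‖ = 1 := by
  unfold ev
  rw [Pi.norm_single]
  exact norm_one

/-- one clean square -/
theorem necks_one {κ M β : ℝ} (hκ : 0 < κ) (hβ : 0 < β) (hκβ : κ ≤ β / 16)
    {A : V → V} {L : V →L[ℝ] V} {m j : ℕ} {z : Fin 3 → ℤ} (rat : RatGood v Ω f F)
    (hf : ContinuousOn f Ω) (hz : dyc v m z ⊆ Ω) (aff : ∀ x y, A y - A x = L (y - x))
    (above : ∀ w, ‖L w‖ ≤ M * ‖w‖)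
    (vert : ∀ a : Fin 3 → ℤ, pt v (m + j) a ∈ dyc v m z →
      ‖f (pt v (m + j) a) - A (pt v (m + j) a)‖ ≤ κ / 2 ^ (m + j))
    (edg : ∀ e : Idx × Fin 3, e.1.1 = m + j → edge v e ⊆ dyc v m z →
      eInt v e (fun x => ENNReal.ofReal ‖cl (F x) (ev e.2) - L (ev e.2)‖) ≤
        ENNReal.ofReal (κ / 2 ^ (m + j)))
    {s : Idx × Fin 3} (hs : Clean v m j z s)
    (hsq : sInt v s (fun x => ‖cl (F x) - L‖ₑ ^ (2:ℝ)) ≤ ENNReal.ofReal (κ / 4 ^ (m + j)))
    {nn : ℕ → ℕ} (hnn : StrictMono nn)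
    (gen : ∀ k, k ≠ s.2 → ∀ η : ℝ≥0∞, η ≠ 0 → ∀ᶠ l in atTop,
      fSum v s (nn l) k (fun x => ‖cl (F x) - L‖ₑ ^ (2:ℝ)) ≤
        sInt v s (fun x => ‖cl (F x) - L‖ₑ ^ (2:ℝ)) + η) :
    ∀ᶠ l in atTop, s.1.1 ≤ nn l ∧ NecksAt v f (fun x => ‖f x - A x‖) s (nn l)
      (β / 4 / 2 ^ (m + j)) (β / 2 / 2 ^ (m + j)) (β / 8 / 2 ^ (m + j))
      (256 * (√(2 * κ) * √(4 * κ + 4 * M ^ 2)) / β / 2 ^ (m + j)) := by
  have h2 : (0:ℝ) < 2 ^ (m + j) := by positivity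
  have h4 : (0:ℝ) < 4 ^ (m + j) := by positivity
  set HL : V → ℝ≥0∞ := fun x => ‖cl (F x) - L‖ₑ ^ (2:ℝ) with hHL
  set H0 : V → ℝ≥0∞ := fun x => 2 * HL x + ENNReal.ofReal (2 * M ^ 2) with hH0
  have hsΩ : squ v s ⊆ Ω := (squ_sub_of_clean hs).trans hz
  have b1 : ∀ y k, ‖cl (F y) (ev k) - L (ev k)‖ₑ ^ 2 ≤ HL y := by
    intro y k
    rw [hHL]
    simp only
    rw [ENNReal.rpow_two]
    gcongr
    rw [← ofReal_norm, ← ofReal_norm]
    apply ENNReal.ofReal_le_ofReal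
    have := (cl (F y) - L).le_opNorm (ev k)
    rwa [norm_ev, mul_one] at this
  have b2 : ∀ y k, ‖cl (F y) (ev k)‖ₑ ^ 2 ≤ H0 y := by
    intro y k
    have e1 : HL y = ENNReal.ofReal (‖cl (F y) - L‖ ^ 2) := by
      rw [hHL]
      simp only
      rw [ENNReal.rpow_two, ← ofReal_norm, ENNReal.ofReal_pow (norm_nonneg _)]
    rw [hH0]
    simp only
    rw [e1, ← ofReal_norm, ← ENNReal.ofReal_pow (norm_nonneg _)]
    have e2 : (2:ℝ≥0∞) = ENNReal.ofReal 2 := by norm_num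
    rw [e2, ← ENNReal.ofReal_mul (by norm_num), ← ENNReal.ofReal_add (by positivity)
      (by positivity)]
    apply ENNReal.ofReal_le_ofReal
    have c1 : ‖(cl (F y) - L) (ev k)‖ ≤ ‖cl (F y) - L‖ := by
      have := (cl (F y) - L).le_opNorm (ev k)
      rwa [norm_ev, mul_one] at this
    have c2 : ‖L (ev k)‖ ≤ M := by
      have := above (ev k)
      rwa [norm_ev, mul_one] at this
    have c3 : ‖cl (F y) (ev k)‖ ≤ ‖(cl (F y) - L) (ev k)‖ + ‖L (ev k)‖ := by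
      have e3 : cl (F y) (ev k) = (cl (F y) - L) (ev k) + L (ev k) := by
        show _ = (cl (F y) (ev k) - L (ev k)) + L (ev k)
        abel
      rw [e3]
      exact norm_add_le _ _
    have c4 : ‖cl (F y) (ev k)‖ ≤ ‖cl (F y) - L‖ + M := by linarith
    calc ‖cl (F y) (ev k)‖ ^ 2 ≤ (‖cl (F y) - L‖ + M) ^ 2 := by gcongr
      _ ≤ _ := by nlinarith [sq_nonneg (‖cl (F y) - L‖ - M)]
  have hEL : ∀ᶠ l in atTop, ∀ k, k ≠ s.2 → fSum v s (nn l) k HL ≤
      ENNReal.ofReal (2 * κ / 4 ^ (m + j)) := by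
    rw [eventually_all]
    intro k
    by_cases hk : k = s.2
    · exact Eventually.of_forall fun l h => absurd hk h
    · have hη : ENNReal.ofReal (κ / 4 ^ (m + j)) ≠ 0 := by
        rw [ne_eq, ENNReal.ofReal_eq_zero, not_le]; positivity
      filter_upwards [gen k hk _ hη] with l hl _
      refine hl.trans ((add_le_add hsq le_rfl).trans ?_)
      rw [← ENNReal.ofReal_add (by positivity) (by positivity)]
      apply ENNReal.ofReal_le_ofReal
      apply le_of_eq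
      ring
  have hE0 : ∀ᶠ l in atTop, ∀ k, k ≠ s.2 → fSum v s (nn l) k H0 ≤
      ENNReal.ofReal ((4 * κ + 4 * M ^ 2) / 4 ^ (m + j)) := by
    filter_upwards [hEL, hnn.tendsto_atTop.eventually_ge_atTop s.1.1] with l hl hsl k hk
    rw [hH0, fSum_add s (nn l) k ⟨_, rfl⟩, fSum_two_mul]
    have h5 := fSum_const_le (v := v) hsl hk (2 * M ^ 2) (by positivity)
    rw [hs.1] at h5
    calc 2 * fSum v s (nn l) k HL + fSum v s (nn l) k (fun _ => ENNReal.ofReal (2 * M ^ 2)) ≤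
        2 * ENNReal.ofReal (2 * κ / 4 ^ (m + j)) +
          ENNReal.ofReal (2 * (2 * M ^ 2) / 4 ^ (m + j)) := by
          gcongr
          exact hl k hk
      _ = ENNReal.ofReal ((4 * κ + 4 * M ^ 2) / 4 ^ (m + j)) := by
          have e2 : (2:ℝ≥0∞) = ENNReal.ofReal 2 := by norm_num
          rw [e2, ← ENNReal.ofReal_mul (by norm_num), ← ENNReal.ofReal_add (by positivity)
            (by positivity)]
          congr 1
          ring
  have hαβ : β / 4 / 2 ^ (m + j) < β / 2 / 2 ^ (m + j) := by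
    gcongr
    norm_num
  have main := exists_necks_fsum rat hf hsΩ aff (fun y _ k _ => b1 y k) (fun y _ k _ => b2 y k)
    hnn (EL := 2 * κ / 4 ^ (m + j)) (E0 := (4 * κ + 4 * M ^ 2) / 4 ^ (m + j)) (by positivity)
    (by positivity) hEL hE0 hαβ (δ := β / 8 / 2 ^ (m + j)) (by positivity) (fun x hx => by
      have h5 := bds_close hκ.le rat hz aff vert edg hs hx
      have h6 : 2 * κ / 2 ^ (m + j) ≤ β / 8 / 2 ^ (m + j) := by
        gcongr
        linarith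
      have h7 : β / 4 / 2 ^ (m + j) = β / 8 / 2 ^ (m + j) + β / 8 / 2 ^ (m + j) := by ring
      linarith)
  have e1 : 64 * (√(2 * κ / 4 ^ (m + j)) * √((4 * κ + 4 * M ^ 2) / 4 ^ (m + j))) /
      (β / 2 / 2 ^ (m + j) - β / 4 / 2 ^ (m + j)) =
      256 * (√(2 * κ) * √(4 * κ + 4 * M ^ 2)) / β / 2 ^ (m + j) := by
    have h8 : √((4:ℝ) ^ (m + j)) = 2 ^ (m + j) := by
      rw [show (4:ℝ) ^ (m + j) = (2 ^ (m + j)) ^ 2 by
        rw [← pow_mul, mul_comm, pow_mul]; norm_num]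
      exact Real.sqrt_sq h2.le
    rw [Real.sqrt_div (by positivity), Real.sqrt_div (by positivity), h8]
    field_simp
    ring
  rw [e1] at main
  exact main

/-- **[NECKS-ALL]** -/
theorem exists_necks_all {θ M β σ K : ℝ} (hM : 0 < M) (hβ : 0 < β) (hβ1 : β ≤ 1) (hσ : 0 < σ)
    (hK : 0 < K) : ∃ κ₀ > 0, ∀ κ : ℝ, 0 < κ → κ ≤ κ₀ →
    ∀ {p : ℝ} {ε : ℝ≥0∞} {c₀ t₀ δ₀ : ℝ} {j : ℕ} {Ω Λ : Set V} {f : V → V} {F : V → Mat}
      {T : Set V} {v : V} {m : ℕ} (C : P2Cells p ε θ M κ c₀ t₀ δ₀ j Ω Λ f F T v m),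
    RatGood v Ω f F → IsOpen Ω → ContinuousOn f Ω → (∀ z ∈ C.J, dyc v m z ⊆ Ω) →
    ∀ nn : ℕ → ℕ, StrictMono nn →
    (∀ z ∈ C.J, ∀ s, Clean v m j z s → ∀ k, k ≠ s.2 → ∀ η : ℝ≥0∞, η ≠ 0 → ∀ᶠ l in atTop,
      fSum v s (nn l) k (fun x => ‖cl (F x) - C.L z‖ₑ ^ (2:ℝ)) ≤
        sInt v s (fun x => ‖cl (F x) - C.L z‖ₑ ^ (2:ℝ)) + η) →
    (∀ y, ∀ S : Finset ((Fin 3 → ℤ) × (Idx × Fin 3)), (∀ q ∈ S, q.1 ∈ C.J ∧
      Clean v m j q.1 q.2 ∧ ∃ x ∈ squ v q.2, ‖C.A q.1 x - y‖ ≤ 10 / 2 ^ (m + j)) →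
      (S.card : ℝ) ≤ K) →
    Nonempty (Necks θ M β σ f v m j C.J C.A) := by
  classical
  set σ' : ℝ := min σ β with hσ'
  have hσ'0 : 0 < σ' := lt_min hσ hβ
  have hσ'1 : σ' ≤ 1 := (min_le_right _ _).trans hβ1
  refine ⟨min (β / 16) (min (M ^ 2) ((σ' * β / (2048 * K * M)) ^ 2)), by positivity,
    fun κ hκ hκ0 => ?_⟩
  have hκβ : κ ≤ β / 16 := hκ0.trans (min_le_left _ _)
  have hκM : κ ≤ M ^ 2 := (hκ0.trans (min_le_right _ _)).trans (min_le_left _ _)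
  have hκK : κ ≤ (σ' * β / (2048 * K * M)) ^ 2 :=
    (hκ0.trans (min_le_right _ _)).trans (min_le_right _ _)
  have hsqrt : √κ ≤ σ' * β / (2048 * K * M) := by
    rw [Real.sqrt_le_left (by positivity)]
    exact hκK
  intro p ε c₀ t₀ δ₀ j Ω Λ f F T v m C rat hΩ hf hJΩ nn hnn gen hcount
  have h2 : (0:ℝ) < 2 ^ (m + j) := by positivity
  set Cst : ℝ := 256 * (√(2 * κ) * √(4 * κ + 4 * M ^ 2)) / β / 2 ^ (m + j) with hCst
  have hCst0 : 0 ≤ Cst := by positivity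
  have hKC : K * Cst ≤ σ' / 2 / 2 ^ (m + j) := by
    have a1 : √(4 * κ + 4 * M ^ 2) ≤ √8 * M := by
      rw [← Real.sqrt_sq hM.le, ← Real.sqrt_mul (by norm_num)]
      rw [Real.sqrt_sq hM.le]
      exact Real.sqrt_le_sqrt (by linarith)
    have a2 : √(2 * κ) = √2 * √κ := Real.sqrt_mul (by norm_num) _
    have a3 : √2 * √8 = 4 := by
      rw [← Real.sqrt_mul (by norm_num), show (2:ℝ) * 8 = 4 ^ 2 by norm_num,
        Real.sqrt_sq (by norm_num)]
    have a4 : √(2 * κ) * √(4 * κ + 4 * M ^ 2) ≤ 4 * M * √κ := by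
      calc √(2 * κ) * √(4 * κ + 4 * M ^ 2) ≤ (√2 * √κ) * (√8 * M) := by
            rw [a2]; gcongr
        _ = (√2 * √8) * (M * √κ) := by ring
        _ = 4 * M * √κ := by rw [a3]; ring
    rw [hCst]
    calc K * (256 * (√(2 * κ) * √(4 * κ + 4 * M ^ 2)) / β / 2 ^ (m + j)) ≤
        K * (256 * (4 * M * √κ) / β / 2 ^ (m + j)) := by gcongr
      _ ≤ K * (256 * (4 * M * (σ' * β / (2048 * K * M))) / β / 2 ^ (m + j)) := by gcongr
      _ = σ' / 2 / 2 ^ (m + j) := by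
        field_simp
        ring
  -- all clean squares
  set Sq : Finset ((Fin 3 → ℤ) × (Idx × Fin 3)) := (finite_clean v m j C.J).toFinset with hSq
  have hSqm : ∀ q, q ∈ Sq ↔ q.1 ∈ C.J ∧ Clean v m j q.1 q.2 := by
    intro q
    rw [hSq, Set.Finite.mem_toFinset]
    rfl
  have hev : ∀ᶠ l in atTop, ∀ q ∈ Sq, q.2.1.1 ≤ nn l ∧
      NecksAt v f (fun x => ‖f x - C.A q.1 x‖) q.2 (nn l)
      (β / 4 / 2 ^ (m + j)) (β / 2 / 2 ^ (m + j)) (β / 8 / 2 ^ (m + j)) Cst := by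
    rw [Filter.eventually_all_finset]
    intro q hq
    obtain ⟨hqJ, hqc⟩ := (hSqm q).1 hq
    refine necks_one hκ hβ hκβ rat hf (hJΩ _ hqJ) (C.aff _ hqJ) (C.above _ hqJ)
      (fun a ha => (C.vert _ hqJ a ha).2.1) (C.edge _ hqJ) hqc ?_ hnn (gen _ hqJ _ hqc)
    exact C.square _ hqJ _ hqc.1 (squ_sub_of_clean hqc)
  obtain ⟨l, hl⟩ := hev.exists
  set n := nn l with hn
  let Q := {q // q ∈ Sq}
  have key : ∀ q : Q, NecksAt v f (fun x => ‖f x - C.A q.1.1 x‖) q.1.2 n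
      (β / 4 / 2 ^ (m + j)) (β / 2 / 2 ^ (m + j)) (β / 8 / 2 ^ (m + j)) Cst := fun q =>
    (hl q.1 q.2).2
  have hqn : ∀ q : Q, q.1.2.1.1 ≤ n := fun q => (hl q.1 q.2).1
  choose t ht A hA r hrC hr0 hrx hmain using key
  -- points
  have hpt : ∀ (q : Q) (w : Fin 3 → ℤ), pt v n w ∈ bds v ((n, w), q.1.2.2) := fun q w =>
    mem_bds.2 ⟨pt_mem_squ v ((n, w), q.1.2.2), t1 q.1.2.2, t1_ne _, Or.inl rfl⟩
  have hsub : ∀ (q : Q), ∀ w ∈ A q, squ v ((n, w), q.1.2.2) ⊆ squ v q.1.2 := fun q w hw =>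
    squ_sub (hqn q) (hA q hw)
  have htt : ∀ q : Q, t q + β / 8 / 2 ^ (m + j) ≤ β / 2 ^ (m + j) := by
    intro q
    have h3 : β / 2 / 2 ^ (m + j) + β / 8 / 2 ^ (m + j) ≤ β / 2 ^ (m + j) := by
      have : 0 < β / 2 ^ (m + j) := by positivity
      have e1 : β / 2 / 2 ^ (m + j) = 1 / 2 * (β / 2 ^ (m + j)) := by ring
      have e2 : β / 8 / 2 ^ (m + j) = 1 / 8 * (β / 2 ^ (m + j)) := by ring
      rw [e1, e2]
      linarith
    linarith [(ht q).2]
  have hnear : ∀ (q : Q), ∀ w ∈ A q, ‖f (pt v n w) - C.A q.1.1 (pt v n w)‖ ≤ β / 2 ^ (m + j) := by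
    intro q w hw
    have h3 := (hrx q w hw _ (hpt q w)).2
    have h4 := (abs_le.1 h3).2
    linarith [htt q]
  -- the index set of all crossing squares
  set S : Finset (Σ _ : Q, (Fin 3 → ℤ)) := Finset.univ.sigma fun q => A q with hS
  have hSm : ∀ i, i ∈ S ↔ i.2 ∈ A i.1 := by
    intro i
    rw [hS, Finset.mem_sigma]
    exact ⟨fun h => h.2, fun h => ⟨Finset.mem_univ _, h⟩⟩
  set τ : ℝ := σ' / 2 / 2 ^ (m + j) / (S.card + 1) with hτ
  have hτ0 : 0 < τ := by positivity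
  set x : (Σ _ : Q, (Fin 3 → ℤ)) → V := fun i => f (pt v n i.2) with hx
  set r' : (Σ _ : Q, (Fin 3 → ℤ)) → ℝ := fun i => r i.1 i.2 + τ with hr'
  have hr'0 : ∀ i ∈ S, 0 ≤ r' i := fun i hi => by
    have := hr0 i.1 i.2 ((hSm i).1 hi)
    rw [hr']
    simp only
    linarith
  have hloc : ∀ y, ∑ i ∈ S with ‖x i - y‖ ≤ 9 / 2 ^ (m + j), r' i ≤ σ' / 2 ^ (m + j) := by
    intro y
    set near : Finset Q := Finset.univ.filter fun q => ∃ w ∈ A q,
      ‖f (pt v n w) - y‖ ≤ 9 / 2 ^ (m + j) with hnr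
    have c1 : ∑ i ∈ S with ‖x i - y‖ ≤ 9 / 2 ^ (m + j), r' i =
        ∑ i ∈ S with ‖x i - y‖ ≤ 9 / 2 ^ (m + j), r i.1 i.2 +
          ((S.filter fun i => ‖x i - y‖ ≤ 9 / 2 ^ (m + j)).card : ℝ) * τ := by
      rw [hr']
      simp only
      rw [Finset.sum_add_distrib, Finset.sum_const, nsmul_eq_mul]
    have c2 : ∑ i ∈ S with ‖x i - y‖ ≤ 9 / 2 ^ (m + j), r i.1 i.2 ≤
        ∑ i ∈ near.sigma fun q => A q, r i.1 i.2 := by
      refine Finset.sum_le_sum_of_subset_of_nonneg ?_ fun i hi _ => ?_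
      · intro i hi
        rw [Finset.mem_filter, hSm] at hi
        rw [Finset.mem_sigma, hnr, Finset.mem_filter]
        exact ⟨⟨Finset.mem_univ _, i.2, hi.1, hi.2⟩, hi.1⟩
      · exact hr0 _ _ (Finset.mem_sigma.1 hi).2
    have c3 : ∑ i ∈ near.sigma fun q => A q, r i.1 i.2 ≤ near.card * Cst := by
      rw [Finset.sum_sigma]
      calc ∑ q ∈ near, ∑ w ∈ A q, r q w ≤ ∑ _q ∈ near, Cst :=
            Finset.sum_le_sum fun q _ => hrC q
        _ = near.card * Cst := by rw [Finset.sum_const, nsmul_eq_mul]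
    have c4 : (near.card : ℝ) ≤ K := by
      have h5 := hcount y (near.map (Function.Embedding.subtype _)) (by
        intro q hq
        rw [Finset.mem_map] at hq
        obtain ⟨q', hq', rfl⟩ := hq
        rw [hnr, Finset.mem_filter] at hq'
        obtain ⟨-, w, hw, hwy⟩ := hq'
        obtain ⟨h6, h7⟩ := (hSqm q'.1).1 q'.2
        refine ⟨h6, h7, pt v n w, hsub q' w hw (bds_sub (hpt q' w)), ?_⟩
        have h8 := hnear q' w hw
        have h9 : ‖C.A q'.1.1 (pt v n w) - y‖ ≤ ‖f (pt v n w) - C.A q'.1.1 (pt v n w)‖ +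
            ‖f (pt v n w) - y‖ := by
          rw [norm_sub_rev (f (pt v n w)) (C.A q'.1.1 (pt v n w))]
          exact norm_sub_le_norm_sub_add_norm_sub _ _ _
        have h10 : β / 2 ^ (m + j) ≤ 1 / 2 ^ (m + j) := by gcongr
        have h11 : (10:ℝ) / 2 ^ (m + j) = 1 / 2 ^ (m + j) + 9 / 2 ^ (m + j) := by ring
        show ‖C.A q'.1.1 (pt v n w) - y‖ ≤ _
        linarith)
      rwa [Finset.card_map] at h5
    have c5 : ((S.filter fun i => ‖x i - y‖ ≤ 9 / 2 ^ (m + j)).card : ℝ) * τ ≤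
        σ' / 2 / 2 ^ (m + j) := by
      have h6 : ((S.filter fun i => ‖x i - y‖ ≤ 9 / 2 ^ (m + j)).card : ℝ) ≤ S.card + 1 := by
        have : (S.filter fun i => ‖x i - y‖ ≤ 9 / 2 ^ (m + j)).card ≤ S.card :=
          Finset.card_filter_le _ _
        have : ((S.filter fun i => ‖x i - y‖ ≤ 9 / 2 ^ (m + j)).card : ℝ) ≤ S.card := by
          exact_mod_cast this
        linarith
      calc _ ≤ ((S.card : ℝ) + 1) * τ := by gcongr
        _ = σ' / 2 / 2 ^ (m + j) := by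
          rw [hτ]
          field_simp
    have c6 : (near.card : ℝ) * Cst ≤ K * Cst := by gcongr
    have c7 : σ' / 2 ^ (m + j) = σ' / 2 / 2 ^ (m + j) + σ' / 2 / 2 ^ (m + j) := by ring
    rw [c1, c7]
    linarith
  obtain ⟨Jm, π, b, ρ, hClu, hdis⟩ := exists_merge S x r' hr'0 hloc (by
    have e1 : 2 * (σ' / 2 ^ (m + j)) = (2 * σ') / 2 ^ (m + j) := by ring
    rw [e1]
    gcongr
    linarith)
  set Jf := Jm.filter fun g => ∃ i ∈ S, π i = g with hJf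
  let γ := {g // g ∈ Jf}
  have hγJ : ∀ g : γ, g.1 ∈ Jm := fun g => (Finset.mem_filter.1 g.2).1
  have hbd : ∀ g g' : γ, g ≠ g' → Disjoint (closedBall (b g.1) (ρ g.1))
      (closedBall (b g'.1) (ρ g'.1)) := by
    intro g g' hne
    refine closedBall_disjoint_closedBall ?_
    rw [dist_eq_norm]
    exact hdis _ (hγJ g) _ (hγJ g') fun h => hne (Subtype.ext h)
  set W : γ → Set V := fun g => Ω ∩ f ⁻¹' ball (b g.1) (ρ g.1) with hW
  have hWo : ∀ g, IsOpen (W g) := fun g => hf.isOpen_inter_preimage hΩ isOpen_ball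
  have hWd : ∀ g g', g ≠ g' → Disjoint (W g) (W g') := by
    intro g g' hne
    rw [disjoint_left]
    rintro y ⟨-, h3⟩ ⟨-, h4⟩
    exact disjoint_left.1 (hbd g g' hne) (ball_subset_closedBall h3) (ball_subset_closedBall h4)
  have hcov : ∀ q : Q, ∀ w ∈ A q, ∃ g, bds v ((n, w), q.1.2.2) ⊆ W g := by
    intro q w hw
    have hi : (⟨q, w⟩ : Σ _ : Q, (Fin 3 → ℤ)) ∈ S := (hSm _).2 hw
    refine ⟨⟨π ⟨q, w⟩, Finset.mem_filter.2 ⟨hClu.mem _ hi, _, hi, rfl⟩⟩, fun y hy => ⟨?_, ?_⟩⟩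
    · have h3 := (hSqm q.1).1 q.2
      exact hJΩ _ h3.1 (squ_sub_of_clean h3.2 (hsub q w hw (bds_sub hy)))
    · have h3 := (hrx q w hw y hy).1
      have h4 := hClu.cov _ hi
      rw [mem_closedBall, dist_eq_norm] at h3
      show f y ∈ ball _ _
      rw [mem_ball, dist_eq_norm]
      have h5 : ‖f y - b (π ⟨q, w⟩)‖ ≤ ‖f y - f (pt v n w)‖ + ‖f (pt v n w) - b (π ⟨q, w⟩)‖ :=
        norm_sub_le_norm_sub_add_norm_sub _ _ _
      simp only [hx, hr'] at h4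
      linarith
  choose I hI D c hD1 hD2 hD3 hD4 hD5 hD6 hD7 hD8 using fun q : Q => hmain q γ W hWo hWd (hcov q)
  refine ⟨{
    ι := Σ q : Q, I q
    fin := by
      have : ∀ q : Q, Finite (I q) := hI
      infer_instance
    γ := γ
    ffin := inferInstance
    s := fun i => i.1.1.2
    D := fun i => D i.1 i.2
    c := fun i => c i.1 i.2
    b := fun g => b g.1
    ρ := fun g => ρ g.1
    clean := fun i => ⟨i.1.1.1, (hSqm _).1 i.1.2⟩
    ball := fun i => hD1 i.1 i.2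
    disj := ?_
    sub := fun i => hD3 i.1 i.2
    op := fun i => hD4 i.1 i.2
    circ := ?_
    close := ?_
    pos := ?_
    bdisj := hbd
    loc := ?_
    near := ?_ }⟩
  · rintro ⟨q, i⟩ ⟨q', i'⟩ hne
    by_cases hq : q = q'
    · subst hq
      exact hD2 q i i' fun h => hne (by rw [h])
    · have hss : q.1.2 ≠ q'.1.2 := by
        intro h
        apply hq
        obtain ⟨h3, h4⟩ := (hSqm _).1 q.2
        obtain ⟨h5, h6⟩ := (hSqm _).1 q'.2
        have h7 : q.1.1 = q'.1.1 := by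
          refine eq_of_dyc_sub h4.2.1 ?_
          rw [h]
          exact h6.2.1
        exact Subtype.ext (Prod.ext h7 h)
      refine (rel_disj ?_ hss).mono (hD3 q i) (hD3 q' i')
      rw [((hSqm _).1 q.2).2.1, ((hSqm _).1 q'.2).2.1]
  · rintro ⟨q, i⟩
    obtain ⟨g, hg⟩ := hD5 q i
    exact ⟨g, fun y hy => (hg hy).2⟩
  · intro z hz s hs y hy hyD
    set q : Q := ⟨(z, s), (hSqm _).2 ⟨hz, hs⟩⟩ with hq
    have h3 := hD6 q y hy fun i => hyD ⟨q, i⟩
    exact h3.le.trans (htt q)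
  · intro g
    obtain ⟨i, hi, hig⟩ := (Finset.mem_filter.1 g.2).2
    have h3 := hClu.cov i hi
    rw [hig] at h3
    have h4 := hr0 i.1 i.2 ((hSm i).1 hi)
    simp only [hr'] at h3
    have h5 := norm_nonneg (x i - b g.1)
    show 0 < ρ g.1
    linarith
  · intro y
    have h3 := hClu.loc hr'0 hloc (R' := 8 / 2 ^ (m + j)) (by
      have e1 : (8:ℝ) / 2 ^ (m + j) + σ' / 2 ^ (m + j) = (8 + σ') / 2 ^ (m + j) := by ring
      rw [e1]
      gcongr
      linarith) y ((Finset.univ.filter fun g : γ => ‖b g.1 - y‖ ≤ 8 / 2 ^ (m + j)).map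
        (Function.Embedding.subtype _)) (by
          intro g hg
          rw [Finset.mem_map] at hg
          obtain ⟨g', -, rfl⟩ := hg
          exact hγJ g') (by
          intro g hg
          rw [Finset.mem_map] at hg
          obtain ⟨g', hg', rfl⟩ := hg
          exact (Finset.mem_filter.1 hg').2)
    rw [Finset.sum_map] at h3
    refine h3.trans ?_
    gcongr
    exact min_le_left _ _
  · intro g
    obtain ⟨i, hi, hig⟩ := (Finset.mem_filter.1 g.2).2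
    have h3 := hClu.cov i hi
    rw [hig] at h3
    have hw := (hSm i).1 hi
    have h4 := hr0 i.1 i.2 hw
    have h5 := hClu.le _ (hγJ g)
    obtain ⟨h6, h7⟩ := (hSqm _).1 i.1.2
    refine ⟨i.1.1.1, h6, i.1.1.2, h7, pt v n i.2, hsub i.1 i.2 hw (bds_sub (hpt i.1 i.2)), ?_⟩
    have h8 := hnear i.1 i.2 hw
    have h9 : ‖b g.1 - C.A i.1.1.1 (pt v n i.2)‖ ≤ ‖b g.1 - f (pt v n i.2)‖ +
        ‖f (pt v n i.2) - C.A i.1.1.1 (pt v n i.2)‖ := norm_sub_le_norm_sub_add_norm_sub _ _ _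
    rw [norm_sub_rev (b g.1) (f (pt v n i.2))] at h9
    simp only [hx, hr'] at h3
    have h10 : σ' / 2 ^ (m + j) ≤ β / 2 ^ (m + j) := by
      gcongr
      exact min_le_right _ _
    have h11 : 2 * β / 2 ^ (m + j) = β / 2 ^ (m + j) + β / 2 ^ (m + j) := by ring
    show ‖b g.1 - C.A i.1.1.1 (pt v n i.2)‖ ≤ _
    linarith

end P073.H953
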