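import Vale.Agent.P073.H953.Bm4
import Vale.Agent.P073.H194.BackN

/-!
# P073: approximation in `W^{1,q}`, `2 < q < 3`, with uniform closeness and closeness zero at the
boundary: finite distortion
-/

namespace Vale.Agent.P073.H953

open Vale.Agent.P073

/-- **CA1**: `CloseFD q` for `2 < q < 3` -/
theorem closeFD {q : ℝ} (hq : 2 < q) (hq3 : q < 3) : H732.CloseFD q :=
  H194.closeFD_of (by linarith) hq3 fun _ _ _ _ hΩ hΛ hf hF hu hD =>
    H73.confaceN hq hq3 hΩ hΛ hf hF hu hD

end Vale.Agent.P073.H953
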