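import Vale.Agent.P073.H333.PreFinal

/-!
# P073, [G1]: the data `Pre` with variable closeness

Copies of `PDa.exists_net` and `exists_pd` with one more function `σ₀`: the conical homeomorphism is
`σ₀`-close to `f` outside of a compact set (the finitely many good cells).
-/

namespace Vale.Agent.P073.H333

open MeasureTheory Set Filter Topology Metric Vale.Agent.P073.St Vale.Agent.P073.AB
open Vale.Agent.P073.SQ (ev)
open _root_.P073 (ConHomeo)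
open _root_.P073.Net (dyc dyo IsTile SizeFn len)
open Vale.Agent.P073.H73 (MinEdge Bix ctr WLe segP onSeg)
open Vale.Agent.P073.H194 (refine Big wH zo so co MeshOut bInt Oc cellT Bk GoodC idx)
open Vale.Agent.P073.H471 (wgt)
open Vale.Agent.P073.H83 (CellsG gB grho GenB)
open scoped ENNReal

namespace PDa

variable {p ε δ : ℝ} {CC : ℝ≥0∞} {Cf : ℝ → ℝ → ℝ} {Kf : ℝ → ℝ → ℕ → ℕ}
  {κf : ℝ → ℝ → ℕ → ℝ} {Ω Λ : Set V} {f : V → V} {F : V → Mat}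

theorem exists_netV (D : PDa p ε δ CC Cf Kf κf Ω Λ f F) (hN : NetW Cf Kf κf) (hp : 2 < p)
    (hε : 0 < ε) (hΩ : St.IsBoundedDomain Ω) (hΛ : St.IsBoundedDomain Λ) (hf : St.IsHomeo Ω Λ f)
    {m' : ℕ} {c : ℕ → (Fin 3 → ℤ) → V} (R : MeshPD D m' c) {σ₀ : V → ℝ}
    (hσ₀ : ContinuousOn σ₀ Ω) (hσ₀0 : ∀ x ∈ Ω, 0 < σ₀ x) :
    ∃ T : NetPD D m' c R.Bg R.nf R.τ, ∀ x ∈ Ω, T.σ x ≤ σ₀ x := by
  have hβ := D.β0
  have href : H669.Ref Ω D.v D.n D.k₁ (Kf D.θ D.M D.k₁) D.J R.Bg R.nf :=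
    { fine := D.fine
      big := R.mesh.big
      lt := fun b hb q hq h => R.mesh.lt b hb q (by
        have := D.fine.diff_eq
        show q ∈ base Ω D.v D.n D.k₁ (Kf D.θ D.M D.k₁) D.J \
          (lay D.v D.n D.k₁ (Kf D.θ D.M D.k₁) D.J ∪ gap D.v D.n D.k₁ D.J)
        rw [this]; exact hq) (h.trans P86.dyo_sub_dyc) }
  have hpartb : Part Ω D.v (D.pd0 m' c).Ib := D.fine.part_base
  obtain ⟨σ, hσc, hσ0, hσε, hστ⟩ := exists_gauge hΩ.1
    (J := (D.pd0 m' c).Ib \ (D.pd0 m' c).P)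
    (fun K hK hKc => (hpartb.fin K hK hKc).subset fun q hq => ⟨hq.1.1, hq.2⟩)
    (σ := fun x => min ε (σ₀ x)) (fun x hx => Filter.Tendsto.min tendsto_const_nhds (hσ₀ x hx))
    (fun x hx => lt_min hε (hσ₀0 x hx)) (a := R.τ) fun q _ => R.τ0 q
  set w : Idx × Fin 3 → ℝ := fun e => (D.pd0 m' c).wst e with hw
  have hw0 : ∀ e, 0 ≤ w e := fun e => ENNReal.toReal_nonneg
  set δe : Idx × Fin 3 → ℝ := fun e =>
    min (1 / 2 ^ e.1.1) (D.β / 2 ^ e.1.1 / (2 * (w e + 1))) with hδe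
  have hδ0 : ∀ e, 0 < δe e := fun e => by
    have := hw0 e
    exact lt_min (by positivity) (by positivity)
  obtain ⟨h, hnet⟩ := hN Ω Λ f F D.v (tiles Ω (D.n + D.k₁ + Kf D.θ D.M D.k₁) D.v)
    ((D.pd0 m' c).In R.Bg R.nf) (D.pd0 m' c).Jc (fun _ => D.θ) (fun _ => D.M) (fun _ => D.k₁)
    (fun q => D.A q.2) (fun q => D.L q.2) σ δe hΩ hΛ hf D.fine.part (href.part_inet hΩ.1)
    D.gen.rat
    (by
      rintro e ⟨q, hq, he⟩
      exact efin_of (by linarith) D.gen ((Gr.edge_subset_dyc he).trans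
        ((href.part_inet hΩ.1).sub q hq)))
    (fun _ _ => ⟨D.H.θ0, D.M0, D.H.three_le⟩)
    (by
      rintro ⟨a, z⟩ ⟨ha, hz⟩ ⟨a', z'⟩ ⟨ha', hz'⟩ hne
      have ha : a = D.n := ha
      have ha' : a' = D.n := ha'
      subst ha ha'
      have hzz : z' ≠ z := fun h => hne (by rw [h])
      exact (H669.dyo_dyc_disj hzz.symm).symm.mono_right P86.dyo_sub_dyc |>.symm)
    (by
      rintro ⟨a, z⟩ ⟨ha, hz⟩
      have ha : a = D.n := ha
      subst ha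
      exact (D.cell z hz).mono (min_le_left _ _))
    (by
      rintro ⟨a, z⟩ ⟨ha, hz⟩ r hr hs
      have ha : a = D.n := ha
      subst ha
      exact Or.inl ⟨hr, z, hz, hs⟩)
    hσc hσ0 hδ0
  refine ⟨⟨h, σ, δe, fun x hx => (hσε x hx).trans (min_le_left _ _), ?_, hδ0,
    fun e => min_le_left _ _, fun e => ?_, hnet⟩, fun x hx => (hσε x hx).trans (min_le_right _ _)⟩
  · intro q hq x hx
    exact hστ q hq x (hpartb.sub q hq.1 hx) hx
  · have h1 := hw0 e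
    have h2 : δe e ≤ D.β / 2 ^ e.1.1 / (2 * (w e + 1)) := min_le_right _ _
    calc w e * (2 * δe e) ≤ w e * (2 * (D.β / 2 ^ e.1.1 / (2 * (w e + 1)))) := by gcongr
      _ = w e / (w e + 1) * (D.β / 2 ^ e.1.1) := by field_simp
      _ ≤ 1 * (D.β / 2 ^ e.1.1) := by
          gcongr
          rw [div_le_one (by positivity)]
          linarith
      _ = _ := one_mul _

end PDa


/-- the data exist, variable closeness -/
theorem exists_pdV {p : ℝ} (hN : NetIn2) (hC : SpecCtrs p) (hS : SpecFill) (hp : 2 < p)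
    (hp3 : p < 3) {Ω Λ : Set V} {f : V → V} {F : V → Mat} (hΩ : St.IsBoundedDomain Ω)
    (hΛ : St.IsBoundedDomain Λ) (hf : St.IsHomeo Ω Λ f) (hF : St.IsSobolev p Ω f F)
    (hFD : FinDist Ω F) {ε δ : ℝ} (hε : 0 < ε) (hδ : 0 < δ)
    (Φ : ℕ → Finset (Fin 3 → ℤ) → ((Fin 3 → ℤ) → V → V) → ℝ) {σ₀ : V → ℝ}
    (hσ₀ : ContinuousOn σ₀ Ω) (hσ₀0 : ∀ x ∈ Ω, 0 < σ₀ x) :
    ∃ D : PD p ε δ Φ Ω Λ f F, ∀ x ∈ Ω, D.σ x ≤ σ₀ x := by
  obtain ⟨Cf, Kf, κf, hCf, hκf, hNet⟩ := netW_of hN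
  obtain ⟨CC, hCC, hCt⟩ := ctrsW_of hC
  obtain ⟨D⟩ := exists_pda hp hε hδ hCC Kf hCf hκf hΩ hΛ hf hF hFD
  -- the first layer of tiles
  obtain ⟨m', hm'1, hm'2⟩ := ((ev_div_le (Φ D.N D.J D.A * ((gB D.H (D.n + D.ks + D.kt)).card *
    (6 * (9 / D.θ * (2 / 2 ^ D.n) ^ 2)))) hε).and
    (eventually_ge_atTop (D.n + D.ks + D.kt))).exists
  obtain ⟨c, hmid, hfar, hgood, hint⟩ := D.exists_c hΩ hΛ hf hS hCt hm'2
  obtain ⟨R⟩ := D.exists_mesh hp hδ hΛ hf hm'2 hmid hgood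
  obtain ⟨T, hT⟩ := D.exists_netV hNet hp hε hΩ hΛ hf R hσ₀ hσ₀0
  exact ⟨{
    toPD0 := D.pd0 m' c
    bΩ := hΩ, bΛ := hΛ, hf := hf, hF := hF, hp := hp, hp3 := hp3, hε := hε, hδ := hδ
    M0 := D.M0
    C0 := hCf _ _
    κ0 := kap_pos hCf hκf D.H.θ0 _
    κC := (min_le_right _ _).trans (min_le_right _ _)
    a0 := D.a0
    a1 := D.a1
    β0 := D.β0
    m2 := D.m2
    nm := Nat.le_add_right _ _
    mmt := Nat.add_le_add_left D.kt2 _
    mtm := hm'2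
    nr := R.nr
    mnr := R.mnr
    η1 := by
      have h1 := D.η1
      have hn : (0:ℝ) < 1 / 2 ^ D.n := by positivity
      have h2 := mul_le_mul_of_nonneg_right h1 hn.le
      show Cf D.θ D.M / 2 ^ (D.n + D.k₁) ≤ D.a₁ / 2 ^ (D.n + D.ks) / 2
      rw [pow_add, pow_add]
      refine le_trans (le_of_eq ?_) (h2.trans (le_of_eq ?_)) <;> ring
    η2 := by
      have h1 := D.η2
      have hn : (0:ℝ) < 1 / 2 ^ D.n := by positivity
      have h2 := mul_le_mul_of_nonneg_right h1 hn.le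
      show 2 * (Cf D.θ D.M / 2 ^ (D.n + D.k₁)) + D.M * (1 / 2 ^ (D.n + D.k₁)) ≤
        δ * (D.a₁ / 2 ^ (D.n + D.ks) / 2)
      rw [pow_add, pow_add]
      refine le_trans (le_of_eq ?_) (h2.trans (le_of_eq ?_)) <;> ring
    η3 := D.η3
    η4 := D.η4
    r1 := R.r1, r2 := R.r2, r3 := R.r3, r4 := R.r4, r5 := R.r5, r6 := R.r6
    aff := D.aff
    fine := D.fine
    N := D.N
    dyL := D.dyL
    dyA := D.dyA
    εc := D.εc
    es1 := D.es1
    es2 := D.es2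
    εf := D.ef
    fill := D.fill hS
    Gm := D.Gm
    Gfin := D.Gfin
    rat := D.gen.rat
    efin := fun e he => efin_of (by linarith) D.gen he
    rep := D.gen.rep
    own := D.own
    surf := D.surf
    mid := hmid
    far := hfar
    Bg := R.Bg
    nf := R.nf
    τ := R.τ
    τ0 := R.τ0
    e := R.e
    mesh := R.mesh
    εe := D.εe
    esum := R.esum
    εI := CC * (D.εc + ENNReal.ofReal D.M ^ p * D.ef)
    int := hint
    h := T.h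
    σ := T.σ
    δe := T.δe
    σε := T.σε
    στ := T.στ
    δ0 := T.δ0
    δ1 := T.δ1
    δ2 := T.δ2
    net := T.net
    K := D.K
    Ksub := D.Ksub
    Kc := D.Kc
    Kvol := D.Kvol
    osc := D.osc
    b1 := D.c1
    b2 := D.bud2 hε
    b3 := D.bud3
    b4 := by
      refine le_trans (le_of_eq ?_) hm'1
      show Φ D.N D.J D.A * ((gB D.H (D.n + D.ks + D.kt)).card *
        (6 * (9 / D.θ * (2 / 2 ^ D.n) ^ 2 * (1 / 2 ^ m')))) = _
      ring }, hT⟩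

/-- the data of the face theorem, with variable closeness -/
theorem exists_preV (hN : NetIn2) {p : ℝ} (hp : 2 < p) (hp3 : p < 3)
    {Ω Λ : Set V} {f : V → V} {F : V → Mat} (hΩ : St.IsBoundedDomain Ω)
    (hΛ : St.IsBoundedDomain Λ) (hf : St.IsHomeo Ω Λ f) (hF : St.IsSobolev p Ω f F)
    (hFD : FinDist Ω F) {ε δ : ℝ} (hε : 0 < ε) (hδ : 0 < δ)
    (Φ : ℕ → Finset (Fin 3 → ℤ) → ((Fin 3 → ℤ) → V → V) → ℝ) {σ₀ : V → ℝ}
    (hσ₀ : ContinuousOn σ₀ Ω) (hσ₀0 : ∀ x ∈ Ω, 0 < σ₀ x) :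
    ∃ P : H73.Pre p ε δ 16 Φ Ω Λ f F, ∃ K ⊆ Ω, IsCompact K ∧
      ∀ x ∈ Ω, x ∉ K → ‖P.h.toFun x - f x‖ ≤ σ₀ x := by
  obtain ⟨D, hD⟩ := exists_pdV hN (H622.specCtrs hp hp3) specFill hp hp3 hΩ hΛ hf hF hFD hε hδ Φ
    hσ₀ hσ₀0
  refine ⟨D.pre, ⋃ z ∈ D.J, dyc D.v D.n z, ?_, ?_, ?_⟩
  · refine iUnion₂_subset fun z hz => ?_
    exact D.H.sub z hz
  · exact D.J.isCompact_biUnion fun z _ => P86.isCompact_dyc _ _ _
  · intro x hx hxK
    refine (D.net.off x hx ?_).trans (hD x hx)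
    rintro ⟨n', z⟩ ⟨hn, hz⟩ hxi
    have hn' : n' = D.n := hn
    subst hn'
    exact hxK (mem_iUnion₂.2 ⟨z, hz, interior_subset hxi⟩)

end Vale.Agent.P073.H333
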