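import Vale.Agent.P073.H953.Bm2
import Vale.Agent.P073.H953.Fill
import Vale.Agent.P073.H73.PostC2
import Vale.Agent.P073.H83.SqRel

/-!
# P073: face theorem with closeness at all points, and closeness zero at the boundary

`ConFaceN` = `ConFace` with closeness at all points of the cells and of the protected set, and
closeness tending to zero at the boundary of `Ω`.
-/

namespace Vale.Agent.P073.H73

open MeasureTheory Set Filter Topology Metric Vale.Agent.P073.St Vale.Agent.P073.AB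
open Vale.Agent.P073.SQ (ev cube Cells)
open Vale.Agent.P073.AB.P86 (sc rel cen cells)
open _root_.P073 (ConHomeo)
open _root_.P073.Net (dyc dyo IsTile SizeFn)
open scoped ENNReal

/-- `ConFace` with closeness at all points, tending to zero at the boundary. -/
def ConFaceN (p ε : ℝ) (Ω Λ : Set V) (f : V → V) (F : V → Mat) : Prop :=
  ∃ (R : Set V) (W : Cells Ω R) (h : ConHomeo Ω Λ), (∀ q, q ∈ W.ctrl) ∧ MeasurableSet R ∧
    R ⊆ Ω ∧
    ∑ j, ∫⁻ x in R, ENNReal.ofReal (‖fderiv ℝ h.toFun x (ev j) - cl (F x) (ev j)‖ ^ p) ≤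
      ENNReal.ofReal ε ∧
    ∑' i, enL W p h.toFun i ≤ ENNReal.ofReal ε ∧
    ∑ j, ∫⁻ x in Ω \ R, ENNReal.ofReal (‖cl (F x) (ev j)‖ ^ p) ≤ ENNReal.ofReal ε ∧
    (∀ x ∈ R, ‖h.toFun x - f x‖ ≤ ε) ∧
    (∀ i, ∀ x ∈ cube (W.c i) (W.ρ i), ∀ y ∈ cube (W.c i) (W.ρ i), ‖h.toFun y - f x‖ ≤ ε) ∧
    ∀ η > 0, ∃ K ⊆ Ω, IsCompact K ∧ R ⊆ K ∧ ∀ i, cube (W.c i) (W.ρ i) ⊆ K ∨
      ∀ x ∈ cube (W.c i) (W.ρ i), ∀ y ∈ cube (W.c i) (W.ρ i), ‖h.toFun y - f x‖ ≤ η

/-- only finitely many cubes of a partition of a bounded set are large -/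
theorem part_fin_big {Ω : Set V} {v : V} {I : Set Idx} (hΩ : St.IsBoundedDomain Ω)
    (hI : Part Ω v I) {r : ℝ} (hr : 0 < r) : {q | q ∈ I ∧ r ≤ 1 / 2 ^ q.1}.Finite := by
  have hΩt : volume Ω ≠ ⊤ := PK.volume_ne_top_of_domain hΩ
  have h0 : (0 : ℝ≥0∞) < ENNReal.ofReal (r ^ 3) := ENNReal.ofReal_pos.2 (by positivity)
  have ho : ∀ q : Idx, IsOpen (dyo v q.1 q.2) := fun q => _root_.P073.H953.isOpen_dyo v q.1 q.2
  have h1 := Measure.finite_const_le_meas_of_disjoint_iUnion (μ := (volume : Measure V))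
    (As := fun i : {q : Idx // q ∈ I} => dyo v i.1.1 i.1.2) h0
    (fun i => (ho i.1).measurableSet) (fun i j hij =>
      (hI.disj i.1 i.2 j.1 j.2 fun h => hij (Subtype.ext h)).mono_right P86.dyo_sub_dyc)
    (ne_top_of_le_ne_top hΩt (measure_mono (iUnion_subset fun i =>
      P86.dyo_sub_dyc.trans (hI.sub i.1 i.2))))
  refine (h1.image Subtype.val).subset ?_
  rintro q ⟨hq, hrq⟩
  refine ⟨⟨q, hq⟩, ?_, rfl⟩
  show ENNReal.ofReal (r ^ 3) ≤ volume (dyo v q.1 q.2)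
  rw [S308.volume_dyo]
  apply ENNReal.ofReal_le_ofReal
  have h8 : (8:ℝ) ^ q.1 = (2 ^ q.1) ^ 3 := by
    rw [← pow_mul, mul_comm, pow_mul]; norm_num
  calc r ^ 3 ≤ (1 / 2 ^ q.1) ^ 3 := pow_le_pow_left₀ hr.le hrq 3
    _ = 1 / 8 ^ q.1 := by rw [h8, div_pow, one_pow]

/-- the deep points of an open set form a compact set -/
theorem isCompact_deep {Ω : Set V} (hb : Bornology.IsBounded Ω) {r : ℝ} (hr : 0 < r) : {x | r ≤ infDist x Ωᶜ} ⊆ Ω ∧ IsCompact {x | r ≤ infDist x Ωᶜ} := by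
  have hsub : {x | r ≤ infDist x Ωᶜ} ⊆ Ω := by
    intro x hx
    by_contra hcon
    have h1 : infDist x Ωᶜ = 0 := infDist_zero_of_mem hcon
    have h2 : r ≤ infDist x Ωᶜ := hx
    rw [h1] at h2
    linarith
  exact ⟨hsub, Metric.isCompact_of_isClosed_isBounded
    (isClosed_le continuous_const (continuous_infDist_pt _)) (hb.subset hsub)⟩

theorem size_le_infDist {Λ : Set V} {ρ : V → ℝ} (h : SizeFn Λ ρ) (hne : Λᶜ.Nonempty) (y : V) :
    ρ y ≤ infDist y Λᶜ := by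
  refine (le_infDist hne).2 fun z hz => ?_
  have h1 := h.lip y z
  have h2 := h.off z hz
  rw [dist_eq_norm]
  linarith

theorem compl_nonempty_of_bdd {Ω : Set V} (hb : Bornology.IsBounded Ω) : Ωᶜ.Nonempty := by
  by_contra h
  rw [not_nonempty_iff_eq_empty, compl_empty_iff] at h
  rw [h] at hb
  exact NormedSpace.unbounded_univ ℝ V hb

section

variable {p ε δ : ℝ} {Φ : ℕ → Finset (Fin 3 → ℤ) → ((Fin 3 → ℤ) → V → V) → ℝ}
  {Ω Λ : Set V} {f : V → V} {F : V → Mat} (P : Pre p ε δ 16 Φ Ω Λ f F)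

/-- **The conclusion** for given data, with closeness. -/
theorem Pre.conFaceN (hp : 1 ≤ p) (hε : 0 < ε) (hΩ : St.IsBoundedDomain Ω)
    (hΛ : St.IsBoundedDomain Λ) {CT : ℝ} (CM : CutMesh P.geo CT)
    {D : ℝ} {C : ℝ → ℝ} (hK : K2Ain p D C δ) (hade : SpecAde) {C₃ : ℝ}
    (hlay : Layin C₃) {T T' : ℝ} (hT1 : 1 ≤ T) (hT : ∀ z ∈ P.J, ∀ w, ‖P.L z w‖ ≤ T * ‖w‖)
    (hT1' : 1 ≤ T') (hT' : ∀ z ∈ P.J, ∀ w, ‖w‖ ≤ T' * ‖P.L z w‖)
    (hΦ : 12 * (max (max (max (C 1) (C CT)) 1 * (32 * T + 1))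
            (|C₃| * (max (max (C 1) (C CT)) 1 * (32 * T + 1) * T') * T)) ^ p +
        3 * 2 ^ (p - 1) * T ^ p ≤ Φ P.N P.J P.A) {ω : ℝ} (hω : 0 ≤ ω)
    (hsize : ∀ q ∈ P.I, (1:ℝ) / 2 ^ q.1 ≤ ε)
    (hosc : ∀ x ∈ Ω, ∀ y ∈ Ω, ‖x - y‖ ≤ ε → ‖f x - f y‖ ≤ ω) (hu : UniformContinuousOn f Ω)
    {K₀ : Set V} (hK₀ : K₀ ⊆ Ω) (hK₀c : IsCompact K₀)
    (hcl : ∀ x ∈ Ω, x ∉ K₀ → ‖P.h.toFun x - f x‖ ≤ infDist x Ωᶜ) :
    ConFaceN p (((|D| + 1) * 2 ^ (p - 1) + |D| + 5) * ε + ω) Ω Λ f F := by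
  have hp0 : 0 ≤ p := by linarith
  set K₁ : ℝ := max (max (C 1) (C CT)) 1 * (32 * T + 1) with hK₁
  have hK₁1 : 1 ≤ K₁ := by
    have h1 : (1:ℝ) ≤ max (max (C 1) (C CT)) 1 := le_max_right _ _
    nlinarith
  set Kc : ℝ := max K₁ (|C₃| * (K₁ * T') * T) with hKc
  have hKc0 : 0 ≤ Kc := by linarith [le_max_left K₁ (|C₃| * (K₁ * T') * T)]
  -- the zone
  have hZ : ENNReal.ofReal (12 * Kc ^ p + 3 * 2 ^ (p - 1) * T ^ p) * volume P.zoneZ ≤
      ENNReal.ofReal ε := le_trans (mul_le_mul' (ENNReal.ofReal_le_ofReal hΦ) le_rfl) P.cut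
  have h2E : (2 : ℝ≥0∞) ^ (p - 1) = ENNReal.ofReal (2 ^ (p - 1)) := by
    rw [← ENNReal.ofReal_rpow_of_pos (by norm_num)]
    simp
  have h2pos : (0 : ℝ) < 2 ^ (p - 1) := by positivity
  have hZ1 : 12 * ENNReal.ofReal (Kc ^ p) * volume P.zoneZ ≤ ENNReal.ofReal ε := by
    refine le_trans ?_ hZ
    gcongr
    rw [show (12 : ℝ≥0∞) = ENNReal.ofReal 12 by simp, ← ENNReal.ofReal_mul (by norm_num)]
    apply ENNReal.ofReal_le_ofReal
    have : 0 ≤ 3 * 2 ^ (p - 1) * T ^ p := by positivity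
    linarith
  have hZ2 : 3 * 2 ^ (p - 1) * ENNReal.ofReal (T ^ p) * volume P.zoneZ ≤ ENNReal.ofReal ε := by
    refine le_trans ?_ hZ
    gcongr
    rw [show (3 : ℝ≥0∞) = ENNReal.ofReal 3 by simp, h2E, ← ENNReal.ofReal_mul (by norm_num),
      ← ENNReal.ofReal_mul (by positivity)]
    apply ENNReal.ofReal_le_ofReal
    have : 0 ≤ 12 * Kc ^ p := by positivity
    linarith
  -- the errors
  obtain ⟨τ, hτ0, hτ⟩ := ENNReal.exists_pos_sum_of_countable'
    (ε := ENNReal.ofReal ε) (by simpa using hε) (Idx × (Idx × Fin 3))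
  obtain ⟨g, hfar, hnear, hdeep, hclose, hbd⟩ := P.exists_mapV CM hp hΩ hΛ hK hade hlay hT1 hT
    hT1' hT'
    (τ := fun a => ENNReal.ofReal (1 / 2 / 2 ^ a.2.1.1 / (1 / 2 / 2 ^ a.1.1)) * τ a)
    (fun a => mul_ne_zero (by
      have : (0:ℝ) < 1 / 2 / 2 ^ a.2.1.1 / (1 / 2 / 2 ^ a.1.1) := by positivity
      simpa using this) (hτ0 a).ne')
  have hsum := P.sum_enL hp hΩ.1 g.toFun hKc0 (τ := τ) hfar hnear _ rfl
  set W : Cells Ω (⋃ q ∈ P.keep, dyc P.v q.1 q.2) := { cells hΩ.1 P.part P.keep_sub with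
      ctrl := univ
      unc := fun q h => absurd (mem_univ q) h } with hW
  have hD0 : 0 ≤ |D| := abs_nonneg D
  have e0 : 0 ≤ (|D| + 1) * 2 ^ (p - 1) * ε := by positivity
  -- in a cube
  have hcell : ∀ q ∈ P.I, ∀ x ∈ dyc P.v q.1 q.2, ∀ y ∈ dyc P.v q.1 q.2,
      ‖x - y‖ ≤ 1 / 2 ^ q.1 := fun q _ x hx y hy => by
      rw [pi_norm_le_iff_of_nonneg (by positivity)]
      intro k
      obtain ⟨h1, h2⟩ := hx k
      obtain ⟨h3, h4⟩ := hy k
      rw [add_div, ← add_assoc] at h2 h4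
      rw [Real.norm_eq_abs, abs_le, Pi.sub_apply]
      constructor <;> linarith
  have hfill : ∀ q ∈ P.I, ∀ x ∈ dyc P.v q.1 q.2, ∀ c : ℝ,
      (∀ s, MinSq P.v P.I s → squ P.v s ⊆ dyc P.v q.1 q.2 → ∀ z ∈ squ P.v s,
        ‖g.toFun z - f x‖ ≤ c) → ∀ y ∈ dyc P.v q.1 q.2, ‖g.toFun y - f x‖ ≤ c := by
    intro q hq x hx c hc y hy
    have h1 : g.toFun '' frontier (dyc P.v q.1 q.2) ⊆ closedBall (f x) c := by
      rintro _ ⟨z, hz, rfl⟩
      obtain ⟨hz1, l, hl⟩ := Vale.Agent.P073.H83.frontier_dyc hz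
      obtain ⟨s, hs, hzs, hsq⟩ := P86.bd_cover hΩ.1 P.part hq hz1 hl
      rw [mem_closedBall, dist_eq_norm]
      exact hc s hs hsq z hzs
    have h2 := _root_.P073.H953.fill_dyc hΛ.1 g (P.part.sub q hq) h1 (mem_image_of_mem _ hy)
    rwa [mem_closedBall, dist_eq_norm] at h2
  refine ⟨P.R, W, g, fun q => mem_univ q, P.measurableSet_R, P.R_sub, ?_, ?_, ?_, ?_, ?_, ?_⟩
  · refine (P.on_R hdeep).trans (ENNReal.ofReal_le_ofReal ?_)
    have : 0 ≤ (|D| + 1) * 2 ^ (p - 1) := by positivity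
    nlinarith
  · refine (hsum.trans (add_le_add (add_le_add le_rfl hτ.le) hZ1)).trans ?_
    rw [h2E, ← ENNReal.ofReal_mul hD0, ← ENNReal.ofReal_mul (by positivity),
      ← ENNReal.ofReal_add (by positivity) hε.le, ← ENNReal.ofReal_add (by positivity) hε.le]
    apply ENNReal.ofReal_le_ofReal
    nlinarith
  · refine (P.off_R hp (by linarith) hT).trans ?_
    refine (add_le_add le_rfl hZ2).trans ?_
    rw [h2E, ← ENNReal.ofReal_mul (by positivity), ← ENNReal.ofReal_add hε.le (by positivity),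
      ← ENNReal.ofReal_add (by positivity) hε.le]
    apply ENNReal.ofReal_le_ofReal
    nlinarith [mul_nonneg hD0 h2pos.le]
  · rintro x hxR
    obtain ⟨b, hb, hD⟩ := P.R_deep hxR
    rw [hdeep b hb x hD.1 hD.2]
    have h1 : P.h.toFun x = P.A b.1 x := Geo.h_cell (G := P.geo) hb hD.1
    rw [← h1]
    refine (P.near x (P.R_sub hxR)).trans ?_
    have : 0 ≤ (|D| + 1) * 2 ^ (p - 1) := by positivity
    nlinarith
  · intro i x hx y hy
    have hx' : x ∈ dyc P.v i.1.1 i.1.2 := by rw [← P86.cube_eq]; exact hx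
    have hy' : y ∈ dyc P.v i.1.1 i.1.2 := by rw [← P86.cube_eq]; exact hy
    refine hfill i.1 i.2.1 x hx' _ (fun s hs hsq z hz => ?_) y hy'
    have hzΩ := P.part.sub i.1 i.2.1 (hsq hz)
    have e1 := hclose s hs z hz
    have e2 := P.near z hzΩ
    have e3 := hosc z hzΩ x (P.part.sub i.1 i.2.1 hx')
      ((hcell i.1 i.2.1 z (hsq hz) x hx').trans (hsize i.1 i.2.1))
    have e4 := norm_sub_le_norm_sub_add_norm_sub (g.toFun z) (P.h.toFun z) (f x)
    have e5 := norm_sub_le_norm_sub_add_norm_sub (P.h.toFun z) (f z) (f x)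
    have e6 : max |D| 1 ≤ |D| + 1 := max_le (by linarith) (by linarith)
    have e7 : max |D| 1 * ε ≤ (|D| + 1) * ε := by gcongr
    nlinarith
  · -- near the boundary
    intro η hη
    have hΩb := PK.isBounded_of_domain hΩ
    have hΛb := PK.isBounded_of_domain hΛ
    have hΛne := compl_nonempty_of_bdd hΛb
    obtain ⟨r, hr, hrf⟩ := Metric.uniformContinuousOn_iff.1 hu (η / 4) (by positivity)
    set κ : ℝ := η / 4 / (|D| + 1) with hκ
    have hκ0 : 0 < κ := by positivity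
    have hdΩ := isCompact_deep hΩb (show 0 < η / 4 by positivity)
    have hdΛ := isCompact_deep hΛb hκ0
    set K₂ : Set V := K₀ ∪ (⋃ b ∈ P.B, b.cell P.A) ∪ {x | η / 4 ≤ infDist x Ωᶜ} ∪
      P.h.invFun '' {y | κ ≤ infDist y Λᶜ} with hK₂
    have hK₂c : IsCompact K₂ := by
      refine ((hK₀c.union (P.B.finite_toSet.isCompact_biUnion fun b hb =>
        Geo.isCompact_cell (G := P.geo) hb)).union hdΩ.2).union ?_
      exact hdΛ.2.image_of_continuousOn (P.h.cont_inv.mono hdΛ.1)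
    have hK₂s : K₂ ⊆ Ω := by
      refine union_subset (union_subset (union_subset hK₀ ?_) hdΩ.1) ?_
      · exact iUnion₂_subset fun b hb => Geo.cell_sub (G := P.geo) hb
      · rintro _ ⟨y, hy, rfl⟩
        exact P.h.mapsTo_inv (hdΛ.1 hy)
    -- the bad cells
    set B₁ : Set Idx := {q | q ∈ P.I ∧ (dyc P.v q.1 q.2 ∩ K₂).Nonempty} ∪
      {q | q ∈ P.I ∧ r ≤ 1 / 2 ^ q.1} with hB₁
    have hB₁f : B₁.Finite := (P.part.fin K₂ hK₂s hK₂c).union (part_fin_big hΩ P.part hr)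
    have hB₁I : ∀ q ∈ B₁, q ∈ P.I := by
      rintro q (hq | hq)
      · exact hq.1
      · exact hq.1
    refine ⟨(⋃ q ∈ B₁, dyc P.v q.1 q.2) ∪ K₂, union_subset (iUnion₂_subset fun q hq =>
      P.part.sub q (hB₁I q hq)) hK₂s, (hB₁f.isCompact_biUnion fun q _ =>
        P86.isCompact_dyc _ _ _).union hK₂c, ?_, ?_⟩
    · intro x hx
      obtain ⟨b, hb, hD⟩ := P.R_deep hx
      exact Or.inr (Or.inl (Or.inl (Or.inr (mem_iUnion₂.2 ⟨b, hb, hD.1⟩))))
    · intro i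
      by_cases hiB : i.1 ∈ B₁
      · left
        intro x hx
        have hx' : x ∈ dyc P.v i.1.1 i.1.2 := by rw [← P86.cube_eq]; exact hx
        exact Or.inl (mem_iUnion₂.2 ⟨i.1, hiB, hx'⟩)
      · right
        intro x hx y hy
        have hx' : x ∈ dyc P.v i.1.1 i.1.2 := by rw [← P86.cube_eq]; exact hx
        have hy' : y ∈ dyc P.v i.1.1 i.1.2 := by rw [← P86.cube_eq]; exact hy
        refine hfill i.1 i.2.1 x hx' _ (fun s hs hsq z hz => ?_) y hy'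
        have hzq : z ∈ dyc P.v i.1.1 i.1.2 := hsq hz
        have hzΩ := P.part.sub i.1 i.2.1 hzq
        have hzK : z ∉ K₂ := fun h => hiB (Or.inl ⟨i.2.1, z, hzq, h⟩)
        have hsm : (1:ℝ) / 2 ^ i.1.1 < r := by
          by_contra hcon
          exact hiB (Or.inr ⟨i.2.1, not_lt.1 hcon⟩)
        have hz1 : z ∉ K₀ := fun h => hzK (Or.inl (Or.inl (Or.inl h)))
        have hz2 : ∀ b ∈ P.B, z ∉ interior (b.cell P.A) := fun b hb h =>
          hzK (Or.inl (Or.inl (Or.inr (mem_iUnion₂.2 ⟨b, hb, interior_subset h⟩))))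
        have hz3 : infDist z Ωᶜ < η / 4 := by
          by_contra hcon
          exact hzK (Or.inl (Or.inr (not_lt.1 hcon)))
        have hz4 : infDist (P.h.toFun z) Λᶜ < κ := by
          by_contra hcon
          exact hzK (Or.inr ⟨P.h.toFun z, not_lt.1 hcon, P.h.left_inv hzΩ⟩)
        have e1 := hbd s hs z hz hz2
        have e2 := hcl z hzΩ hz1
        have e3 := hrf z hzΩ x (P.part.sub i.1 i.2.1 hx') (by
          rw [dist_eq_norm]
          exact (hcell i.1 i.2.1 z hzq x hx').trans_lt hsm)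
        rw [dist_eq_norm] at e3
        have e4 := norm_sub_le_norm_sub_add_norm_sub (g.toFun z) (P.h.toFun z) (f x)
        have e5 := norm_sub_le_norm_sub_add_norm_sub (P.h.toFun z) (f z) (f x)
        have e6 : |D| * P.ρ (P.h.toFun z) ≤ |D| * κ :=
          mul_le_mul_of_nonneg_left ((size_le_infDist P.size hΛne _).trans hz4.le) hD0
        have e7 : |D| * κ ≤ η / 4 := by
          have h8 : (|D| + 1) * κ = η / 4 := by
            rw [hκ]; field_simp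
          nlinarith
        linarith

end

end Vale.Agent.P073.H73
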