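import Vale.Agent.P073.H953.Bm3
import Vale.Agent.P073.H73.PostD
import Vale.Agent.P073.H333.PreV
import Vale.Agent.P073.H267.K2ATop

/-!
# P073: `ConFaceN` holds for homeomorphisms of finite distortion, `2 < p < 3`
-/

namespace Vale.Agent.P073.H73

open MeasureTheory Set Filter Topology Metric Vale.Agent.P073.St Vale.Agent.P073.AB
open Vale.Agent.P073.SQ (ev cube Cells)
open _root_.P073 (ConHomeo)
open scoped ENNReal

theorem ConFaceN.mono {p ε ε' : ℝ} {Ω Λ : Set V} {f : V → V} {F : V → Mat} (h : ε ≤ ε')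
    (H : ConFaceN p ε Ω Λ f F) : ConFaceN p ε' Ω Λ f F := by
  obtain ⟨R, W, g, h1, h2, h3, h4, h5, h6, h7, h8, h9⟩ := H
  have he := ENNReal.ofReal_le_ofReal h
  exact ⟨R, W, g, h1, h2, h3, h4.trans he, h5.trans he, h6.trans he,
    fun x hx => (h7 x hx).trans h, fun i x hx y hy => (h8 i x hx y hy).trans h, h9⟩

/-- **The face theorem with closeness**, finite distortion, `2 < p < 3`. -/
theorem confaceN {p : ℝ} (hp : 2 < p) (hp3 : p < 3) {Ω Λ : Set V} {f : V → V} {F : V → Mat}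
    (hΩ : St.IsBoundedDomain Ω) (hΛ : St.IsBoundedDomain Λ) (hf : St.IsHomeo Ω Λ f)
    (hF : St.IsSobolev p Ω f F) (hu : UniformContinuousOn f Ω) (hFD : FinDist Ω F) :
    ∀ ε > 0, ConFaceN p ε Ω Λ f F := by
  intro ε₀ hε₀
  obtain ⟨D, C, δ, hδ, hK⟩ := k2a_iff.1 (_root_.P073.H267.k2A (p := p) (by linarith))
  obtain ⟨C₃, hlay⟩ := specLay_iff.1 P073.H669.specLay
  choose CT hCT using H989.specCut
  choose T hT1 hT using exists_upper
  choose T' hT1' hT' using exists_lower_all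
  obtain ⟨r, hr, hrf⟩ := Metric.uniformContinuousOn_iff.1 hu (ε₀ / 2) (by positivity)
  have hM : 0 < (|D| + 1) * 2 ^ (p - 1) + |D| + 5 := by positivity
  set ε : ℝ := min (ε₀ / 2 / ((|D| + 1) * 2 ^ (p - 1) + |D| + 5)) (r / 2) with hε
  have hε0 : 0 < ε := lt_min (by positivity) (by positivity)
  have hne := compl_nonempty_of_bdd (PK.isBounded_of_domain hΩ)
  obtain ⟨P, ⟨K₀, hK₀, hK₀c, hcl⟩, hsize⟩ := H333.specPreV hp hp3 hΩ hΛ hf hF hFD hε0 hδ
    (fun N J A =>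
    12 * (max (max (max (C 1) (C (CT N J A))) 1 * (32 * T J A + 1))
            (|C₃| * (max (max (C 1) (C (CT N J A))) 1 * (32 * T J A + 1) * T' J A) * T J A)) ^ p +
        3 * 2 ^ (p - 1) * T J A ^ p) (σ₀ := fun x => infDist x Ωᶜ)
    (continuous_infDist_pt _).continuousOn
    (fun x hx => (hΩ.1.isClosed_compl.notMem_iff_infDist_pos hne).1 fun h => h hx)
  obtain ⟨CM⟩ := hCT P.N P.J P.A Ω Λ P.geo hΩ hΛ rfl rfl rfl
  refine ConFaceN.mono ?_ (P.conFaceN (by linarith) hε0 hΩ hΛ CM hK specAde hlay (hT1 P.J P.A)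
    (hT P.J P.A P.L P.aff) (hT1' P.J P.A) (hT' P.J P.A P.L P.aff P.inj) le_rfl
    (ω := ε₀ / 2) (by positivity) hsize ?_ hu hK₀ hK₀c hcl)
  · have h1 : ε ≤ ε₀ / 2 / ((|D| + 1) * 2 ^ (p - 1) + |D| + 5) := min_le_left _ _
    have h2 : ((|D| + 1) * 2 ^ (p - 1) + |D| + 5) * ε ≤ ε₀ / 2 := by
      calc ((|D| + 1) * 2 ^ (p - 1) + |D| + 5) * ε
          ≤ ((|D| + 1) * 2 ^ (p - 1) + |D| + 5) *
            (ε₀ / 2 / ((|D| + 1) * 2 ^ (p - 1) + |D| + 5)) := by gcongr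
        _ = ε₀ / 2 := mul_div_cancel₀ _ hM.ne'
    linarith
  · intro x hx y hy hxy
    have h1 : ε < r := (min_le_right _ _).trans_lt (by linarith)
    have h2 := hrf x hx y hy (by rw [dist_eq_norm]; exact hxy.trans_lt h1)
    rw [dist_eq_norm] at h2
    exact h2.le

end Vale.Agent.P073.H73
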