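import Vale.Agent.P073.H953.NeckAll

/-!
# P073, block NECKS-ALL: the genericity hypothesis from `Gen` of densities on `Ω`
-/

open Set Metric Topology Filter
open scoped ENNReal

namespace P073.H953

open P073
open Vale.Agent.P073.St (V Mat)
open Vale.Agent.P073.SQ (ev)
open Vale.Agent.P073.AB
open Vale.Agent.P073.H83
open Vale.Agent.P073.H194 (eInSq fSum sInt Gen)
open Vale.Agent.P073.AB.P86 (rel lo lo_same lo_other)
open Vale.Agent.P073.H234 (Clean P2Cells Necks dn)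
open P073.Net (dyc dyo)

variable {v : V} {Ω Λ : Set V} {f : V → V} {F : V → Mat}

theorem eInt_congr {e : Idx × Fin 3} {H H' : V → ℝ≥0∞} (h : ∀ x ∈ edge v e, H x = H' x) :
    eInt v e H = eInt v e H' :=
  le_antisymm (eInt_mono fun x hx => (h x hx).le) (eInt_mono fun x hx => (h x hx).ge)

theorem fSum_congr {s : Idx × Fin 3} {n : ℕ} (hn : s.1.1 ≤ n) {k : Fin 3} (hk : k ≠ s.2)
    {H H' : V → ℝ≥0∞} (h : ∀ x ∈ squ v s, H x = H' x) : fSum v s n k H = fSum v s n k H' := by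
  unfold fSum
  refine Finset.sum_congr rfl fun w hw => ?_
  rw [eInt_congr fun x hx => h x (edge_sub_squ hn hk hw hx)]

theorem sInt_congr {s : Idx × Fin 3} {H H' : V → ℝ≥0∞} (h : ∀ x ∈ squ v s, H x = H' x) :
    sInt v s H = sInt v s H' := by
  unfold sInt
  congr 1
  refine MeasureTheory.setLIntegral_congr_fun (isCompact_dyc' v _ _).measurableSet fun x hx => ?_
  exact h _ (squ_of_upd hx)

/-- the clause for a square in `Ω` -/
theorem gen_square {nn : ℕ → ℕ} (hnn : StrictMono nn) {G : V → ℝ≥0∞} (hG : Gen v nn G)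
    {H : V → ℝ≥0∞} {s : Idx × Fin 3} (h : ∀ x ∈ squ v s, H x = G x) {k : Fin 3} (hk : k ≠ s.2)
    {η : ℝ≥0∞} (hη : η ≠ 0) : ∀ᶠ l in atTop, fSum v s (nn l) k H ≤ sInt v s H + η := by
  filter_upwards [hG.square s k hk η hη, hnn.tendsto_atTop.eventually_ge_atTop s.1.1] with l hl hsl
  rwa [fSum_congr hsl hk h, sInt_congr h]

/-- **`gen` of `exists_necks_all`** -/
theorem gen_of_Gen {p : ℝ} {ε : ℝ≥0∞} {θ M κ c₀ t₀ δ₀ : ℝ} {j : ℕ} {T : Set V} {m : ℕ}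
    (C : P2Cells p ε θ M κ c₀ t₀ δ₀ j Ω Λ f F T v m) (hJΩ : ∀ z ∈ C.J, dyc v m z ⊆ Ω)
    {nn : ℕ → ℕ} (hnn : StrictMono nn)
    (hG : ∀ z ∈ C.J, Gen v nn (Ω.indicator fun x => ‖cl (F x) - C.L z‖ₑ ^ (2:ℝ))) :
    ∀ z ∈ C.J, ∀ s, Clean v m j z s → ∀ k, k ≠ s.2 → ∀ η : ℝ≥0∞, η ≠ 0 → ∀ᶠ l in atTop,
      fSum v s (nn l) k (fun x => ‖cl (F x) - C.L z‖ₑ ^ (2:ℝ)) ≤
        sInt v s (fun x => ‖cl (F x) - C.L z‖ₑ ^ (2:ℝ)) + η := by
  intro z hz s hs k hk η hη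
  refine gen_square hnn (hG z hz) (fun x hx => ?_) hk hη
  rw [indicator_of_mem (hJΩ z hz (squ_sub_of_clean hs hx))]

end P073.H953
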