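import Vale.Agent.P073.H953.NeckAll

/-!
# P073, block NECKS-ALL: the necks of a subfamily of the clean squares

`NecksP`: as `Necks`, for the squares given by a predicate `Cl` which implies `Clean`.
-/

open Set Metric Topology Filter
open scoped ENNReal

namespace P073.H953

open P073
open Vale.Agent.P073.St (V Mat)
open Vale.Agent.P073.SQ (ev)
open Vale.Agent.P073.AB
open Vale.Agent.P073.H83
open Vale.Agent.P073.H194 (eInSq fSum sInt)
open Vale.Agent.P073.AB.P86 (rel lo lo_same lo_other)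
open Vale.Agent.P073.H234 (Clean P2Cells dn)
open P073.Net (dyc dyo)

variable {v : V} {Ω Λ : Set V} {f : V → V} {F : V → Mat}

/-- finite set of squares given by a predicate -/
theorem finite_cl {m j : ℕ} {J : Finset (Fin 3 → ℤ)} {Cl : (Fin 3 → ℤ) → Idx × Fin 3 → Prop}
    (hCl : ∀ z s, Cl z s → Clean v m j z s) :
    {q : (Fin 3 → ℤ) × (Idx × Fin 3) | q.1 ∈ J ∧ Cl q.1 q.2}.Finite :=
  (finite_clean v m j J).subset fun _ hq => ⟨hq.1, hCl _ _ hq.2⟩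

/-- the necks of `f` on the squares given by `Cl`; fields as in `H234.Necks` -/
structure NecksP (β σ : ℝ) (f : V → V) (v : V) (m j : ℕ) (J : Finset (Fin 3 → ℤ))
    (A : (Fin 3 → ℤ) → V → V) (Cl : (Fin 3 → ℤ) → Idx × Fin 3 → Prop) where
  /-- discs -/
  ι : Type
  fin : Finite ι
  /-- neck cubes -/
  γ : Type
  ffin : Fintype γ
  /-- square of the disc -/
  s : ι → Idx × Fin 3
  /-- discs -/
  D : ι → Set V
  /-- boundary circles -/
  c : ι → Set V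
  /-- centres -/
  b : γ → V
  /-- radii -/
  ρ : γ → ℝ
  clean : ∀ i, ∃ z ∈ J, Cl z (s i)
  ball : ∀ i, ConBall 2 (D i) (c i)
  disj : ∀ i i', i ≠ i' → Disjoint (D i) (D i')
  sub : ∀ i, D i ⊆ rel v (s i)
  op : ∀ i, ∃ U, IsOpen U ∧ D i \ c i = squ v (s i) ∩ U
  circ : ∀ i, ∃ g, ∀ x ∈ c i, f x ∈ Metric.ball (b g) (ρ g)
  close : ∀ z ∈ J, ∀ s, Cl z s → ∀ x ∈ squ v s, (∀ i, x ∉ D i \ c i) →
    ‖f x - A z x‖ ≤ β / 2 ^ (m + j)
  pos : ∀ g, 0 < ρ g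
  bdisj : ∀ g g', g ≠ g' → Disjoint (closedBall (b g) (ρ g)) (closedBall (b g') (ρ g'))
  loc : ∀ y, ∑ g with ‖b g - y‖ ≤ 8 / 2 ^ (m + j), ρ g ≤ σ / 2 ^ (m + j)
  near : ∀ g, ∃ z ∈ J, ∃ s, Cl z s ∧ ∃ x ∈ squ v s, ‖b g - A z x‖ ≤ 2 * β / 2 ^ (m + j)

/-- **[NECKS-ALL]** -/
theorem exists_necksP {M β σ K : ℝ} (hM : 0 < M) (hβ : 0 < β) (hβ1 : β ≤ 1) (hσ : 0 < σ)
    (hK : 0 < K) : ∃ κ₀ > 0, ∀ κ : ℝ, 0 < κ → κ ≤ κ₀ →
    ∀ {p : ℝ} {ε : ℝ≥0∞} {θ c₀ t₀ δ₀ : ℝ} {j : ℕ} {Ω Λ : Set V} {f : V → V} {F : V → Mat}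
      {T : Set V} {v : V} {m : ℕ} (C : P2Cells p ε θ M κ c₀ t₀ δ₀ j Ω Λ f F T v m)
      {Cl : (Fin 3 → ℤ) → Idx × Fin 3 → Prop}, (∀ z s, Cl z s → Clean v m j z s) →
    RatGood v Ω f F → IsOpen Ω → ContinuousOn f Ω → (∀ z ∈ C.J, dyc v m z ⊆ Ω) →
    ∀ nn : ℕ → ℕ, StrictMono nn →
    (∀ z ∈ C.J, ∀ s, Cl z s → ∀ k, k ≠ s.2 → ∀ η : ℝ≥0∞, η ≠ 0 → ∀ᶠ l in atTop,
      fSum v s (nn l) k (fun x => ‖cl (F x) - C.L z‖ₑ ^ (2:ℝ)) ≤
        sInt v s (fun x => ‖cl (F x) - C.L z‖ₑ ^ (2:ℝ)) + η) →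
    (∀ y, ∀ S : Finset ((Fin 3 → ℤ) × (Idx × Fin 3)), (∀ q ∈ S, q.1 ∈ C.J ∧
      Cl q.1 q.2 ∧ ∃ x ∈ squ v q.2, ‖C.A q.1 x - y‖ ≤ 10 / 2 ^ (m + j)) →
      (S.card : ℝ) ≤ K) →
    Nonempty (NecksP β σ f v m j C.J C.A Cl) := by
  classical
  set σ' : ℝ := min σ β with hσ'
  have hσ'0 : 0 < σ' := lt_min hσ hβ
  have hσ'1 : σ' ≤ 1 := (min_le_right _ _).trans hβ1
  refine ⟨min (β / 16) (min (M ^ 2) ((σ' * β / (2048 * K * M)) ^ 2)), by positivity,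
    fun κ hκ hκ0 => ?_⟩
  have hκβ : κ ≤ β / 16 := hκ0.trans (min_le_left _ _)
  have hκM : κ ≤ M ^ 2 := (hκ0.trans (min_le_right _ _)).trans (min_le_left _ _)
  have hκK : κ ≤ (σ' * β / (2048 * K * M)) ^ 2 :=
    (hκ0.trans (min_le_right _ _)).trans (min_le_right _ _)
  have hsqrt : √κ ≤ σ' * β / (2048 * K * M) := by
    rw [Real.sqrt_le_left (by positivity)]
    exact hκK
  intro p ε θ c₀ t₀ δ₀ j Ω Λ f F T v m C Cl hCl rat hΩ hf hJΩ nn hnn gen hcount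
  have h2 : (0:ℝ) < 2 ^ (m + j) := by positivity
  set Cst : ℝ := 256 * (√(2 * κ) * √(4 * κ + 4 * M ^ 2)) / β / 2 ^ (m + j) with hCst
  have hCst0 : 0 ≤ Cst := by positivity
  have hKC : K * Cst ≤ σ' / 2 / 2 ^ (m + j) := by
    have a1 : √(4 * κ + 4 * M ^ 2) ≤ √8 * M := by
      rw [← Real.sqrt_sq hM.le, ← Real.sqrt_mul (by norm_num)]
      rw [Real.sqrt_sq hM.le]
      exact Real.sqrt_le_sqrt (by linarith)
    have a2 : √(2 * κ) = √2 * √κ := Real.sqrt_mul (by norm_num) _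
    have a3 : √2 * √8 = 4 := by
      rw [← Real.sqrt_mul (by norm_num), show (2:ℝ) * 8 = 4 ^ 2 by norm_num,
        Real.sqrt_sq (by norm_num)]
    have a4 : √(2 * κ) * √(4 * κ + 4 * M ^ 2) ≤ 4 * M * √κ := by
      calc √(2 * κ) * √(4 * κ + 4 * M ^ 2) ≤ (√2 * √κ) * (√8 * M) := by
            rw [a2]; gcongr
        _ = (√2 * √8) * (M * √κ) := by ring
        _ = 4 * M * √κ := by rw [a3]; ring
    rw [hCst]
    calc K * (256 * (√(2 * κ) * √(4 * κ + 4 * M ^ 2)) / β / 2 ^ (m + j)) ≤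
        K * (256 * (4 * M * √κ) / β / 2 ^ (m + j)) := by gcongr
      _ ≤ K * (256 * (4 * M * (σ' * β / (2048 * K * M))) / β / 2 ^ (m + j)) := by gcongr
      _ = σ' / 2 / 2 ^ (m + j) := by
        field_simp
        ring
  -- all clean squares
  set Sq : Finset ((Fin 3 → ℤ) × (Idx × Fin 3)) := (finite_cl (J := C.J) hCl).toFinset with hSq
  have hSqm : ∀ q, q ∈ Sq ↔ q.1 ∈ C.J ∧ Cl q.1 q.2 := by
    intro q
    rw [hSq, Set.Finite.mem_toFinset]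
    rfl
  have hev : ∀ᶠ l in atTop, ∀ q ∈ Sq, q.2.1.1 ≤ nn l ∧
      NecksAt v f (fun x => ‖f x - C.A q.1 x‖) q.2 (nn l)
      (β / 4 / 2 ^ (m + j)) (β / 2 / 2 ^ (m + j)) (β / 8 / 2 ^ (m + j)) Cst := by
    rw [Filter.eventually_all_finset]
    intro q hq
    obtain ⟨hqJ, hqC⟩ := (hSqm q).1 hq
    have hqc := hCl _ _ hqC
    refine necks_one hκ hβ hκβ rat hf (hJΩ _ hqJ) (C.aff _ hqJ) (C.above _ hqJ)
      (fun a ha => (C.vert _ hqJ a ha).2.1) (C.edge _ hqJ) hqc ?_ hnn (gen _ hqJ _ hqC)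
    exact C.square _ hqJ _ hqc.1 (squ_sub_of_clean hqc)
  obtain ⟨l, hl⟩ := hev.exists
  set n := nn l with hn
  let Q := {q // q ∈ Sq}
  have key : ∀ q : Q, NecksAt v f (fun x => ‖f x - C.A q.1.1 x‖) q.1.2 n
      (β / 4 / 2 ^ (m + j)) (β / 2 / 2 ^ (m + j)) (β / 8 / 2 ^ (m + j)) Cst := fun q =>
    (hl q.1 q.2).2
  have hqn : ∀ q : Q, q.1.2.1.1 ≤ n := fun q => (hl q.1 q.2).1
  choose t ht A hA r hrC hr0 hrx hmain using key
  -- points
  have hpt : ∀ (q : Q) (w : Fin 3 → ℤ), pt v n w ∈ bds v ((n, w), q.1.2.2) := fun q w =>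
    mem_bds.2 ⟨pt_mem_squ v ((n, w), q.1.2.2), t1 q.1.2.2, t1_ne _, Or.inl rfl⟩
  have hsub : ∀ (q : Q), ∀ w ∈ A q, squ v ((n, w), q.1.2.2) ⊆ squ v q.1.2 := fun q w hw =>
    squ_sub (hqn q) (hA q hw)
  have htt : ∀ q : Q, t q + β / 8 / 2 ^ (m + j) ≤ β / 2 ^ (m + j) := by
    intro q
    have h3 : β / 2 / 2 ^ (m + j) + β / 8 / 2 ^ (m + j) ≤ β / 2 ^ (m + j) := by
      have : 0 < β / 2 ^ (m + j) := by positivity
      have e1 : β / 2 / 2 ^ (m + j) = 1 / 2 * (β / 2 ^ (m + j)) := by ring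
      have e2 : β / 8 / 2 ^ (m + j) = 1 / 8 * (β / 2 ^ (m + j)) := by ring
      rw [e1, e2]
      linarith
    linarith [(ht q).2]
  have hnear : ∀ (q : Q), ∀ w ∈ A q, ‖f (pt v n w) - C.A q.1.1 (pt v n w)‖ ≤ β / 2 ^ (m + j) := by
    intro q w hw
    have h3 := (hrx q w hw _ (hpt q w)).2
    have h4 := (abs_le.1 h3).2
    linarith [htt q]
  -- the index set of all crossing squares
  set S : Finset (Σ _ : Q, (Fin 3 → ℤ)) := Finset.univ.sigma fun q => A q with hS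
  have hSm : ∀ i, i ∈ S ↔ i.2 ∈ A i.1 := by
    intro i
    rw [hS, Finset.mem_sigma]
    exact ⟨fun h => h.2, fun h => ⟨Finset.mem_univ _, h⟩⟩
  set τ : ℝ := σ' / 2 / 2 ^ (m + j) / (S.card + 1) with hτ
  have hτ0 : 0 < τ := by positivity
  set x : (Σ _ : Q, (Fin 3 → ℤ)) → V := fun i => f (pt v n i.2) with hx
  set r' : (Σ _ : Q, (Fin 3 → ℤ)) → ℝ := fun i => r i.1 i.2 + τ with hr'
  have hr'0 : ∀ i ∈ S, 0 ≤ r' i := fun i hi => by
    have := hr0 i.1 i.2 ((hSm i).1 hi)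
    rw [hr']
    simp only
    linarith
  have hloc : ∀ y, ∑ i ∈ S with ‖x i - y‖ ≤ 9 / 2 ^ (m + j), r' i ≤ σ' / 2 ^ (m + j) := by
    intro y
    set near : Finset Q := Finset.univ.filter fun q => ∃ w ∈ A q,
      ‖f (pt v n w) - y‖ ≤ 9 / 2 ^ (m + j) with hnr
    have c1 : ∑ i ∈ S with ‖x i - y‖ ≤ 9 / 2 ^ (m + j), r' i =
        ∑ i ∈ S with ‖x i - y‖ ≤ 9 / 2 ^ (m + j), r i.1 i.2 +
          ((S.filter fun i => ‖x i - y‖ ≤ 9 / 2 ^ (m + j)).card : ℝ) * τ := by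
      rw [hr']
      simp only
      rw [Finset.sum_add_distrib, Finset.sum_const, nsmul_eq_mul]
    have c2 : ∑ i ∈ S with ‖x i - y‖ ≤ 9 / 2 ^ (m + j), r i.1 i.2 ≤
        ∑ i ∈ near.sigma fun q => A q, r i.1 i.2 := by
      refine Finset.sum_le_sum_of_subset_of_nonneg ?_ fun i hi _ => ?_
      · intro i hi
        rw [Finset.mem_filter, hSm] at hi
        rw [Finset.mem_sigma, hnr, Finset.mem_filter]
        exact ⟨⟨Finset.mem_univ _, i.2, hi.1, hi.2⟩, hi.1⟩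
      · exact hr0 _ _ (Finset.mem_sigma.1 hi).2
    have c3 : ∑ i ∈ near.sigma fun q => A q, r i.1 i.2 ≤ near.card * Cst := by
      rw [Finset.sum_sigma]
      calc ∑ q ∈ near, ∑ w ∈ A q, r q w ≤ ∑ _q ∈ near, Cst :=
            Finset.sum_le_sum fun q _ => hrC q
        _ = near.card * Cst := by rw [Finset.sum_const, nsmul_eq_mul]
    have c4 : (near.card : ℝ) ≤ K := by
      have h5 := hcount y (near.map (Function.Embedding.subtype _)) (by
        intro q hq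
        rw [Finset.mem_map] at hq
        obtain ⟨q', hq', rfl⟩ := hq
        rw [hnr, Finset.mem_filter] at hq'
        obtain ⟨-, w, hw, hwy⟩ := hq'
        obtain ⟨h6, h7⟩ := (hSqm q'.1).1 q'.2
        refine ⟨h6, h7, pt v n w, hsub q' w hw (bds_sub (hpt q' w)), ?_⟩
        have h8 := hnear q' w hw
        have h9 : ‖C.A q'.1.1 (pt v n w) - y‖ ≤ ‖f (pt v n w) - C.A q'.1.1 (pt v n w)‖ +
            ‖f (pt v n w) - y‖ := by
          rw [norm_sub_rev (f (pt v n w)) (C.A q'.1.1 (pt v n w))]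
          exact norm_sub_le_norm_sub_add_norm_sub _ _ _
        have h10 : β / 2 ^ (m + j) ≤ 1 / 2 ^ (m + j) := by gcongr
        have h11 : (10:ℝ) / 2 ^ (m + j) = 1 / 2 ^ (m + j) + 9 / 2 ^ (m + j) := by ring
        show ‖C.A q'.1.1 (pt v n w) - y‖ ≤ _
        linarith)
      rwa [Finset.card_map] at h5
    have c5 : ((S.filter fun i => ‖x i - y‖ ≤ 9 / 2 ^ (m + j)).card : ℝ) * τ ≤
        σ' / 2 / 2 ^ (m + j) := by
      have h6 : ((S.filter fun i => ‖x i - y‖ ≤ 9 / 2 ^ (m + j)).card : ℝ) ≤ S.card + 1 := by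
        have : (S.filter fun i => ‖x i - y‖ ≤ 9 / 2 ^ (m + j)).card ≤ S.card :=
          Finset.card_filter_le _ _
        have : ((S.filter fun i => ‖x i - y‖ ≤ 9 / 2 ^ (m + j)).card : ℝ) ≤ S.card := by
          exact_mod_cast this
        linarith
      calc _ ≤ ((S.card : ℝ) + 1) * τ := by gcongr
        _ = σ' / 2 / 2 ^ (m + j) := by
          rw [hτ]
          field_simp
    have c6 : (near.card : ℝ) * Cst ≤ K * Cst := by gcongr
    have c7 : σ' / 2 ^ (m + j) = σ' / 2 / 2 ^ (m + j) + σ' / 2 / 2 ^ (m + j) := by ring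
    rw [c1, c7]
    linarith
  obtain ⟨Jm, π, b, ρ, hClu, hdis⟩ := exists_merge S x r' hr'0 hloc (by
    have e1 : 2 * (σ' / 2 ^ (m + j)) = (2 * σ') / 2 ^ (m + j) := by ring
    rw [e1]
    gcongr
    linarith)
  set Jf := Jm.filter fun g => ∃ i ∈ S, π i = g with hJf
  let γ := {g // g ∈ Jf}
  have hγJ : ∀ g : γ, g.1 ∈ Jm := fun g => (Finset.mem_filter.1 g.2).1
  have hbd : ∀ g g' : γ, g ≠ g' → Disjoint (closedBall (b g.1) (ρ g.1))
      (closedBall (b g'.1) (ρ g'.1)) := by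
    intro g g' hne
    refine closedBall_disjoint_closedBall ?_
    rw [dist_eq_norm]
    exact hdis _ (hγJ g) _ (hγJ g') fun h => hne (Subtype.ext h)
  set W : γ → Set V := fun g => Ω ∩ f ⁻¹' ball (b g.1) (ρ g.1) with hW
  have hWo : ∀ g, IsOpen (W g) := fun g => hf.isOpen_inter_preimage hΩ isOpen_ball
  have hWd : ∀ g g', g ≠ g' → Disjoint (W g) (W g') := by
    intro g g' hne
    rw [disjoint_left]
    rintro y ⟨-, h3⟩ ⟨-, h4⟩
    exact disjoint_left.1 (hbd g g' hne) (ball_subset_closedBall h3) (ball_subset_closedBall h4)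
  have hcov : ∀ q : Q, ∀ w ∈ A q, ∃ g, bds v ((n, w), q.1.2.2) ⊆ W g := by
    intro q w hw
    have hi : (⟨q, w⟩ : Σ _ : Q, (Fin 3 → ℤ)) ∈ S := (hSm _).2 hw
    refine ⟨⟨π ⟨q, w⟩, Finset.mem_filter.2 ⟨hClu.mem _ hi, _, hi, rfl⟩⟩, fun y hy => ⟨?_, ?_⟩⟩
    · have h3 := (hSqm q.1).1 q.2
      exact hJΩ _ h3.1 (squ_sub_of_clean (hCl _ _ h3.2) (hsub q w hw (bds_sub hy)))
    · have h3 := (hrx q w hw y hy).1
      have h4 := hClu.cov _ hi
      rw [mem_closedBall, dist_eq_norm] at h3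
      show f y ∈ ball _ _
      rw [mem_ball, dist_eq_norm]
      have h5 : ‖f y - b (π ⟨q, w⟩)‖ ≤ ‖f y - f (pt v n w)‖ + ‖f (pt v n w) - b (π ⟨q, w⟩)‖ :=
        norm_sub_le_norm_sub_add_norm_sub _ _ _
      simp only [hx, hr'] at h4
      linarith
  choose I hI D c hD1 hD2 hD3 hD4 hD5 hD6 hD7 hD8 using fun q : Q => hmain q γ W hWo hWd (hcov q)
  refine ⟨{
    ι := Σ q : Q, I q
    fin := by
      have : ∀ q : Q, Finite (I q) := hI
      infer_instance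
    γ := γ
    ffin := inferInstance
    s := fun i => i.1.1.2
    D := fun i => D i.1 i.2
    c := fun i => c i.1 i.2
    b := fun g => b g.1
    ρ := fun g => ρ g.1
    clean := fun i => ⟨i.1.1.1, (hSqm _).1 i.1.2⟩
    ball := fun i => hD1 i.1 i.2
    disj := ?_
    sub := fun i => hD3 i.1 i.2
    op := fun i => hD4 i.1 i.2
    circ := ?_
    close := ?_
    pos := ?_
    bdisj := hbd
    loc := ?_
    near := ?_ }⟩
  · rintro ⟨q, i⟩ ⟨q', i'⟩ hne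
    by_cases hq : q = q'
    · subst hq
      exact hD2 q i i' fun h => hne (by rw [h])
    · have hss : q.1.2 ≠ q'.1.2 := by
        intro h
        apply hq
        obtain ⟨h3, h4⟩ := (hSqm _).1 q.2
        obtain ⟨h5, h6⟩ := (hSqm _).1 q'.2
        have h7 : q.1.1 = q'.1.1 := by
          refine eq_of_dyc_sub (hCl _ _ h4).2.1 ?_
          rw [h]
          exact (hCl _ _ h6).2.1
        exact Subtype.ext (Prod.ext h7 h)
      refine (rel_disj ?_ hss).mono (hD3 q i) (hD3 q' i')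
      rw [(hCl _ _ ((hSqm _).1 q.2).2).1, (hCl _ _ ((hSqm _).1 q'.2).2).1]
  · rintro ⟨q, i⟩
    obtain ⟨g, hg⟩ := hD5 q i
    exact ⟨g, fun y hy => (hg hy).2⟩
  · intro z hz s hs y hy hyD
    set q : Q := ⟨(z, s), (hSqm _).2 ⟨hz, hs⟩⟩ with hq
    have h3 := hD6 q y hy fun i => hyD ⟨q, i⟩
    exact h3.le.trans (htt q)
  · intro g
    obtain ⟨i, hi, hig⟩ := (Finset.mem_filter.1 g.2).2
    have h3 := hClu.cov i hi
    rw [hig] at h3
    have h4 := hr0 i.1 i.2 ((hSm i).1 hi)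
    simp only [hr'] at h3
    have h5 := norm_nonneg (x i - b g.1)
    show 0 < ρ g.1
    linarith
  · intro y
    have h3 := hClu.loc hr'0 hloc (R' := 8 / 2 ^ (m + j)) (by
      have e1 : (8:ℝ) / 2 ^ (m + j) + σ' / 2 ^ (m + j) = (8 + σ') / 2 ^ (m + j) := by ring
      rw [e1]
      gcongr
      linarith) y ((Finset.univ.filter fun g : γ => ‖b g.1 - y‖ ≤ 8 / 2 ^ (m + j)).map
        (Function.Embedding.subtype _)) (by
          intro g hg
          rw [Finset.mem_map] at hg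
          obtain ⟨g', -, rfl⟩ := hg
          exact hγJ g') (by
          intro g hg
          rw [Finset.mem_map] at hg
          obtain ⟨g', hg', rfl⟩ := hg
          exact (Finset.mem_filter.1 hg').2)
    rw [Finset.sum_map] at h3
    refine h3.trans ?_
    gcongr
    exact min_le_left _ _
  · intro g
    obtain ⟨i, hi, hig⟩ := (Finset.mem_filter.1 g.2).2
    have h3 := hClu.cov i hi
    rw [hig] at h3
    have hw := (hSm i).1 hi
    have h4 := hr0 i.1 i.2 hw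
    have h5 := hClu.le _ (hγJ g)
    obtain ⟨h6, h7⟩ := (hSqm _).1 i.1.2
    refine ⟨i.1.1.1, h6, i.1.1.2, h7, pt v n i.2, hsub i.1 i.2 hw (bds_sub (hpt i.1 i.2)), ?_⟩
    have h8 := hnear i.1 i.2 hw
    have h9 : ‖b g.1 - C.A i.1.1.1 (pt v n i.2)‖ ≤ ‖b g.1 - f (pt v n i.2)‖ +
        ‖f (pt v n i.2) - C.A i.1.1.1 (pt v n i.2)‖ := norm_sub_le_norm_sub_add_norm_sub _ _ _
    rw [norm_sub_rev (b g.1) (f (pt v n i.2))] at h9
    simp only [hx, hr'] at h3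
    have h10 : σ' / 2 ^ (m + j) ≤ β / 2 ^ (m + j) := by
      gcongr
      exact min_le_right _ _
    have h11 : 2 * β / 2 ^ (m + j) = β / 2 ^ (m + j) + β / 2 ^ (m + j) := by ring
    show ‖b g.1 - C.A i.1.1.1 (pt v n i.2)‖ ≤ _
    linarith

end P073.H953
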