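import Vale.Agent.P073.H953.NeckAllP
import Vale.Agent.P073.H953.GenCong
import Vale.Agent.P073.H732.LocSum2

/-!
# P073, block NECKS-ALL: the necks, all hypotheses from `TSet` and `P2Cells`
-/

open Set Metric Topology Filter
open scoped ENNReal

namespace P073.H953

open P073
open Vale.Agent.P073.St (V Mat)
open Vale.Agent.P073.SQ (ev)
open Vale.Agent.P073.AB
open Vale.Agent.P073.H83
open Vale.Agent.P073.H194 (eInSq fSum sInt Gen)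
open Vale.Agent.P073.H234 (Clean P2Cells TSet Necks dn)
open P073.Net (dyc dyo)

variable {v : V} {Ω Λ : Set V} {f : V → V} {F : V → Mat}

theorem TSet.dyc_sub {θ M κ t₀ δ₀ ε₁ : ℝ} {T : Set V} (HT : TSet θ M κ t₀ δ₀ ε₁ Ω f F T)
    {p θ' M' κ' c₀ : ℝ} {ε : ℝ≥0∞} {j m : ℕ}
    (C : P2Cells p ε θ' M' κ' c₀ t₀ δ₀ j Ω Λ f F T v m) : ∀ z ∈ C.J, dyc v m z ⊆ Ω := by
  intro z hz x hx
  have h0 : (0:ℝ) < 2 ^ m := by positivity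
  have h1 : pt v (m + j) (fun k => 2 ^ j * z k) ∈ dyc v m z := by
    intro k
    have e : ((2 ^ j * z k : ℤ) : ℝ) / 2 ^ (m + j) = z k / 2 ^ m := by
      push_cast
      rw [pow_add]
      field_simp
    simp only [pt]
    rw [e]
    refine ⟨le_rfl, ?_⟩
    gcongr
    linarith
  refine HT.sub _ (C.vert z hz _ h1).1 ?_
  rw [mem_closedBall, dist_eq_norm]
  have h2 : ‖x - pt v (m + j) (fun k => 2 ^ j * z k)‖ ≤ 1 / 2 ^ m := by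
    rw [pi_norm_le_iff_of_nonneg (by positivity)]
    intro k
    rw [Real.norm_eq_abs, abs_le, Pi.sub_apply]
    have a1 := hx k
    have a2 := h1 k
    have e : ((z k : ℝ) + 1) / 2 ^ m = z k / 2 ^ m + 1 / 2 ^ m := by ring
    rw [e] at a1 a2
    constructor <;> linarith [a1.1, a1.2, a2.1, a2.2]
  have h3 : (4 : ℝ) / 2 ^ m = 4 * (1 / 2 ^ m) := by ring
  have h4 := C.small
  rw [h3] at h4
  have h5 : (0:ℝ) < 1 / 2 ^ m := by positivity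
  linarith

/-- **[NECKS-ALL]** with `count` discharged; the last hypothesis is `H989.Orig2.gen` -/
theorem exists_necksT {θ M M' β σ : ℝ} (hθ : 0 < θ) (hθM : θ ≤ M') (hβ : 0 < β)
    (hβ1 : β ≤ 1) (hσ : 0 < σ) : ∃ κ₀ > 0, ∀ κ' : ℝ, 0 < κ' → κ' ≤ κ₀ →
    ∀ {κ p : ℝ} {ε : ℝ≥0∞} {θ' c₀ t₀ δ₀ ε₁ : ℝ} {j : ℕ} {Ω Λ : Set V} {f : V → V} {F : V → Mat}
      {T : Set V} {v : V} {m : ℕ}, TSet θ M κ t₀ δ₀ ε₁ Ω f F T → κ ≤ θ / 2 → 0 < t₀ →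
    ∀ (C : P2Cells p ε θ' M' κ' c₀ t₀ δ₀ j Ω Λ f F T v m)
      {Cl : (Fin 3 → ℤ) → Idx × Fin 3 → Prop}, (∀ z s, Cl z s → Clean v m j z s) →
    RatGood v Ω f F → IsOpen Ω → ContinuousOn f Ω →
    ∀ nn : ℕ → ℕ, StrictMono nn →
    (∀ s, squ v s ⊆ Ω → ∀ k, k ≠ s.2 → ∀ (L : V →L[ℝ] V) (η : ℝ≥0∞), η ≠ 0 → ∀ᶠ l in atTop,
      fSum v s (nn l) k (fun x => ‖cl (F x) - L‖ₑ ^ (2:ℝ)) ≤
        sInt v s (fun x => ‖cl (F x) - L‖ₑ ^ (2:ℝ)) + η) →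
    Nonempty (NecksP β σ f v m j C.J C.A Cl) := by
  have hM' : 0 < M' := hθ.trans_le hθM
  obtain ⟨κ₀, hκ₀, H⟩ := exists_necksP (K := 3 * (4 * (M' + 11) / θ + 2) ^ 3) hM' hβ hβ1 hσ
    (by positivity)
  refine ⟨min κ₀ 1, lt_min hκ₀ one_pos, fun κ' hκ' hκ'0 => ?_⟩
  intro κ p ε θ' c₀ t₀ δ₀ ε₁ j Ω Λ f F T v m HT hκ ht₀ C Cl hCl rat hΩ hf nn hnn hG
  have hJ := TSet.dyc_sub HT C
  refine H κ' hκ' (hκ'0.trans (min_le_left _ _)) C hCl rat hΩ hf hJ nn hnn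
    (fun z hz s hs k hk η hη => hG s ((squ_sub_of_clean (hCl z s hs)).trans (hJ z hz)) k hk
      (C.L z) η hη) fun y S hS => ?_
  exact Vale.Agent.P073.H732.locsum_953 HT C hκ hθ ht₀ hM'.le hθM hκ'.le (hκ'0.trans (min_le_right _ _)) y S
    fun q hq => ⟨(hS q hq).1, hCl _ _ (hS q hq).2.1, (hS q hq).2.2⟩

end P073.H953
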