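import Vale.Agent.P073.H953.NecksT
import Vale.Agent.P073.H340.P2W

/-!
# P073, block NECKS-ALL: the necks in the forms of `P2Defs` and `P2W`
-/

open Set Metric Topology Filter
open scoped ENNReal

namespace P073.H953

open P073
open Vale.Agent.P073.St (V Mat)
open Vale.Agent.P073.SQ (ev)
open Vale.Agent.P073.AB
open Vale.Agent.P073.H83
open Vale.Agent.P073.H194 (eInSq fSum sInt Gen)
open Vale.Agent.P073.H234 (Clean P2Cells TSet Necks dn)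
open Vale.Agent.P073.H340.PW (CleanW NecksW)
open P073.Net (dyc dyo)

/-- `NecksP` for the predicate `Clean` is `Necks` -/
def NecksP.toNecks {θ M β σ : ℝ} {f : V → V} {v : V} {m j : ℕ} {J : Finset (Fin 3 → ℤ)}
    {A : (Fin 3 → ℤ) → V → V} (N : NecksP β σ f v m j J A (Clean v m j)) :
    Necks θ M β σ f v m j J A where
  ι := N.ι
  fin := N.fin
  γ := N.γ
  ffin := N.ffin
  s := N.s
  D := N.D
  c := N.c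
  b := N.b
  ρ := N.ρ
  clean := N.clean
  ball := N.ball
  disj := N.disj
  sub := N.sub
  op := N.op
  circ := N.circ
  close := N.close
  pos := N.pos
  bdisj := N.bdisj
  loc := N.loc
  near := N.near

/-- `NecksP` for the predicate `CleanW` is `NecksW` -/
def NecksP.toNecksW {θ M β σ : ℝ} {f : V → V} {v : V} {m j : ℕ} {J : Finset (Fin 3 → ℤ)}
    {A : (Fin 3 → ℤ) → V → V} {W : Set (Fin 3 → ℤ)}
    (N : NecksP β σ f v m j J A (CleanW v m j W)) :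
    NecksW θ M β σ f v m j J W A where
  ι := N.ι
  fin := N.fin
  γ := N.γ
  ffin := N.ffin
  s := N.s
  D := N.D
  c := N.c
  b := N.b
  ρ := N.ρ
  clean := N.clean
  ball := N.ball
  disj := N.disj
  sub := N.sub
  op := N.op
  circ := N.circ
  close := N.close
  pos := N.pos
  bdisj := N.bdisj
  loc := N.loc
  near := fun g => by
    obtain ⟨z, hz, s, hs, h⟩ := N.near g
    exact ⟨z, hz, s, hs.1, h⟩

/-- **[NECKS-ALL]** in final form: the necks of the clean squares of any set `W` of kept cubes;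
`κ'` (the constant of `P2Cells`) is small depending on `θ`, `M'`, `β`, `σ` only -/
theorem exists_necksW {θ M M' β σ : ℝ} (hθ : 0 < θ) (hθM : θ ≤ M') (hβ : 0 < β)
    (hβ1 : β ≤ 1) (hσ : 0 < σ) : ∃ κ₀ > 0, ∀ κ' : ℝ, 0 < κ' → κ' ≤ κ₀ →
    ∀ {κ p : ℝ} {ε : ℝ≥0∞} {θ' c₀ t₀ δ₀ ε₁ : ℝ} {j : ℕ} {Ω Λ : Set V} {f : V → V} {F : V → Mat}
      {T : Set V} {v : V} {m : ℕ}, TSet θ M κ t₀ δ₀ ε₁ Ω f F T → κ ≤ θ / 2 → 0 < t₀ →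
    ∀ (C : P2Cells p ε θ' M' κ' c₀ t₀ δ₀ j Ω Λ f F T v m),
    RatGood v Ω f F → IsOpen Ω → ContinuousOn f Ω →
    ∀ nn : ℕ → ℕ, StrictMono nn →
    (∀ s, squ v s ⊆ Ω → ∀ k, k ≠ s.2 → ∀ (L : V →L[ℝ] V) (η : ℝ≥0∞), η ≠ 0 → ∀ᶠ l in atTop,
      fSum v s (nn l) k (fun x => ‖cl (F x) - L‖ₑ ^ (2:ℝ)) ≤
        sInt v s (fun x => ‖cl (F x) - L‖ₑ ^ (2:ℝ)) + η) →
    ∀ (θ₁ M₁ : ℝ) (W : Set (Fin 3 → ℤ)), Nonempty (NecksW θ₁ M₁ β σ f v m j C.J W C.A) := by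
  obtain ⟨κ₀, hκ₀, H⟩ := exists_necksT (M := M) hθ hθM hβ hβ1 hσ
  refine ⟨κ₀, hκ₀, fun κ' hκ' hκ'0 => ?_⟩
  intro κ p ε θ' c₀ t₀ δ₀ ε₁ j Ω Λ f F T v m HT hκ ht₀ C rat hΩ hf nn hnn hG θ₁ M₁ W
  obtain ⟨N⟩ := H κ' hκ' hκ'0 HT hκ ht₀ C (Cl := CleanW v m j W) (fun z s h => h.1) rat hΩ hf
    nn hnn hG
  exact ⟨N.toNecksW⟩

/-- **[NECKS-ALL]** in final form, all clean squares -/
theorem exists_necks {θ M M' β σ : ℝ} (hθ : 0 < θ) (hθM : θ ≤ M') (hβ : 0 < β)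
    (hβ1 : β ≤ 1) (hσ : 0 < σ) : ∃ κ₀ > 0, ∀ κ' : ℝ, 0 < κ' → κ' ≤ κ₀ →
    ∀ {κ p : ℝ} {ε : ℝ≥0∞} {θ' c₀ t₀ δ₀ ε₁ : ℝ} {j : ℕ} {Ω Λ : Set V} {f : V → V} {F : V → Mat}
      {T : Set V} {v : V} {m : ℕ}, TSet θ M κ t₀ δ₀ ε₁ Ω f F T → κ ≤ θ / 2 → 0 < t₀ →
    ∀ (C : P2Cells p ε θ' M' κ' c₀ t₀ δ₀ j Ω Λ f F T v m),
    RatGood v Ω f F → IsOpen Ω → ContinuousOn f Ω →
    ∀ nn : ℕ → ℕ, StrictMono nn →
    (∀ s, squ v s ⊆ Ω → ∀ k, k ≠ s.2 → ∀ (L : V →L[ℝ] V) (η : ℝ≥0∞), η ≠ 0 → ∀ᶠ l in atTop,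
      fSum v s (nn l) k (fun x => ‖cl (F x) - L‖ₑ ^ (2:ℝ)) ≤
        sInt v s (fun x => ‖cl (F x) - L‖ₑ ^ (2:ℝ)) + η) →
    ∀ (θ₁ M₁ : ℝ), Nonempty (Necks θ₁ M₁ β σ f v m j C.J C.A) := by
  obtain ⟨κ₀, hκ₀, H⟩ := exists_necksT (M := M) hθ hθM hβ hβ1 hσ
  refine ⟨κ₀, hκ₀, fun κ' hκ' hκ'0 => ?_⟩
  intro κ p ε θ' c₀ t₀ δ₀ ε₁ j Ω Λ f F T v m HT hκ ht₀ C rat hΩ hf nn hnn hG θ₁ M₁
  obtain ⟨N⟩ := H κ' hκ' hκ'0 HT hκ ht₀ C (Cl := Clean v m j) (fun z s h => h) rat hΩ hf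
    nn hnn hG
  exact ⟨N.toNecks⟩

end P073.H953
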