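import Vale.Agent.P073.H235.PreParts

/-!
# P073, block A16, [RECT]: the core rectangle of the middle plane
-/

namespace Vale.Agent.P073.H953

open Set Metric Vale.Agent.P073.St Vale.Agent.P073.AB
open Vale.Agent.P073.H194 (Rg)
open Vale.Agent.P073.H235

/-- the end points in one direction -/
theorem exists_ends {ν c : ℝ} {m : ℕ} (hν : 0 < ν) (hν4 : ν ≤ 1 / 4) (hm : 1 / 2 ^ m ≤ ν / 16) :
    ∃ a b : ℤ, a < b ∧ b - a ≤ 2 ^ m ∧ 0 < c + a / 2 ^ m ∧ c + b / 2 ^ m < 1 ∧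
      c + a / 2 ^ m ≤ ν / 8 ∧ 1 - ν / 8 ≤ c + b / 2 ^ m := by
  have hp : (0:ℝ) < 2 ^ m := by positivity
  have e1 : ∀ t : ℝ, t = c + (2 ^ m * (t - c)) / 2 ^ m := by
    intro t
    field_simp
    ring
  have h1 : c + (⌊2 ^ m * (ν / 8 - c)⌋ : ℝ) / 2 ^ m ≤ ν / 8 := by
    conv_rhs => rw [e1 (ν / 8)]
    gcongr
    exact Int.floor_le _
  have h2 : ν / 8 - 1 / 2 ^ m < c + (⌊2 ^ m * (ν / 8 - c)⌋ : ℝ) / 2 ^ m := by
    have e2 : ν / 8 < c + ((⌊2 ^ m * (ν / 8 - c)⌋ : ℝ) + 1) / 2 ^ m := by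
      conv_lhs => rw [e1 (ν / 8)]
      gcongr
      exact Int.lt_floor_add_one _
    have e3 : ((⌊2 ^ m * (ν / 8 - c)⌋ : ℝ) + 1) / 2 ^ m =
      (⌊2 ^ m * (ν / 8 - c)⌋ : ℝ) / 2 ^ m + 1 / 2 ^ m := by ring
    rw [e3] at e2
    linarith
  have h3 : 1 - ν / 8 ≤ c + (⌈2 ^ m * (1 - ν / 8 - c)⌉ : ℝ) / 2 ^ m := by
    conv_lhs => rw [e1 (1 - ν / 8)]
    gcongr
    exact Int.le_ceil _
  have h4 : c + (⌈2 ^ m * (1 - ν / 8 - c)⌉ : ℝ) / 2 ^ m < 1 - ν / 8 + 1 / 2 ^ m := by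
    have e2 : c + ((⌈2 ^ m * (1 - ν / 8 - c)⌉ : ℝ) - 1) / 2 ^ m < 1 - ν / 8 := by
      conv_rhs => rw [e1 (1 - ν / 8)]
      gcongr
      have := Int.ceil_lt_add_one (2 ^ m * (1 - ν / 8 - c))
      linarith
    have e3 : ((⌈2 ^ m * (1 - ν / 8 - c)⌉ : ℝ) - 1) / 2 ^ m =
      (⌈2 ^ m * (1 - ν / 8 - c)⌉ : ℝ) / 2 ^ m - 1 / 2 ^ m := by ring
    rw [e3] at e2
    linarith
  generalize ⌊2 ^ m * (ν / 8 - c)⌋ = a at h1 h2
  generalize ⌈2 ^ m * (1 - ν / 8 - c)⌉ = b at h3 h4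
  refine ⟨a, b, ?_, ?_, by linarith, by linarith, h1, h3⟩
  · have h5 : (a:ℝ) / 2 ^ m < b / 2 ^ m := by linarith
    rw [div_lt_div_iff_of_pos_right hp] at h5
    exact_mod_cast h5
  · have h5 : ((b:ℝ) - a) / 2 ^ m ≤ 1 := by
      rw [sub_div]
      linarith
    rw [div_le_one hp] at h5
    exact_mod_cast h5

/-- **[RECT]** -/
theorem specRect : SpecRect := by
  intro ν θ v m B hν hν4 hθ hm hmθ hB
  choose a b hab hba ha hb ha' hb' using fun c : ℝ => exists_ends (c := c) hν hν4 hm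
  set α : Fin 3 → ℤ := fun j => if j = 2 then B else a (v j) with hα
  set β : Fin 3 → ℤ := fun j => b (v j) with hβ
  have hα2 : α 2 = B := if_pos rfl
  have hαj : ∀ j, j ≠ 2 → α j = a (v j) := fun j hj => if_neg hj
  refine ⟨α, β, hα2, fun j hj => by rw [hαj j hj]; exact hab (v j), ?_, ?_, ?_⟩
  · rintro x ⟨hx2, hx⟩ i
    rw [hα2] at hx2
    have hfl0 : fl θ 0 = 1 := rfl
    have hfl1 : fl θ 1 = 1 := rfl
    have hfl2 : fl θ 2 = 2 * θ := rfl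
    rw [abs_le] at hB
    have key : ∀ j, j ≠ 2 → 0 < x j ∧ x j < 1 := by
      intro j hj
      obtain ⟨h1, h2⟩ := hx j hj
      rw [hαj j hj] at h1
      exact ⟨lt_of_lt_of_le (ha (v j)) h1, lt_of_le_of_lt h2 (hb (v j))⟩
    fin_cases i
    · exact key 0 (by decide)
    · exact key 1 (by decide)
    · show 0 < x 2 ∧ x 2 < fl θ 2
      rw [hfl2, hx2]
      constructor <;> linarith [hB.1, hB.2]
  · have h0 : (rect α β).card = (b (v 0) - a (v 0)).toNat * (b (v 1) - a (v 1)).toNat := by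
      unfold rect
      rw [Fintype.card_piFinset, Fin.prod_univ_three]
      simp [hαj 0 (by decide), hαj 1 (by decide), hβ]
    rw [h0]
    have h1 : ∀ c : ℝ, (b c - a c).toNat ≤ 2 ^ m := by
      intro c
      have := hba c
      rw [Int.toNat_le]
      push_cast
      exact this
    calc _ ≤ 2 ^ m * 2 ^ m := Nat.mul_le_mul (h1 _) (h1 _)
      _ = 4 ^ m := by rw [← Nat.mul_pow]
  · rintro x ⟨-, hx⟩ j hj
    have hj' : j ∈ ({0, 1} : Finset (Fin 3)) := by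
      fin_cases j
      · simp
      · simp
      · exact absurd rfl hj
    obtain ⟨h1, h2⟩ := hx j hj'
    simp only [Pi.one_apply, mul_one] at h1 h2
    rw [hαj j hj]
    constructor
    · linarith [ha' (v j)]
    · have := hb' (v j)
      show x j ≤ v j + (b (v j) : ℝ) / 2 ^ m
      linarith

end Vale.Agent.P073.H953
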